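import Crest.Agent.GC.Defs

/-! Row 248: assembly of the jobs (as hypotheses). -/

set_option autoImplicit false
open CategoryTheory CategoryTheory.Limits Opposite
open Crest.GeometryTopology.Coherator Crest.GeometryTopology.Coherator.GlobTheory
open Crest.GeometryTopology.Coherator.Shape (globe faceMap)
universe u

namespace Crest.Agent.GC

variable {C : GlobTheory.{u}}

theorem good_of_uspec (O : Ops C) (k m : ℕ) (hk : k ≤ m + 1) (hT : Nonempty C.Tower)
    (hS : ShapeAPI.{u}) (hE : ElAPI C) (hC : CylAPI O k m) (hThy : JobThy O k m)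
    (hLift : JobLift O k m) (hU : ∀ T : Shape, T.dim ≤ m → ∃ a : Ar C, USpecAt O k m T a) :
    Good O k m := by
  intro X Y X' Y' i i' f g w
  choose U hUs using hU
  let ar : ULift.{u} (Bool ⊕ {T : Shape // T.dim ≤ m}) → Ar C := fun a =>
    match a with
    | ⟨Sum.inl false⟩ => ⟨X, Y, i⟩
    | ⟨Sum.inl true⟩ => ⟨X', Y', i'⟩
    | ⟨Sum.inr T⟩ => U T.1 T.2
  have hL : Lift O k m ar := hLift _ ar hS hE hC hk
    (fun T hT => ⟨⟨Sum.inr ⟨T, hT⟩⟩, hUs T hT⟩)
  obtain ⟨A, hA⟩ := hThy _ ar hT hC hL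
  obtain ⟨H, hH⟩ := hA ⟨Sum.inl false⟩ ⟨Sum.inl true⟩ ⟨f, g, w⟩
  exact ⟨A ⟨Sum.inl false⟩, A ⟨Sum.inl true⟩, H, hH⟩

theorem good_all (O : Ops C) (hT : Nonempty C.Tower) (hc : Contr C)
    (hS : ShapeAPI.{u}) (hE : ElAPI C) (hF : Fill3 C) (hΘ : Nonempty (Theta O))
    (hC : ∀ k m, CylAPI O k m) (hTF : ∀ k m, TF O k m) (hThy : ∀ k m, JobThy O k m)
    (hLift : ∀ k m, JobLift O k m) (hExp : JobExp C) (hCof : JobCof C) (hLA : JobLA O)
    (hLS : JobLS O) (hH1 : JobHat1 O) (hH2 : JobHat2 O) (hU : JobU O) (m : ℕ) :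
    ∀ k, k ≤ m + 1 → Good O k m := by
  have key : ∀ d k, k + d = m + 1 → ∀ l, k ≤ l → l ≤ m + 1 → Good O l m := by
    intro d
    have step : ∀ k, k ≤ m + 1 → (∀ l, k < l → l ≤ m + 1 → Good O l m) → Good O k m := by
      intro k hk ih
      refine good_of_uspec O k m hk hT hS hE (hC k m) (hThy k m) (hLift k m) (fun T hTm => ?_)
      refine hU k m T hk hTm hc hS hE hExp hCof ?_ ?_
      · intro l hkl hlm X Y i ι a β hX hi j hj hfill
        obtain ⟨H, hH, -⟩ := hLA l m hlm (ih l hkl (by omega)) (hTF l m) (hC l m) hF i ι a β hX hi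
        exact hLS l m i ⟨H, hH⟩ j hj hfill
      · intro hkm Y i α hi j h1 h2 h3
        exact hH2 k m hkm T hTm hc hF hH1 hLS hS (hC _ _) hΘ (ih (k + 1) (by omega) (by omega))
          Y i α hi j h1 h2 h3
    induction d with
    | zero =>
      intro k hk l h1 h2
      exact step l h2 (fun l' h3 h4 => absurd h3 (by omega))
    | succ d ih =>
      intro k hk l h1 h2
      exact step l h2 (fun l' h3 h4 => ih (k + 1) (by omega) l' (by omega) h4)
  intro k hk
  exact key (m + 1 - k) k (by omega) k le_rfl hk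

theorem isExp_of_isPushout' {X Y : GlobModel C} (n : ℕ) (a : GlobModel.freeOn C (globe n) ⟶ X)
    (i : X ⟶ Y) (b : GlobModel.freeOn C (globe (n + 1)) ⟶ Y)
    (σ : GlobModel.freeOn C (globe n) ⟶ GlobModel.freeOn C (globe (n + 1)))
    (hs : app σ (gen C (globe n)) =
      (src (gen C (globe (n + 1)) : Cell (GlobModel.freeOn C (globe (n + 1))) (n + 1))))
    (sq : IsPushout a σ i b) :
    IsExp i n (fun _ : Unit => (app a (gen C (globe n)) : Cell X n))
      (fun _ : Unit => (app b (gen C (globe (n + 1))) : Cell Y (n + 1))) := by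
  refine ⟨fun _ => ?_, fun Z g z hz => ?_⟩
  · have h := congrArg (fun φ => app φ (gen C (globe n))) sq.w
    simp only [app_comp] at h
    rw [h, hs]
    exact (app_face b _ _ _).symm
  · have hw : a ≫ g = σ ≫ cls (z ()) := by
      apply free_hom_ext
      rw [app_comp, app_comp, ← hz (), hs]
      exact ((app_face (cls (z ())) _ _ _).trans (by rw [app_cls_gen])).symm
    refine ⟨sq.desc g (cls (z ())) hw, ⟨sq.inl_desc _ _ _, fun _ => ?_⟩, ?_⟩
    · rw [← app_comp, sq.inr_desc]; exact app_cls_gen _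
    · rintro h ⟨h1, h2⟩
      apply sq.hom_ext
      · rw [h1, sq.inl_desc]
      · rw [sq.inr_desc]
        apply free_hom_ext
        rw [app_comp, h2 ()]
        exact (app_cls_gen _).symm

theorem isExp_of_isPushout {X Y : GlobModel C} (n : ℕ) (a : GlobModel.diskModel C n ⟶ X)
    (i : X ⟶ Y) (b : GlobModel.diskModel C (n + 1) ⟶ Y)
    (sq : IsPushout a (GlobModel.sourceIncl C n) i b) :
    IsExp i n (fun _ : Unit => (app a (gen C (globe n)) : Cell X n))
      (fun _ : Unit => (app b (gen C (globe (n + 1))) : Cell Y (n + 1))) := by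
  refine isExp_of_isPushout' n a i b (GlobModel.sourceIncl C n) ?_ sq
  show C.seq (C.one _) (C.ofShape (Shape.σ n)) = C.seq (C.ofShape (Shape.σ n)) (C.one _)
  rw [C.one_seq, C.seq_one]

theorem main_of_jobs (O : Ops C) (hT : Nonempty C.Tower) (hc : Contr C)
    (hS : ShapeAPI.{u}) (hE : ElAPI C) (hF : Fill3 C) (hΘ : Nonempty (Theta O))
    (hC : ∀ k m, CylAPI O k m) (hTF : ∀ k m, TF O k m) (hThy : ∀ k m, JobThy O k m)
    (hLift : ∀ k m, JobLift O k m) (hExp : JobExp C) (hCof : JobCof C) (hLA : JobLA O)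
    (hLS : JobLS O) (hH1 : JobHat1 O) (hH2 : JobHat2 O) (hU : JobU O) (hFin : JobFin O)
    (e : C.UnitChoice) (X : C.GlobModel) (hX : X.IsCellularModel) (n : ℕ)
    (a : GlobModel.diskModel C n ⟶ X)
    (Y : C.GlobModel) (i : X ⟶ Y) (b : GlobModel.diskModel C (n + 1) ⟶ Y)
    (sq : IsPushout a (GlobModel.sourceIncl C n) i b) :
    GlobModel.IsWeakEquiv e i := by
  have hi := isExp_of_isPushout n a i b sq
  obtain ⟨r, ⟨hr, -⟩, -⟩ := hi.univ X (𝟙 X) (fun _ => O.unit (app a (gen C (globe n))))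
    (fun _ => O.src_unit _)
  refine hFin e n i r hr (fun m hm => ?_)
  exact hLA n m hm (good_all O hT hc hS hE hF hΘ hC hTF hThy hLift hExp hCof hLA hLS hH1 hH2 hU m n
    (by omega)) (hTF n m) (hC n m) hF i _ _ _ (hCof.cell X hX) hi

end Crest.Agent.GC
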