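import Crest.Prelude.Def_GlobularCoherator

/-!
Row 248 (S0382): basic API for models of a globular theory.
Cells of a shape `S` of dimension `l` are the shape maps `globe l ⟶ S`.
-/

set_option autoImplicit false
open CategoryTheory CategoryTheory.Limits Opposite
open Crest.GeometryTopology.Coherator Crest.GeometryTopology.Coherator.GlobTheory
open Crest.GeometryTopology.Coherator.Shape (globe faceMap)
universe u

namespace Crest.Agent.GC

variable {C : GlobTheory.{u}}

/-- Elements of a model over a shape (`S`-diagrams). -/
abbrev El (X : GlobModel C) (S : Shape) : Type u := X.functor.obj (op (⟨S⟩ : C.Ob))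

/-- `n`-cells of a model. -/
abbrev Cell (X : GlobModel C) (n : ℕ) : Type u := El X (globe n)

/-- Action of an operation of the theory. -/
noncomputable def act {X : GlobModel C} {S T : Shape} (o : C.arr S T) (x : El X T) : El X S :=
  X.act o x

/-- Restriction along a shape map. -/
noncomputable def res {X : GlobModel C} {S T : Shape} (f : S ⟶ T) (x : El X T) : El X S :=
  act (C.ofShape f) x

/-- Iterated faces of a cell (`false` = source side, `true` = target side). -/
noncomputable def face {X : GlobModel C} {l n : ℕ} (h : l < n) (b : Bool) (x : Cell X n) :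
    Cell X l := res (faceMap h b) x

/-- Source of a cell (notation, so that it is syntactically a `face`). -/
scoped notation "src" => face (Nat.lt_add_one _) false

/-- Target of a cell (notation, so that it is syntactically a `face`). -/
scoped notation "tgt" => face (Nat.lt_add_one _) true

/-- A map of models applied to an element. -/
noncomputable def app {X Y : GlobModel C} (f : X ⟶ Y) {S : Shape} (x : El X S) : El Y S :=
  (show X.functor ⟶ Y.functor from f).app (op (⟨S⟩ : C.Ob)) x

/-- The last globe of a shape as a shape map. -/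
noncomputable def ap (S : Shape) : globe S.last ⟶ S := S.apex

theorem act_one {X : GlobModel C} {S : Shape} (x : El X S) : act (C.one S) x = x := by
  have := X.functor.map_id (op (⟨S⟩ : C.Ob))
  exact (types_congr_hom this x).trans rfl

theorem act_seq {X : GlobModel C} {R S T : Shape} (f : C.arr R S) (g : C.arr S T) (x : El X T) :
    act (C.seq f g) x = act f (act g x) := by
  have := X.functor.map_comp
    (Quiver.Hom.op (X := (⟨S⟩ : C.Ob)) (Y := (⟨T⟩ : C.Ob)) g)
    (Quiver.Hom.op (X := (⟨R⟩ : C.Ob)) (Y := (⟨S⟩ : C.Ob)) f)
  exact (types_congr_hom this x).trans rfl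

@[simp] theorem res_id {X : GlobModel C} {S : Shape} (x : El X S) : res (𝟙 S) x = x := by
  unfold res; rw [C.ofShape_id, act_one]

theorem res_comp {X : GlobModel C} {R S T : Shape} (f : R ⟶ S) (g : S ⟶ T) (x : El X T) :
    res (f ≫ g) x = res f (res g x) := by
  unfold res; rw [C.ofShape_comp, act_seq]

theorem res_act {X : GlobModel C} {R S T : Shape} (f : R ⟶ S) (o : C.arr S T) (x : El X T) :
    res f (act o x) = act (C.seq (C.ofShape f) o) x := by
  unfold res; rw [act_seq]

theorem app_act {X Y : GlobModel C} (f : X ⟶ Y) {S T : Shape} (o : C.arr S T) (x : El X T) :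
    app f (act o x) = act o (app f x) :=
  types_congr_hom ((show X.functor ⟶ Y.functor from f).naturality
    (Quiver.Hom.op (X := (⟨S⟩ : C.Ob)) (Y := (⟨T⟩ : C.Ob)) o)) x

theorem app_res {X Y : GlobModel C} (f : X ⟶ Y) {S T : Shape} (c : S ⟶ T) (x : El X T) :
    app f (res c x) = res c (app f x) := app_act f _ x

theorem app_face {X Y : GlobModel C} (f : X ⟶ Y) {l n : ℕ} (h : l < n) (b : Bool) (x : Cell X n) :
    app f (face h b x) = face h b (app f x) := app_act f _ x

@[simp] theorem app_id {X : GlobModel C} {S : Shape} (x : El X S) : app (𝟙 X) x = x := rfl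

theorem app_comp {X Y Z : GlobModel C} (f : X ⟶ Y) (g : Y ⟶ Z) {S : Shape} (x : El X S) :
    app (f ≫ g) x = app g (app f x) := rfl

theorem hom_ext {X Y : GlobModel C} {f g : X ⟶ Y}
    (h : ∀ (S : Shape) (x : El X S), app f x = app g x) : f = g := by
  apply NatTrans.ext
  funext ⟨⟨S⟩⟩
  ext x
  exact h S x

/-- Build a map of models from functions commuting with the action. -/
noncomputable def homMk {X Y : GlobModel C} (φ : ∀ S : Shape, El X S → El Y S)
    (h : ∀ (S T : Shape) (o : C.arr S T) (x : El X T), φ S (act o x) = act o (φ T x)) : X ⟶ Y :=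
  (show X.functor ⟶ Y.functor from
    { app := fun A => TypeCat.ofHom (φ A.unop.shape)
      naturality := fun A B o => by
        ext x
        exact h B.unop.shape A.unop.shape o.unop x })

@[simp] theorem app_homMk {X Y : GlobModel C} (φ : ∀ S : Shape, El X S → El Y S)
    (h : ∀ (S T : Shape) (o : C.arr S T) (x : El X T), φ S (act o x) = act o (φ T x))
    {S : Shape} (x : El X S) : app (homMk φ h) x = φ S x := rfl

theorem faceMap_comp {l n p : ℕ} (h : l < n) (h' : n < p) (b b' : Bool) :
    faceMap h b ≫ faceMap h' b' = faceMap (h.trans h') b := by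
  have := yoneda.map_comp (GlobeObj.faceArrow h b) (GlobeObj.faceArrow h' b')
  exact this.symm

theorem faceMap_comp_assoc {l n p : ℕ} (h : l < n) (h' : n < p) (b b' : Bool) {S : Shape}
    (c : globe p ⟶ S) : faceMap h b ≫ faceMap h' b' ≫ c = faceMap (h.trans h') b ≫ c := by
  rw [← Category.assoc, faceMap_comp]

@[simp] theorem face_face {X : GlobModel C} {l n p : ℕ} (h : l < n) (h' : n < p) (b b' : Bool)
    (x : Cell X p) : face h b (face h' b' x) = face (h.trans h') b x := by
  unfold face; rw [← res_comp, faceMap_comp]

theorem face_res {X : GlobModel C} {l n : ℕ} (h : l < n) (b : Bool) {S : Shape} (c : globe n ⟶ S)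
    (x : El X S) : face h b (res c x) = res (faceMap h b ≫ c) x := by
  unfold face; rw [res_comp]

theorem res_faceMap {X : GlobModel C} {l n : ℕ} (h : l < n) (b : Bool) (x : Cell X n) :
    res (faceMap h b) x = face h b x := rfl

theorem hinge_eq (S : Shape) {b : ℕ} (hb : b < S.last) : S.hinge hb = faceMap hb true ≫ ap S := rfl

theorem ap_globe (n : ℕ) : ap (globe n) = 𝟙 (globe n) := rfl

theorem ap_glue (S : Shape) (b h : ℕ) (hb : b < S.last) (hh : b < h) :
    ap (S.glue b h hb hh) = S.inRight b h hb hh := rfl

theorem glue_cond (S : Shape) (b h : ℕ) (hb : b < S.last) (hh : b < h) :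
    S.hinge hb ≫ S.inLeft b h hb hh = faceMap hh false ≫ S.inRight b h hb hh :=
  pushout.condition (f := GlobPsh.globeRepFace hb true ≫ S.apex) (g := GlobPsh.globeRepFace hh false)

theorem dim_globe (n : ℕ) : (globe n).dim = n := rfl

theorem dim_glue (S : Shape) (b h : ℕ) (hb : b < S.last) (hh : b < h) :
    (S.glue b h hb hh).dim = max S.dim h := rfl

theorem last_globe (n : ℕ) : (globe n).last = n := rfl

theorem last_glue (S : Shape) (b h : ℕ) (hb : b < S.last) (hh : b < h) :
    (S.glue b h hb hh).last = h := rfl

/-- Induction on shapes. -/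
theorem shape_induction {motive : Shape → Prop} (hg : ∀ n, motive (globe n))
    (hglue : ∀ (S : Shape) (b h : ℕ) (hb : b < S.last) (hh : b < h),
      motive S → motive (S.glue b h hb hh)) (S : Shape) : motive S := by
  obtain ⟨n, P⟩ := S
  induction P with
  | single n => exact hg n
  | glue P b h hb hh ih => exact hglue ⟨_, P⟩ b h hb hh ih

/-! Segal condition for elements. -/

theorem el_glue_exists {X : GlobModel C} (S : Shape) (b h : ℕ) (hb : b < S.last) (hh : b < h)
    (x : El X S) (y : Cell X h) (hxy : res (S.hinge hb) x = face hh false y) :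
    ∃ z : El X (S.glue b h hb hh), res (S.inLeft b h hb hh) z = x ∧ res (S.inRight b h hb hh) z = y :=
  Types.exists_of_isPullback (X.sums S b h hb hh) x y hxy

theorem el_glue_ext {X : GlobModel C} (S : Shape) (b h : ℕ) (hb : b < S.last) (hh : b < h)
    (z z' : El X (S.glue b h hb hh))
    (h1 : res (S.inLeft b h hb hh) z = res (S.inLeft b h hb hh) z')
    (h2 : res (S.inRight b h hb hh) z = res (S.inRight b h hb hh) z') : z = z' :=
  Types.ext_of_isPullback (X.sums S b h hb hh) h1 h2

/-! Yoneda. Elements of `freeOn C T` over `S` are operations `C.arr S T` (definitionally). -/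

/-- The generic element of the free model. -/
noncomputable def gen (C : GlobTheory.{u}) (T : Shape) : El (GlobModel.freeOn C T) T := C.one T

/-- The map out of a free model classified by an element. -/
noncomputable def cls {Z : GlobModel C} {T : Shape} (t : El Z T) : GlobModel.freeOn C T ⟶ Z :=
  homMk (fun _ o => act (show C.arr _ T from o) t) (fun _ _ o x => act_seq o x t)

theorem app_cls {Z : GlobModel C} {T S : Shape} (t : El Z T) (o : C.arr S T) :
    app (cls t) (show El (GlobModel.freeOn C T) S from o) = act o t := rfl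

theorem act_free {T R S : Shape} (o : C.arr R S) (x : El (GlobModel.freeOn C T) S) :
    act o x = C.seq o x := rfl

theorem act_gen {T S : Shape} (o : C.arr S T) :
    act o (gen C T) = (show El (GlobModel.freeOn C T) S from o) := C.seq_one o

@[simp] theorem app_cls_gen {Z : GlobModel C} {T : Shape} (t : El Z T) :
    app (cls t) (gen C T) = t := act_one t

theorem free_hom_ext {Z : GlobModel C} {T : Shape} {f g : GlobModel.freeOn C T ⟶ Z}
    (h : app f (gen C T) = app g (gen C T)) : f = g := by
  apply hom_ext
  intro S o
  have : o = act (show C.arr S T from o) (gen C T) := (act_gen _).symm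
  rw [this, app_act, app_act, h]

theorem cls_app_gen {Z : GlobModel C} {T : Shape} (f : GlobModel.freeOn C T ⟶ Z) :
    cls (app f (gen C T)) = f := free_hom_ext (app_cls_gen _)

/-! Parallel cells, steps, fillability. -/

/-- Parallel cells: all faces agree. -/
def Par {X : GlobModel C} {n : ℕ} (x y : Cell X n) : Prop :=
  ∀ (l : ℕ) (h : l < n) (b : Bool), face h b x = face h b y

/-- Some cell runs from `x` to `y`. -/
def Step {X : GlobModel C} {n : ℕ} (x y : Cell X n) : Prop :=
  ∃ z : Cell X (n + 1), src z = x ∧ tgt z = y

/-- Any two parallel `j`-cells are joined by a `(j+1)`-cell. -/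
def Fillable (X : GlobModel C) (j : ℕ) : Prop := ∀ x y : Cell X j, Par x y → Step x y

theorem Par.refl {X : GlobModel C} {n : ℕ} (x : Cell X n) : Par x x := fun _ _ _ => rfl
theorem Par.symm {X : GlobModel C} {n : ℕ} {x y : Cell X n} (h : Par x y) : Par y x :=
  fun l hl b => (h l hl b).symm
theorem Par.trans {X : GlobModel C} {n : ℕ} {x y z : Cell X n} (h : Par x y) (h' : Par y z) :
    Par x z := fun l hl b => (h l hl b).trans (h' l hl b)

theorem par_zero {X : GlobModel C} (x y : Cell X 0) : Par x y := fun _ h _ => absurd h (by omega)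

theorem par_succ {X : GlobModel C} {n : ℕ} {x y : Cell X (n + 1)} (h1 : src x = src y)
    (h2 : tgt x = tgt y) : Par x y := by
  intro l h b
  rcases Nat.lt_succ_iff_lt_or_eq.1 h with h' | rfl
  · have := congrArg (face h' b) h1
    simpa using this
  · cases b
    · exact h1
    · exact h2

theorem par_src_tgt {X : GlobModel C} {n : ℕ} (z : Cell X (n + 1)) : Par (src z) (tgt z) := by
  intro l h b; simp

theorem Step.par {X : GlobModel C} {n : ℕ} {x y : Cell X n} (h : Step x y) : Par x y := by
  obtain ⟨z, rfl, rfl⟩ := h; exact par_src_tgt z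

theorem Par.map {X Y : GlobModel C} (f : X ⟶ Y) {n : ℕ} {x y : Cell X n} (h : Par x y) :
    Par (app f x) (app f y) := by
  intro l hl b; rw [← app_face, ← app_face, h l hl b]

theorem Step.map {X Y : GlobModel C} (f : X ⟶ Y) {n : ℕ} {x y : Cell X n} (h : Step x y) :
    Step (app f x) (app f y) := by
  obtain ⟨z, rfl, rfl⟩ := h
  exact ⟨app f z, (app_face f _ _ z).symm, (app_face f _ _ z).symm⟩

/-- Free models on shapes of height `≤ j+1` are `j`-fillable in a coherator. -/
theorem fillable_free (hC : ∀ p : C.Admissible, ∃ z, IsFillerAlong (TheoryMap.id C) p z)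
    (T : Shape) (j : ℕ) (hT : T.dim ≤ j + 1) : Fillable (GlobModel.freeOn C T) j := by
  intro x y hxy
  have hp : C.OpsParallel j x y := by
    cases j with
    | zero => trivial
    | succ j => exact ⟨hxy j (Nat.lt_add_one j) false, hxy j (Nat.lt_add_one j) true⟩
  obtain ⟨z, h1, h2⟩ := hC ⟨j, T, hT, x, y, hp⟩
  exact ⟨z, h1, h2⟩

/-! Bridges to the Prelude's `cells` (all definitional). -/

theorem cells_src (X : GlobModel C) (n : ℕ) (x : Cell X (n + 1)) : X.cells.src n x = src x := rfl
theorem cells_tgt (X : GlobModel C) (n : ℕ) (x : Cell X (n + 1)) : X.cells.tgt n x = tgt x := rfl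
theorem cellsMap_app {X Y : GlobModel C} (f : X ⟶ Y) (n : ℕ) (x : Cell X n) :
    (GlobModel.cellsMap f).app n x = app f x := rfl

end Crest.Agent.GC
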