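import Crest.Agent.GC.Defs

/-!
Row 248 (S0382), job COF: free models, expansions of cofibrant models and cellular models are
cofibrant.
-/

set_option autoImplicit false
open CategoryTheory CategoryTheory.Limits Opposite
open Crest.GeometryTopology.Coherator Crest.GeometryTopology.Coherator.GlobTheory
open Crest.GeometryTopology.Coherator.Shape (globe faceMap)
universe u

namespace Crest.Agent.GC

variable {C : GlobTheory.{u}}

namespace COF

/-- Lifting a cell parallel to the image of a given cell. -/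
theorem lift_par {M Z : GlobModel C} {p : M ⟶ Z} (hp : TrivFib p) :
    ∀ (l : ℕ) (x : Cell M l) (z : Cell Z l), Par (app p x) z →
      ∃ y : Cell M l, Par x y ∧ app p y = z
  | 0, x, z, _ => by
    obtain ⟨y, hy⟩ := hp.1 z
    exact ⟨y, par_zero _ _, hy⟩
  | l + 1, x, z, h => by
    obtain ⟨w, h1, h2, h3⟩ := hp.2 l (src x) (tgt x) z (par_src_tgt x)
      (by rw [app_face]; exact (h _ _ _).symm) (by rw [app_face]; exact (h _ _ _).symm)
    exact ⟨w, par_succ h1.symm h2.symm, h3⟩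

/-- Level-wise lifts of the cells of a diagram. -/
def Lv {M Z : GlobModel C} (p : M ⟶ Z) {T : Shape} (t : El Z T) (l : ℕ) : Type u :=
  { x : (globe l ⟶ T) → Cell M l // (∀ c, app p (x c) = res c t) ∧
    ∀ c : globe (l + 1) ⟶ T, Par (x (faceMap (Nat.lt_add_one l) false ≫ c))
      (x (faceMap (Nat.lt_add_one l) true ≫ c)) }

theorem lv_step {M Z : GlobModel C} {p : M ⟶ Z} (hp : TrivFib p) {T : Shape} (t : El Z T) (l : ℕ)
    (x : Lv p t l) : ∃ y : Lv p t (l + 1), ∀ (c : globe (l + 1) ⟶ T) (b : Bool),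
      face (Nat.lt_add_one l) b (y.1 c) = x.1 (faceMap (Nat.lt_add_one l) b ≫ c) := by
  have h : ∀ c : globe (l + 1) ⟶ T, ∃ w : Cell M (l + 1),
      src w = x.1 (faceMap (Nat.lt_add_one l) false ≫ c) ∧
      tgt w = x.1 (faceMap (Nat.lt_add_one l) true ≫ c) ∧ app p w = res c t := fun c =>
    hp.2 l _ _ (res c t) (x.2.2 c) (by rw [x.2.1, face_res]) (by rw [x.2.1, face_res])
  choose w hw using h
  refine ⟨⟨w, fun c => (hw c).2.2, fun c => par_succ ?_ ?_⟩, fun c b => ?_⟩
  · rw [(hw _).1, (hw _).1, faceMap_comp_assoc, faceMap_comp_assoc]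
  · rw [(hw _).2.1, (hw _).2.1, faceMap_comp_assoc, faceMap_comp_assoc]
  · cases b
    · exact (hw c).1
    · exact (hw c).2.1

theorem lift_el (hE : ElAPI C) {M Z : GlobModel C} {p : M ⟶ Z} (hp : TrivFib p) {T : Shape}
    (t : El Z T) : ∃ s : El M T, app p s = t := by
  choose w0 hw0 using fun c : globe 0 ⟶ T => hp.1 (res c t)
  let x0 : Lv p t 0 := ⟨w0, hw0, fun _ => par_zero _ _⟩
  let x : ∀ l, Lv p t l := fun l => Nat.rec x0 (fun l y => (lv_step hp t l y).choose) l
  have hx : ∀ (l : ℕ) (c : globe (l + 1) ⟶ T) (b : Bool),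
      face (Nat.lt_add_one l) b ((x (l + 1)).1 c) = (x l).1 (faceMap (Nat.lt_add_one l) b ≫ c) :=
    fun l => (lv_step hp t l (x l)).choose_spec
  have hface : ∀ (l : ℕ) (c : globe l ⟶ T) (l' : ℕ) (h : l' < l) (b : Bool),
      (x l').1 (faceMap h b ≫ c) = face h b ((x l).1 c) := by
    intro l
    induction l with
    | zero => intro c l' h; omega
    | succ l ih =>
      intro c l' h b
      rcases Nat.lt_succ_iff_lt_or_eq.1 h with h' | rfl
      · rw [← faceMap_comp_assoc h' (Nat.lt_add_one l) b false, ih, ← hx, face_face]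
      · exact (hx _ c b).symm
  obtain ⟨s, hs⟩ := hE.exists_el M T (fun l => (x l).1) hface
  refine ⟨s, hE.ext Z T _ _ fun l c => ?_⟩
  rw [← app_res, hs, (x l).2.1]

theorem cof_free (hE : ElAPI C) (T : Shape) : Cof (GlobModel.freeOn C T) := by
  intro M Z p hp f
  obtain ⟨s, hs⟩ := lift_el hE hp (app f (gen C T))
  refine ⟨cls s, free_hom_ext ?_⟩
  rw [app_comp, app_cls_gen, hs]

theorem cof_exp {X Y : GlobModel C} (i : X ⟶ Y) (l : ℕ) (ι : Type) (a : ι → Cell X l)
    (β : ι → Cell Y (l + 1)) (hi : IsExp i l a β) (hX : Cof X) : Cof Y := by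
  intro M Z p hp f
  obtain ⟨g, hg⟩ := hX M Z p hp (i ≫ f)
  have hsrc : ∀ s, src (app f (β s)) = app p (app g (a s)) := fun s => by
    rw [← app_face, hi.src_β, ← app_comp, ← app_comp, hg]
  have h : ∀ s, ∃ w : Cell M (l + 1), src w = app g (a s) ∧ app p w = app f (β s) := by
    intro s
    obtain ⟨y, hy1, hy2⟩ := lift_par hp l (app g (a s)) (tgt (app f (β s)))
      (by rw [← hsrc]; exact par_src_tgt _)
    obtain ⟨w, h1, -, h3⟩ := hp.2 l _ y (app f (β s)) hy1 (hsrc s) hy2.symm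
    exact ⟨w, h1, h3⟩
  choose w hw using h
  obtain ⟨h, ⟨h1, h2⟩, -⟩ := hi.univ M g w fun s => (hw s).1
  refine ⟨h, ?_⟩
  obtain ⟨k, -, hk⟩ := hi.univ Z (i ≫ f) (fun s => app f (β s)) fun s => by
    rw [← app_face, hi.src_β, app_comp]
  refine (hk _ ⟨?_, fun s => ?_⟩).trans (hk _ ⟨rfl, fun _ => rfl⟩).symm
  · rw [← Category.assoc, h1, hg]
  · rw [app_comp, h2, (hw s).2]

theorem par_of_areParallel {M : GlobModel C} :
    ∀ (n : ℕ) (x y : Cell M n), M.cells.AreParallel n x y → Par x y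
  | 0, x, y, _ => par_zero x y
  | _ + 1, _, _, h => par_succ h.1 h.2

/-- Lifting a cell with prescribed boundary sphere. -/
theorem lift_sphere {M Z : GlobModel C} {p : M ⟶ Z} (hp : TrivFib p) :
    ∀ (n : ℕ) (s : M.cells.Sphere n) (z : Z.cells.cell n),
      Z.cells.bdry n z = (GlobModel.cellsMap p).sphere n s →
      ∃ w : M.cells.cell n, M.cells.bdry n w = s ∧ (GlobModel.cellsMap p).app n w = z
  | 0, _, z, _ => by
    obtain ⟨x, hx⟩ := hp.1 z
    exact ⟨x, rfl, hx⟩
  | n + 1, s, z, h => by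
    have h' := congrArg Subtype.val h
    obtain ⟨w, h1, h2, h3⟩ := hp.2 n s.1.1 s.1.2 z (par_of_areParallel n _ _ s.2)
      (congrArg Prod.fst h') (congrArg Prod.snd h')
    exact ⟨w, Subtype.ext (Prod.ext h1 h2), h3⟩

theorem sphere_comp {X Y Z : GlobModel C} (f : X ⟶ Y) (g : Y ⟶ Z) :
    ∀ (n : ℕ) (s : X.cells.Sphere n), (GlobModel.cellsMap (f ≫ g)).sphere n s =
      (GlobModel.cellsMap g).sphere n ((GlobModel.cellsMap f).sphere n s)
  | 0, _ => rfl
  | _ + 1, _ => rfl

theorem bdry_app {X Y : GlobModel C} (f : X ⟶ Y) :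
    ∀ (n : ℕ) (x : X.cells.cell n), Y.cells.bdry n ((GlobModel.cellsMap f).app n x) =
      (GlobModel.cellsMap f).sphere n (X.cells.bdry n x)
  | 0, _ => rfl
  | n + 1, x => Subtype.ext (Prod.ext ((GlobModel.cellsMap f).app_src n x).symm
      ((GlobModel.cellsMap f).app_tgt n x).symm)

theorem hlp_attach {M Z : GlobModel C} {p : M ⟶ Z} (hp : TrivFib p) {X Y : GlobModel C}
    {i : X ⟶ Y} (A : GlobModel.IsAttaching i) : HasLiftingProperty i p := by
  refine ⟨fun {g f} sq => ?_⟩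
  have hb : ∀ k, Z.cells.bdry _ ((GlobModel.cellsMap f).app _ (A.newCell k)) =
      (GlobModel.cellsMap (i ≫ f)).sphere _ (A.sphere k) := fun k => by
    rw [bdry_app, A.newCell_bdry, sphere_comp]
  choose w hw using fun k => lift_sphere hp (A.dimOf k)
    ((GlobModel.cellsMap g).sphere _ (A.sphere k)) ((GlobModel.cellsMap f).app _ (A.newCell k))
    (by rw [hb, ← sphere_comp, sq.w])
  obtain ⟨h, ⟨h1, h2⟩, -⟩ := A.universal M g w fun k => (hw k).1
  obtain ⟨k, -, hk⟩ := A.universal Z (i ≫ f) _ hb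
  refine ⟨⟨⟨h, h1, ?_⟩⟩⟩
  refine (hk _ ⟨?_, fun s => ?_⟩).trans (hk _ ⟨rfl, fun _ => rfl⟩).symm
  · rw [← Category.assoc, h1, sq.w]
  · rw [← (hw s).2, ← h2]; rfl

theorem cof_cell (X : GlobModel C) (hX : X.IsCellularModel) : Cof X := by
  obtain ⟨P⟩ := hX
  intro M Z p hp f
  letI := P.linOrd
  letI := P.bot
  letI := P.succ
  letI := P.wf
  have H : HasLiftingProperty ((Cocone.mk X P.chain.incl).ι.app ⊥) p :=
    HasLiftingProperty.transfiniteComposition.hasLiftingProperty_ι_app_bot P.chain.isColimit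
      (fun j hj => hlp_attach hp (P.attach j hj))
  have hI : IsInitial (P.chain.F.obj ⊥) := P.startIsInitial.ofIso P.chain.isoBot.symm
  have sq : CommSq (hI.to M) ((Cocone.mk X P.chain.incl).ι.app ⊥) p f := ⟨hI.hom_ext _ _⟩
  exact ⟨sq.lift, sq.fac_right⟩

end COF

theorem jobCof (_hS : ShapeAPI.{u}) (hE : ElAPI C) : JobCof C where
  free := COF.cof_free hE
  exp := COF.cof_exp
  cell := COF.cof_cell

end Crest.Agent.GC
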