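import Crest.Agent.GC.Defs

/-!
Row 248 (S0382), job CYL: constructors and extensionality for cylinders.
-/

set_option autoImplicit false
open CategoryTheory CategoryTheory.Limits Opposite
open Crest.GeometryTopology.Coherator Crest.GeometryTopology.Coherator.GlobTheory
open Crest.GeometryTopology.Coherator.Shape (globe faceMap)
universe u

namespace Crest.Agent.GC

variable {C : GlobTheory.{u}}

namespace JCyl

variable {O : Ops C} {k m : ℕ} {X Y : GlobModel C} {i : X ⟶ Y}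

/-- The cylinder conditions at one cell. -/
def Cond (O : Ops C) (k m : ℕ) (i : X ⟶ Y) {S : Shape} (top : El Y S)
    (B : ∀ l : ℕ, l ≤ m → (globe l ⟶ S) → Cell X l)
    (G : ∀ l : ℕ, l ≤ m → (globe l ⟶ S) → Cell Y (l + 1)) (l : ℕ) (hl : l ≤ m)
    (c : globe l ⟶ S) : Prop :=
  (∀ (l' : ℕ) (h : l' < l) (b : Bool),
    B l' (h.le.trans hl) (faceMap h b ≫ c) = face h b (B l hl c)) ∧
  src (G l hl c) = tr O k l (fun l' h b => G l' (h.le.trans hl) (faceMap h b ≫ c))
      (app i (B l hl c)) ∧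
  tgt (G l hl c) = res c top ∧ (l < k → G l hl c = O.unit (app i (B l hl c)))

/-- A cylinder from cellwise conditions. -/
def mkCyl {S : Shape} (top : El Y S) (B : ∀ l : ℕ, l ≤ m → (globe l ⟶ S) → Cell X l)
    (G : ∀ l : ℕ, l ≤ m → (globe l ⟶ S) → Cell Y (l + 1))
    (h : ∀ l hl c, Cond O k m i top B G l hl c) : Cyl O k m i S where
  top := top
  bot := B
  gam := G
  bot_face l hl c := (h l hl c).1
  gam_src l hl c := (h l hl c).2.1
  gam_tgt l hl c := (h l hl c).2.2.1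
  gam_low l hl c := (h l hl c).2.2.2

theorem cond_cover {R S : Shape} {top : El Y S} {B : ∀ l : ℕ, l ≤ m → (globe l ⟶ S) → Cell X l}
    {G : ∀ l : ℕ, l ≤ m → (globe l ⟶ S) → Cell Y (l + 1)} (f : R ⟶ S) (z : Cyl O k m i R)
    (ht : res f top = z.top) (hB : ∀ l hl c, B l hl (c ≫ f) = z.bot l hl c)
    (hG : ∀ l hl c, G l hl (c ≫ f) = z.gam l hl c) (l : ℕ) (hl : l ≤ m) (c : globe l ⟶ R) :
    Cond O k m i top B G l hl (c ≫ f) := by
  refine ⟨fun l' h b => ?_, ?_, ?_, fun hk => ?_⟩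
  · rw [← Category.assoc, hB, hB, z.bot_face]
  · rw [hG, hB, z.gam_src]
    congr 1
    funext l' h b
    rw [← Category.assoc, hG]
  · rw [hG, z.gam_tgt, res_comp, ht]
  · rw [hG, hB, z.gam_low l hl c hk]

theorem mkCyl_res {R S : Shape} {top : El Y S} {B : ∀ l : ℕ, l ≤ m → (globe l ⟶ S) → Cell X l}
    {G : ∀ l : ℕ, l ≤ m → (globe l ⟶ S) → Cell Y (l + 1)}
    (h : ∀ l hl c, Cond O k m i top B G l hl c) (f : R ⟶ S) (z : Cyl O k m i R)
    (ht : res f top = z.top) (hB : ∀ l hl c, B l hl (c ≫ f) = z.bot l hl c)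
    (hG : ∀ l hl c, G l hl (c ≫ f) = z.gam l hl c) : (mkCyl top B G h).res f = z := by
  refine Cyl.ext ht ?_ ?_
  · funext l hl c; exact hB l hl c
  · funext l hl c; exact hG l hl c

/-- Families on the cells of `globe (n+1)`. -/
theorem fam_globe (hS : ShapeAPI.{u}) (m n : ℕ) (A : ℕ → Type u)
    (F : ∀ l, l ≤ m → l < n + 1 → Bool → A l) (a : n + 1 ≤ m → A (n + 1)) :
    ∃ G : ∀ l, l ≤ m → (globe l ⟶ globe (n + 1)) → A l,
      (∀ l hl h b, G l hl (faceMap h b) = F l hl h b) ∧ ∀ hn, G (n + 1) hn (𝟙 _) = a hn := by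
  classical
  refine ⟨fun l hl c => if h : l < n + 1 then F l hl h (Classical.choose (hS.globe_lt l _ h c))
    else (show n + 1 = l from le_antisymm (not_lt.1 h) (hS.le_dim _ l c)) ▸
      a ((not_lt.1 h).trans hl), fun l hl h b => ?_, fun hn => ?_⟩
  · beta_reduce
    rw [dif_pos h]
    have := Classical.choose_spec (hS.globe_lt l _ h (faceMap h b))
    rw [← hS.face_inj _ _ h _ _ this]
  · beta_reduce
    rw [dif_neg (lt_irrefl _)]

theorem globe_cases (hS : ShapeAPI.{u}) {l n : ℕ} (c : globe l ⟶ globe n) :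
    (∃ (h : l < n) (b : Bool), c = faceMap h b) ∨ ∃ h : l = n, c = eqToHom (by rw [h]) := by
  have h1 : l ≤ n := hS.le_dim _ l c
  rcases h1.lt_or_eq with h | rfl
  · exact Or.inl ⟨h, hS.globe_lt l n h c⟩
  · exact Or.inr ⟨rfl, hS.globe_self l c⟩

theorem par_cond {n : ℕ} {z z' : Cyl O k m i (globe n)} (hp : CylPar z z') (b₀ b₁ : Bool)
    {l : ℕ} (h : l < n) (b : Bool) :
    (cond b₀ z' z).res (faceMap h b) = (cond b₁ z' z).res (faceMap h b) := by
  cases b₀ <;> cases b₁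
  · rfl
  · exact hp l h b
  · exact (hp l h b).symm
  · rfl

theorem par_bot {n : ℕ} {z z' : Cyl O k m i (globe n)} (hp : CylPar z z') (b₀ b₁ : Bool)
    {l : ℕ} (hl : l ≤ m) (h : l < n) (b : Bool) :
    (cond b₀ z' z).bot l hl (faceMap h b) = (cond b₁ z' z).bot l hl (faceMap h b) := by
  have := congrArg (fun y : Cyl O k m i (globe l) => y.bot l hl (𝟙 _)) (par_cond hp b₀ b₁ h b)
  simpa using this

theorem par_gam {n : ℕ} {z z' : Cyl O k m i (globe n)} (hp : CylPar z z') (b₀ b₁ : Bool)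
    {l : ℕ} (hl : l ≤ m) (h : l < n) (b : Bool) :
    (cond b₀ z' z).gam l hl (faceMap h b) = (cond b₁ z' z).gam l hl (faceMap h b) := by
  have := congrArg (fun y : Cyl O k m i (globe l) => y.gam l hl (𝟙 _)) (par_cond hp b₀ b₁ h b)
  simpa using this

theorem sphFam_lt {n : ℕ} (hn : n ≤ m) {z z' : Cyl O k m i (globe n)} (hp : CylPar z z')
    (b₀ : Bool) {l : ℕ} (h : l < n) (h' : l < n + 1) (b : Bool) :
    sphFam hn z z' l h' b = (cond b₀ z' z).gam l (h.le.trans hn) (faceMap h b) := by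
  unfold sphFam
  rw [fo_lt h, par_gam hp b b₀]

theorem sphFam_self {n : ℕ} (hn : n ≤ m) (z z' : Cyl O k m i (globe n)) (h' : n < n + 1)
    (b : Bool) : sphFam hn z z' n h' b = (cond b z' z).gam n hn (𝟙 _) := by
  unfold sphFam
  rw [fo_self]

theorem sph_ok (n : ℕ) (hn : n ≤ m) (z z' : Cyl O k m i (globe n)) (w : Cell Y (n + 1))
    (hp : CylPar z z') (h1 : src w = app i (z.bot n hn (𝟙 _)))
    (h2 : tgt w = app i (z'.bot n hn (𝟙 _))) : TrOK O k le_rfl (sphFam hn z z') w := by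
  have hw : ∀ b : Bool, face (Nat.lt_add_one n) b w = app i ((cond b z' z).bot n hn (𝟙 _)) := by
    intro b; cases b
    · exact h1
    · exact h2
  have hfam : ∀ b₀ : Bool, (sphFam hn z z').below (Nat.le_succ n) = (cond b₀ z' z).fam hn (𝟙 _) := by
    intro b₀
    funext l h b
    simp only [Fam.below, Cyl.fam, Category.comp_id]
    exact sphFam_lt hn hp b₀ h _ b
  intro l h b
  rcases Nat.lt_succ_iff_lt_or_eq.1 h with h' | rfl
  · have H := ((cond b z' z).trOK hn (𝟙 _)) l h' b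
    rw [← hw b, ← hfam b, face_face] at H
    exact H
  · rw [sphFam_self, hw b]
    refine ⟨?_, fun hk => ?_⟩
    · rw [(cond b z' z).gam_src]
      congr 1
      exact (hfam b).symm
    · rw [(cond b z' z).gam_low l hn _ hk, O.tgt_unit]

theorem mkGen (hS : ShapeAPI.{u}) (n : ℕ) (z z' : Cyl O k m i (globe n)) (x : Cell Y (n + 1))
    (w : n + 1 ≤ m → Cell X (n + 1)) (γ : n + 1 ≤ m → Cell Y (n + 2)) (hp : CylPar z z')
    (hx1 : src x = z.top) (hx2 : tgt x = z'.top)
    (hw1 : ∀ hn, src (w hn) = z.bot n (by omega) (𝟙 _))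
    (hw2 : ∀ hn, tgt (w hn) = z'.bot n (by omega) (𝟙 _))
    (hγ1 : ∀ hn, src (γ hn) = tr O k (n + 1) (sphFam (by omega) z z') (app i (w hn)))
    (hγ2 : ∀ hn, tgt (γ hn) = x)
    (hγ3 : ∀ hn, n + 1 < k → γ hn = O.unit (app i (w hn))) :
    ∃ y : Cyl O k m i (globe (n + 1)), y.res (faceMap (Nat.lt_add_one n) false) = z ∧
      y.res (faceMap (Nat.lt_add_one n) true) = z' ∧ y.top = x ∧
      ∀ hn, y.bot (n + 1) hn (𝟙 _) = w hn ∧ y.gam (n + 1) hn (𝟙 _) = γ hn := by
  obtain ⟨B, hB1, hB2⟩ := fam_globe hS m n (fun l => Cell X l)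
    (fun l hl h b => (cond b z' z).bot l hl (fo (Nat.le_of_lt_succ h) b)) w
  obtain ⟨G, hG1, hG2⟩ := fam_globe hS m n (fun l => Cell Y (l + 1))
    (fun l hl h b => (cond b z' z).gam l hl (fo (Nat.le_of_lt_succ h) b)) γ
  have hB : ∀ (b₀ : Bool) l hl (c : globe l ⟶ globe n),
      B l hl (c ≫ faceMap (Nat.lt_add_one n) b₀) = (cond b₀ z' z).bot l hl c := by
    intro b₀ l hl c
    rcases globe_cases hS c with ⟨h, b, rfl⟩ | ⟨rfl, rfl⟩
    · rw [faceMap_comp, hB1, fo_lt h, par_bot hp b b₀]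
    · rw [eqToHom_refl, Category.id_comp, hB1, fo_self]
  have hG : ∀ (b₀ : Bool) l hl (c : globe l ⟶ globe n),
      G l hl (c ≫ faceMap (Nat.lt_add_one n) b₀) = (cond b₀ z' z).gam l hl c := by
    intro b₀ l hl c
    rcases globe_cases hS c with ⟨h, b, rfl⟩ | ⟨rfl, rfl⟩
    · rw [faceMap_comp, hG1, fo_lt h, par_gam hp b b₀]
    · rw [eqToHom_refl, Category.id_comp, hG1, fo_self]
  have ht : ∀ b₀ : Bool, res (faceMap (Nat.lt_add_one n) b₀) x = (cond b₀ z' z).top := by
    intro b₀; cases b₀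
    · exact hx1
    · exact hx2
  have hc : ∀ l hl c, Cond O k m i x B G l hl c := by
    intro l hl c
    rcases globe_cases hS c with ⟨h, b, rfl⟩ | ⟨rfl, rfl⟩
    · rw [← fo_faceMap (Nat.le_of_lt_succ h) (Nat.lt_add_one n) b]
      exact cond_cover _ (cond b z' z) (ht b) (hB b) (hG b) l hl _
    · rw [eqToHom_refl]
      have hw : ∀ b : Bool, face (Nat.lt_add_one n) b (w hl) =
          (cond b z' z).bot n (by omega) (𝟙 _) := by
        intro b; cases b
        · exact hw1 hl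
        · exact hw2 hl
      refine ⟨fun l' h b => ?_, ?_, ?_, fun hk => ?_⟩
      · rw [Category.comp_id, hB1, hB2]
        rcases Nat.lt_succ_iff_lt_or_eq.1 h with h' | rfl
        · rw [fo_lt h', ← face_face h' (Nat.lt_add_one n) b b, hw b, ← (cond b z' z).bot_face,
            Category.comp_id]
        · rw [fo_self, hw b]
      · rw [hG2, hB2, hγ1]
        congr 1
        funext l' h b
        rw [Category.comp_id, hG1]
        rfl
      · rw [hG2, hγ2, res_id]
      · rw [hG2, hB2, hγ3 hl hk]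
  exact ⟨mkCyl x B G hc, mkCyl_res hc _ z (ht false) (hB false) (hG false),
    mkCyl_res hc _ z' (ht true) (hB true) (hG true), rfl, fun hn => ⟨hB2 hn, hG2 hn⟩⟩

end JCyl

open JCyl in
theorem cylAPI (O : Ops C) (k m : ℕ) (hS : ShapeAPI.{u}) : CylAPI O k m where
  mk0 {X Y} i w γ h1 h2 := by
    have h0 : ∀ l, (globe l ⟶ globe 0) → 0 = l := fun l c =>
      (Nat.le_zero.1 (hS.le_dim _ l c)).symm
    have hc : ∀ l hl c, Cond O k m i (tgt γ) (fun l _ c => h0 l c ▸ w) (fun l _ c => h0 l c ▸ γ)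
        l hl c := by
      intro l hl c
      obtain rfl := h0 l c
      obtain rfl := hS.globe_self 0 c
      exact ⟨fun l' h => absurd h (by omega), h1, (res_id _).symm, h2⟩
    exact ⟨mkCyl _ _ _ hc, rfl, rfl, rfl⟩
  mkS {X Y} i n hn z z' w γ hp h1 h2 h3 h4 := by
    have hok := sph_ok n (by omega) z z' (app i w) hp (by rw [← app_face, h1])
      (by rw [← app_face, h2])
    have hf : ∀ b : Bool, face (Nat.lt_add_one n) b (tgt γ) = (cond b z' z).top := by
      intro b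
      have := hok.face_lt (Nat.lt_add_one n) b
      rw [← h3, sphFam_self, (cond b z' z).gam_tgt, res_id, face_face] at this
      rw [face_face, this]
    obtain ⟨y, e1, e2, e3, e4⟩ := mkGen hS n z z' (tgt γ) (fun _ => w) (fun _ => γ) hp (hf false)
      (hf true) (fun _ => h1) (fun _ => h2) (fun _ => h3) (fun _ => rfl) (fun _ => h4)
    exact ⟨y, e1, e2, e3, e4 hn⟩
  sph_ok {X Y} i n hn z z' w hp h1 h2 := sph_ok n hn z z' w hp h1 h2
  mkHi {X Y} i n hn z z' x hp h1 h2 := by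
    obtain ⟨y, e1, e2, e3, -⟩ := mkGen hS n z z' x (fun h => absurd h (by omega))
      (fun h => absurd h (by omega)) hp h1 h2 (fun h => absurd h (by omega))
      (fun h => absurd h (by omega)) (fun h => absurd h (by omega)) (fun h => absurd h (by omega))
      (fun h => absurd h (by omega))
    exact ⟨y, e1, e2, e3⟩
  extHi {X Y} i n hn y y' h1 h2 h3 := by
    have hr : ∀ b : Bool, y.res (faceMap (Nat.lt_add_one n) b) =
        y'.res (faceMap (Nat.lt_add_one n) b) := by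
      intro b; cases b
      · exact h1
      · exact h2
    refine Cyl.ext h3 ?_ ?_
    · funext l hl c
      have h : l < n + 1 := by omega
      obtain ⟨b, rfl⟩ := hS.globe_lt l _ h c
      rw [← fo_faceMap (Nat.le_of_lt_succ h) (Nat.lt_add_one n) b, ← Cyl.res_bot, ← Cyl.res_bot,
        hr b]
    · funext l hl c
      have h : l < n + 1 := by omega
      obtain ⟨b, rfl⟩ := hS.globe_lt l _ h c
      rw [← fo_faceMap (Nat.le_of_lt_succ h) (Nat.lt_add_one n) b, ← Cyl.res_gam, ← Cyl.res_gam,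
        hr b]
  glue_exists {X Y} i S b h hb hh x y hxy := by
    obtain ⟨t, ht1, ht2⟩ := el_glue_exists S b h hb hh x.top y.top
      (congrArg Cyl.top hxy)
    choose B hB1 hB2 using fun (l : ℕ) (hl : l ≤ m) => hS.glue_desc S b h hb hh l (Cell X l)
      (x.bot l hl) (y.bot l hl) (fun c => by rw [← Cyl.res_bot, ← Cyl.res_bot, hxy])
    choose G hG1 hG2 using fun (l : ℕ) (hl : l ≤ m) => hS.glue_desc S b h hb hh l (Cell Y (l + 1))
      (x.gam l hl) (y.gam l hl) (fun c => by rw [← Cyl.res_gam, ← Cyl.res_gam, hxy])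
    have hc : ∀ l hl c, Cond O k m i t B G l hl c := by
      intro l hl c
      rcases hS.glue_cases S b h hb hh l c with ⟨c', rfl⟩ | ⟨c', rfl⟩
      · exact cond_cover _ x ht1 hB1 hG1 l hl c'
      · exact cond_cover _ y ht2 hB2 hG2 l hl c'
    exact ⟨mkCyl t B G hc, mkCyl_res hc _ x ht1 hB1 hG1, mkCyl_res hc _ y ht2 hB2 hG2⟩
  glue_ext {X Y} i S b h hb hh z z' h1 h2 := by
    refine Cyl.ext (el_glue_ext S b h hb hh _ _ (congrArg Cyl.top h1) (congrArg Cyl.top h2)) ?_ ?_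
    · funext l hl c
      rcases hS.glue_cases S b h hb hh l c with ⟨c', rfl⟩ | ⟨c', rfl⟩
      · rw [← Cyl.res_bot, ← Cyl.res_bot, h1]
      · rw [← Cyl.res_bot, ← Cyl.res_bot, h2]
    · funext l hl c
      rcases hS.glue_cases S b h hb hh l c with ⟨c', rfl⟩ | ⟨c', rfl⟩
      · rw [← Cyl.res_gam, ← Cyl.res_gam, h1]
      · rw [← Cyl.res_gam, ← Cyl.res_gam, h2]

end Crest.Agent.GC
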