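import Crest.Agent.GC.Defs

/-!
Row 248 (S0382), job DIV: transport is surjective up to `Step` (division lemma, 2-out-of-6).
-/

set_option autoImplicit false
open CategoryTheory CategoryTheory.Limits Opposite
open Crest.GeometryTopology.Coherator Crest.GeometryTopology.Coherator.GlobTheory
open Crest.GeometryTopology.Coherator.Shape (globe faceMap)
universe u

namespace Crest.Agent.GC

variable {C : GlobTheory.{u}}

namespace DIVx

variable {X : GlobModel C} {n : ℕ}

/-- `F` maps `Hom(p,q)` to `Hom(p',q')`, compatibly with `Step`. -/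
structure HMap (F : Cell X (n + 1) → Cell X (n + 1)) (p q p' q' : Cell X n) : Prop where
  maps : ∀ w, src w = p → tgt w = q → src (F w) = p' ∧ tgt (F w) = q'
  step : ∀ w w', src w = p → tgt w = q → Step w w' → Step (F w) (F w')

/-- `F` is a bijection on `Step`-classes. -/
structure HBij (F : Cell X (n + 1) → Cell X (n + 1)) (p q p' q' : Cell X n) : Prop
    extends HMap F p q p' q' where
  surj : ∀ x, src x = p' → tgt x = q' → ∃ w, src w = p ∧ tgt w = q ∧ Step (F w) x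
  inj : ∀ w w', src w = p → tgt w = q → src w' = p → tgt w' = q → Step (F w) (F w') → Step w w'

theorem HMap.comp {F G : Cell X (n + 1) → Cell X (n + 1)} {p q p' q' p'' q'' : Cell X n}
    (hF : HMap F p q p' q') (hG : HMap G p' q' p'' q'') : HMap (fun w => G (F w)) p q p'' q'' where
  maps w h1 h2 := hG.maps _ (hF.maps w h1 h2).1 (hF.maps w h1 h2).2
  step w w' h1 h2 hs := hG.step _ _ (hF.maps w h1 h2).1 (hF.maps w h1 h2).2 (hF.step w w' h1 h2 hs)

theorem HBij.comp (O : Ops C) {F G : Cell X (n + 1) → Cell X (n + 1)} {p q p' q' p'' q'' : Cell X n}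
    (hF : HBij F p q p' q') (hG : HBij G p' q' p'' q'') : HBij (fun w => G (F w)) p q p'' q'' where
  toHMap := hF.toHMap.comp hG.toHMap
  surj x h1 h2 := by
    obtain ⟨y, y1, y2, hy⟩ := hG.surj x h1 h2
    obtain ⟨w, w1, w2, hw⟩ := hF.surj y y1 y2
    exact ⟨w, w1, w2,
      O.step_trans (hG.step _ _ (hF.maps w w1 w2).1 (hF.maps w w1 w2).2 hw) hy⟩
  inj w w' h1 h2 h1' h2' hs :=
    hF.inj w w' h1 h2 h1' h2' (hG.inj _ _ (hF.maps w h1 h2).1 (hF.maps w h1 h2).2
      (hF.maps w' h1' h2').1 (hF.maps w' h1' h2').2 hs)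

theorem hbij_id (O : Ops C) (p q : Cell X n) : HBij (fun w => w) p q p q where
  maps _ h1 h2 := ⟨h1, h2⟩
  step _ _ _ _ hs := hs
  surj x h1 h2 := ⟨x, h1, h2, O.step_refl x⟩
  inj _ _ _ _ _ _ hs := hs

/-- If `T ∘ Φ ~ id` and `T` is bijective then `Φ` is bijective. -/
theorem hbij_of_left (O : Ops C) {Φ T : Cell X (n + 1) → Cell X (n + 1)} {p q p' q' : Cell X n}
    (hΦ : HMap Φ p q p' q') (hT : HBij T p' q' p q)
    (h : ∀ w, src w = p → tgt w = q → Step (T (Φ w)) w) : HBij Φ p q p' q' where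
  toHMap := hΦ
  surj x h1 h2 := by
    obtain ⟨t1, t2⟩ := hT.maps x h1 h2
    obtain ⟨f1, f2⟩ := hΦ.maps _ t1 t2
    exact ⟨T x, t1, t2, hT.inj _ _ f1 f2 h1 h2 (h _ t1 t2)⟩
  inj w w' h1 h2 h1' h2' hs := by
    obtain ⟨f1, f2⟩ := hΦ.maps _ h1 h2
    exact O.step_trans (O.step_symm (h w h1 h2))
      (O.step_trans (hT.step _ _ f1 f2 hs) (h w' h1' h2'))

/-- 2-out-of-6. -/
theorem six (O : Ops C) {A B A' : Cell X (n + 1) → Cell X (n + 1)}
    {p q p1 q1 p2 q2 p3 q3 : Cell X n} (hA : HMap A p q p1 q1) (hB : HMap B p1 q1 p2 q2)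
    (hA' : HMap A' p2 q2 p3 q3) (h1 : HBij (fun w => B (A w)) p q p2 q2)
    (h2 : HBij (fun w => A' (B w)) p1 q1 p3 q3) : HBij A p q p1 q1 where
  toHMap := hA
  surj x x1 x2 := by
    obtain ⟨b1, b2⟩ := hB.maps x x1 x2
    obtain ⟨w, w1, w2, hw⟩ := h1.surj (B x) b1 b2
    obtain ⟨a1, a2⟩ := hA.maps w w1 w2
    obtain ⟨c1, c2⟩ := hB.maps _ a1 a2
    exact ⟨w, w1, w2, h2.inj _ _ a1 a2 x1 x2 (hA'.step _ _ c1 c2 hw)⟩
  inj w w' w1 w2 w1' w2' hs := by
    obtain ⟨a1, a2⟩ := hA.maps w w1 w2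
    exact h1.inj w w' w1 w2 w1' w2' (hB.step _ _ a1 a2 hs)

variable (O : Ops C)

theorem v3_par {l : ℕ} {h : l < n} {δ γ : Cell X (l + 1)} {p q : Cell X n} (hv : V3 h δ p γ)
    (hp : Par p q) : V3 h δ q γ :=
  ⟨hv.1.trans (hp l h false), (hp l h true).symm.trans hv.2⟩

theorem v3_inv {l : ℕ} {h : l < n} {δ γ : Cell X (l + 1)} {p : Cell X n} (hv : V3 h δ p γ) :
    V3 h (O.inv δ) (O.W l δ p γ) (O.inv γ) :=
  ⟨by rw [O.tgt_inv, O.W_src h hv], by rw [O.src_inv, O.W_tgt h hv]⟩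

theorem W_par {l : ℕ} {h : l < n} {δ γ : Cell X (l + 1)} {p q : Cell X n} (hv : V3 h δ p γ)
    (hp : Par p q) : Par (O.W l δ p γ) (O.W l δ q γ) := by
  have hv' := v3_par hv hp
  intro l' h' b
  rcases lt_trichotomy l' l with hl | rfl | hl
  · exact (O.W_lo hl h hv b).trans ((hp l' _ b).trans (O.W_lo hl h hv' b).symm)
  · cases b
    · exact (O.W_src h hv).trans (O.W_src h hv').symm
    · exact (O.W_tgt h hv).trans (O.W_tgt h hv').symm
  · rw [O.W_hi hl h' hv b, O.W_hi hl h' hv' b, hp l' h' b]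

theorem tr_par {k j : ℕ} {hj : j ≤ n} {G : Fam X j} {p q : Cell X n} (H : TrOK O k hj G p)
    (hp : Par p q) : Par (tr O k j G p) (tr O k j G q) := by
  have H' := H.of_par hp
  intro l h b
  rcases lt_or_ge l j with hl | hl
  · exact (H.face_lt hl b).trans (H'.face_lt hl b).symm
  · rw [H.face_ge hl h b, H'.face_ge hl h b, hp l h b]

theorem hmap_lo {l : ℕ} {h : l < n} {δ γ : Cell X (l + 1)} {p q : Cell X n} (hv : V3 h δ p γ) :
    HMap (fun w => O.W l δ w γ) p q (O.W l δ p γ) (O.W l δ q γ) where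
  maps w h1 h2 := by
    subst h1; subst h2
    have hv' : V3 (h.trans (Nat.lt_add_one n)) δ w γ := V3.of_face h _ hv
    exact ⟨O.W_hi h _ hv' false, O.W_hi h _ hv' true⟩
  step w w' h1 _ hs := by
    subst h1
    exact O.W_step _ (V3.of_face h _ hv) hs

theorem hmap_top {δ γ : Cell X (n + 1)} :
    HMap (fun w => O.W n δ w γ) (tgt δ) (src γ) (src δ) (tgt γ) where
  maps w h1 h2 := by
    have hv : V3 (Nat.lt_add_one n) δ w γ := ⟨h1.symm, h2⟩
    exact ⟨O.W_src _ hv, O.W_tgt _ hv⟩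
  step w w' h1 h2 hs := O.W_step _ ⟨h1.symm, h2⟩ hs

variable {O}

theorem phi_top (Θ : Theta O) (δ γ : Cell X (n + 1)) :
    HBij (fun w => O.Phi n δ w γ) (tgt δ) (src γ) (tgt δ) (src γ) := by
  have hA := hmap_top O (δ := δ) (γ := γ)
  have hB := hmap_top O (δ := O.inv δ) (γ := O.inv γ)
  rw [O.tgt_inv, O.src_inv, O.src_inv, O.tgt_inv] at hB
  refine hbij_of_left O (hA.comp hB) (hbij_id O _ _) fun w h1 h2 => ?_
  have hv : V3 (Nat.lt_add_one n) δ w γ := ⟨h1.symm, h2⟩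
  refine ⟨Θ.th n δ w γ, ?_, Θ.th_tgt _ hv⟩
  rw [Θ.th_src _ hv, tr_low O _ le_rfl]

theorem d_top (Θ : Theta O) (δ γ : Cell X (n + 1)) :
    HBij (fun w => O.W n δ w γ) (tgt δ) (src γ) (src δ) (tgt γ) := by
  have hA := hmap_top O (δ := δ) (γ := γ)
  have hB := hmap_top O (δ := O.inv δ) (γ := O.inv γ)
  have hA' := hmap_top O (δ := O.inv (O.inv δ)) (γ := O.inv (O.inv γ))
  have h1 := phi_top Θ δ γ
  have h2 := phi_top Θ (O.inv δ) (O.inv γ)
  simp only [O.tgt_inv, O.src_inv] at hB hA' h2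
  exact six O hA hB hA' h1 h2

/-- The claim `D(l)` for `l < n`. -/
def DLo (O : Ops C) (X : GlobModel C) (n l : ℕ) : Prop :=
  ∀ (h : l < n) (δ γ : Cell X (l + 1)) (p q : Cell X n), Par p q → V3 h δ p γ →
    HBij (fun w => O.W l δ w γ) p q (O.W l δ p γ) (O.W l δ q γ)

theorem tr_bij_lo {k : ℕ} (hD : ∀ l, k ≤ l → DLo O X n l) :
    ∀ (j : ℕ) (hj : j ≤ n) (G : Fam X j) (p q : Cell X n), Par p q → TrOK O k hj G p →
      HBij (fun w => tr O k j G w) p q (tr O k j G p) (tr O k j G q) := by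
  intro j
  induction j with
  | zero => intro hj G p q _ _; exact hbij_id O p q
  | succ j ih =>
    intro hj G p q hp H
    by_cases hk : k ≤ j
    · have h1 := ih (by omega) (G.below (Nat.le_succ j)) p q hp (H.below (Nat.le_succ j))
      have h2 := hD j hk hj _ _ _ _ (tr_par O (H.below (Nat.le_succ j)) hp) H.v3
      simp only [tr_succ_of_le O k hk]
      exact h1.comp O h2
    · simp only [tr_low O k (show j + 1 ≤ k by omega)]
      exact hbij_id O p q

theorem tr_bij_top (Θ : Theta O) {k : ℕ} (hD : ∀ l, k ≤ l → DLo O X n l) (p q : Cell X n)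
    (G : Fam X (n + 1)) (hp : Par p q) (H : TrOK O k le_rfl (G.below (Nat.le_succ n)) p)
    (h1 : src (G n (Nat.lt_add_one n) false) = tr O k n (G.below (Nat.le_succ n)) p)
    (h2 : src (G n (Nat.lt_add_one n) true) = tr O k n (G.below (Nat.le_succ n)) q)
    (h3 : n < k → tgt (G n (Nat.lt_add_one n) false) = p ∧ tgt (G n (Nat.lt_add_one n) true) = q) :
    HBij (fun w => tr O k (n + 1) G w) p q (tgt (G n (Nat.lt_add_one n) false))
      (tgt (G n (Nat.lt_add_one n) true)) := by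
  by_cases hk : k ≤ n
  · have a1 := tr_bij_lo hD n le_rfl (G.below (Nat.le_succ n)) p q hp H
    have a2 := d_top Θ (O.inv (G n (Nat.lt_add_one n) false)) (G n (Nat.lt_add_one n) true)
    rw [O.tgt_inv, O.src_inv, h1, h2] at a2
    simp only [tr_succ_of_le O k hk]
    exact a1.comp O a2
  · obtain ⟨e1, e2⟩ := h3 (by omega)
    simp only [tr_low O k (show n + 1 ≤ k by omega)]
    rw [e1, e2]
    exact hbij_id O p q

theorem phi_lo (Θ : Theta O) {l : ℕ} (hD : ∀ l', l + 1 ≤ l' → DLo O X n l') (h : l < n)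
    (δ γ : Cell X (l + 1)) (p q : Cell X n) (hp : Par p q) (hv : V3 h δ p γ) :
    HBij (fun w => O.Phi l δ w γ) p q (O.Phi l δ p γ) (O.Phi l δ q γ) := by
  have hv' := v3_par hv hp
  have hA := hmap_lo O (q := q) hv
  have hB := hmap_lo O (q := O.W l δ q γ) (v3_inv O hv)
  -- the family on the sphere `(p, q)`
  let G : Fam X (n + 1) := fun l' h' b =>
    Θ.th l δ (res (fo (Nat.le_of_lt_succ h') b) (cond b q p)) γ
  have hGb : G.below (Nat.le_succ n) = fun _ h' b => Θ.th l δ (face h' b p) γ := by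
    funext l' h' b
    show Θ.th l δ (res (fo h'.le b) (cond b q p)) γ = _
    rw [fo_lt h' b, res_faceMap]
    cases b
    · rfl
    · exact congrArg (fun c => Θ.th l δ c γ) (hp l' h' true).symm
  have hGb' : G.below (Nat.le_succ n) = fun _ h' b => Θ.th l δ (face h' b q) γ := by
    rw [hGb]
    funext l' h' b
    rw [hp l' h' b]
  have hG0 : G n (Nat.lt_add_one n) false = Θ.th l δ p γ := by
    show Θ.th l δ (res (fo (le_refl n) false) p) γ = _
    rw [fo_self, res_id]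
  have hG1 : G n (Nat.lt_add_one n) true = Θ.th l δ q γ := by
    show Θ.th l δ (res (fo (le_refl n) true) q) γ = _
    rw [fo_self, res_id]
  have hT := tr_bij_top Θ hD (O.Phi l δ p γ) (O.Phi l δ q γ) G
    (W_par O (v3_inv O hv) (W_par O hv hp)) (by rw [hGb]; exact Θ.th_ok h hv)
    (by rw [hG0, hGb]; exact Θ.th_src h hv) (by rw [hG1, hGb']; exact Θ.th_src h hv')
    (fun hh => absurd hh (by omega))
  rw [hG0, hG1, Θ.th_tgt h hv, Θ.th_tgt h hv'] at hT
  refine hbij_of_left O (hA.comp hB) hT fun w h1 h2 => ?_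
  have hw : V3 (h.trans (Nat.lt_add_one n)) δ w γ := V3.of_face h _ (h1 ▸ hv)
  refine ⟨Θ.th l δ w γ, ?_, Θ.th_tgt _ hw⟩
  rw [Θ.th_src _ hw]
  have : G = fun _ h' b => Θ.th l δ (face h' b w) γ := by
    funext l' h' b
    show Θ.th l δ (res (fo (Nat.le_of_lt_succ h') b) (cond b q p)) γ = _
    have e : cond b q p = face (Nat.lt_add_one n) b w := by
      cases b
      · exact h1.symm
      · exact h2.symm
    rw [e, ← res_faceMap, ← res_comp, fo_faceMap, res_faceMap]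
  rw [this]

theorem dlo_step (Θ : Theta O) {l : ℕ} (hD : ∀ l', l + 1 ≤ l' → DLo O X n l') : DLo O X n l := by
  intro h δ γ p q hp hv
  have hv1 := v3_inv O hv
  have hv2 := v3_inv O hv1
  have hp1 := W_par O hv hp
  exact six O (hmap_lo O (q := q) hv) (hmap_lo O (q := O.W l δ q γ) hv1)
    (hmap_lo O (q := O.Phi l δ q γ) hv2) (phi_lo Θ hD h δ γ p q hp hv)
    (phi_lo Θ hD h _ _ _ _ hp1 hv1)

theorem dlo_all (Θ : Theta O) (d : ℕ) : ∀ l, n ≤ l + d → DLo O X n l := by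
  induction d with
  | zero => intro l hl h; exact absurd h (by omega)
  | succ d ih => intro l hl; exact dlo_step Θ fun l' hl' => ih l' (by omega)

end DIVx

theorem trSurj (O : Ops C) (Θ : Theta O) : TrSurj O := by
  intro X k n p q G hp H h1 h2 h3 x x1 x2
  exact (DIVx.tr_bij_top Θ (fun l _ => DIVx.dlo_all Θ n l (by omega)) p q G hp H h1 h2 h3).surj
    x x1 x2

end Crest.Agent.GC
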