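import Crest.Agent.GC.Tr

/-!
Row 248 (S0382): job statements.  Each job `J` is a `Prop`; prove `theorem jobX ... : JobX` in the
file named in the table `gc_jobs`, taking the other jobs as hypotheses exactly as in `sig`.

Overview.  Fix a truncation `m`.  `Cyl O k m i S` are relative cylinders of level `k`.
`Good O k m` : the cylinders of any two arrows carry model structures, compatible with `top` and with a
given map of arrows.  Downward induction on `k ≤ m+1`:
`(∀ l, k < l ≤ m+1 → Good l) → (universal arrows are fillable, USpec) → Lift → Good k`.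
-/

set_option autoImplicit false
open CategoryTheory CategoryTheory.Limits Opposite
open Crest.GeometryTopology.Coherator Crest.GeometryTopology.Coherator.GlobTheory
open Crest.GeometryTopology.Coherator.Shape (globe faceMap)
universe u

namespace Crest.Agent.GC

variable {C : GlobTheory.{u}}

/-- Every admissible pair has a filler. -/
def Contr (C : GlobTheory.{u}) : Prop :=
  ∀ p : C.Admissible, ∃ z, IsFillerAlong (TheoryMap.id C) p z

/-! ## Shapes (job SH) -/

/-- Cells of globes and of glued shapes.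
Proof: `globe l ⟶ globe n` is `yoneda.obj ⟨l⟩ ⟶ yoneda.obj ⟨n⟩`, i.e. (Yoneda, `yoneda.map_surjective`
/ `Yoneda.fullyFaithful`) an `Arrow l n` (`refl` or `pole`).  `globe l ⟶ S` is `S.psh.obj (op ⟨l⟩)`
(`yonedaEquiv`); `(S.glue ..).psh` is a pushout of presheaves, so evaluation at `l` gives a pushout
of types (`IsPushout.map` along `(evaluation _ _).obj _`; `Types.eq_or_eq_of_isPushout`,
and for functions into an arbitrary universe use `Types.isColimit_iff_coconeTypesIsColimit` /
`uliftFunctor` / `Types.Pushout`). `le_dim` is by `shape_induction`. -/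
structure ShapeAPI : Prop where
  globe_self : ∀ (n : ℕ) (c : globe n ⟶ globe n), c = 𝟙 _
  globe_lt : ∀ (l n : ℕ) (h : l < n) (c : globe l ⟶ globe n), ∃ b, c = faceMap h b
  face_inj : ∀ (l n : ℕ) (h : l < n) (b b' : Bool), faceMap h b = faceMap h b' → b = b'
  le_dim : ∀ (S : Shape) (l : ℕ), (globe l ⟶ S) → l ≤ S.dim
  glue_cases : ∀ (S : Shape) (b h : ℕ) (hb : b < S.last) (hh : b < h) (l : ℕ)
    (c : globe l ⟶ S.glue b h hb hh),
    (∃ c', c = c' ≫ S.inLeft b h hb hh) ∨ (∃ c', c = c' ≫ S.inRight b h hb hh)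
  glue_desc : ∀ (S : Shape) (b h : ℕ) (hb : b < S.last) (hh : b < h) (l : ℕ) (A : Type u)
    (F₁ : (globe l ⟶ S) → A) (F₂ : (globe l ⟶ globe h) → A),
    (∀ c : globe l ⟶ globe b, F₁ (c ≫ S.hinge hb) = F₂ (c ≫ faceMap hh false)) →
    ∃ F : (globe l ⟶ S.glue b h hb hh) → A,
      (∀ c, F (c ≫ S.inLeft b h hb hh) = F₁ c) ∧ (∀ c, F (c ≫ S.inRight b h hb hh) = F₂ c)

/-- Segal condition cellwise: an `S`-diagram in a model is the same as a face-compatible family of
cells.  Proof: `shape_induction`, `el_glue_exists`, `el_glue_ext`, `ShapeAPI`. -/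
structure ElAPI (C : GlobTheory.{u}) : Prop where
  ext : ∀ (X : GlobModel C) (S : Shape) (t t' : El X S),
    (∀ (l : ℕ) (c : globe l ⟶ S), res c t = res c t') → t = t'
  exists_el : ∀ (X : GlobModel C) (S : Shape) (x : ∀ l : ℕ, (globe l ⟶ S) → Cell X l),
    (∀ (l : ℕ) (c : globe l ⟶ S) (l' : ℕ) (h : l' < l) (b : Bool),
      x l' (faceMap h b ≫ c) = face h b (x l c)) →
    ∃ t : El X S, ∀ (l : ℕ) (c : globe l ⟶ S), res c t = x l c

/-! ## Natural operations (jobs OPS, TH) -/

/-- A function of ternary data, natural for maps of models (on valid data). -/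
def Nat3 {l n j : ℕ} (h : l < n)
    (φ : ∀ X : GlobModel C, Cell X (l + 1) → Cell X n → Cell X (l + 1) → Cell X j) : Prop :=
  ∀ (X Y : GlobModel C) (f : X ⟶ Y) (δ : Cell X (l + 1)) (w : Cell X n) (γ : Cell X (l + 1)),
    V3 h δ w γ → app f (φ X δ w γ) = φ Y (app f δ) (app f w) (app f γ)

/-- Natural fillers over the ternary shape `D_{l+1} ⨿_l D_n ⨿_l D_{l+1}` (height `n ≤ j+1`).
Proof: `T := ((globe (l+1)).glue l n _ _).glue l (l+1) _ _`; generic data `δ₀ w₀ γ₀` in
`freeOn C T` are restrictions of `gen C T`; fill `(lo .., up ..)` by `fillable_free`; for valid data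
`(δ,w,γ)` in `X` get `t : El X T` by `el_glue_exists` twice (unique by `el_glue_ext`), and put
`z X δ w γ := app (cls t) z₀` (junk: any cell, e.g. via `Classical.choice`/`if`; use `O`-free junk:
when data is invalid return e.g. `act e.unit (lo ..)`, a `UnitChoice` is available). -/
def Fill3 (C : GlobTheory.{u}) : Prop :=
  ∀ (l n j : ℕ) (h : l < n) (_ : n ≤ j + 1)
    (lo up : ∀ X : GlobModel C, Cell X (l + 1) → Cell X n → Cell X (l + 1) → Cell X j),
    Nat3 h lo → Nat3 h up →
    (∀ X δ w γ, V3 h δ w γ → Par (lo X δ w γ) (up X δ w γ)) →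
    ∃ z : ∀ X : GlobModel C, Cell X (l + 1) → Cell X n → Cell X (l + 1) → Cell X (j + 1),
      Nat3 h z ∧ ∀ X δ w γ, V3 h δ w γ → src (z X δ w γ) = lo X δ w γ ∧ tgt (z X δ w γ) = up X δ w γ

/-- `Φ w = W (inv δ) (W δ w γ) (inv γ)`. -/
noncomputable def Ops.Phi (O : Ops C) {X : GlobModel C} (l : ℕ) {n : ℕ} (δ : Cell X (l + 1))
    (w : Cell X n) (γ : Cell X (l + 1)) : Cell X n :=
  O.W l (O.inv δ) (O.W l δ w γ) (O.inv γ)

/-- A natural family of cylinder cells (level `l+1`) from `Φ w` to `w`.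
Existence (job TH): for fixed `l`, recursion on `n`; for `n ≤ l` put `unit w`; for `n > l` apply `Fill3`
with `j = n`, `lo := tr O (l+1) n (fun l' h' b => th l δ (face h' b w) γ) (Φ w)`, `up := w`.
`TrOK` of that family for `Φ w` holds by the induction hypothesis (`face (Φ w) = Φ (face w)` above
level `l`, `= face w` at levels `≤ l`), and then `TrOK.face_lt` gives parallelism, `TrOK.app_tr`
naturality. -/
structure Theta (O : Ops C) where
  th : ∀ {X : GlobModel C} (l : ℕ) {n : ℕ},
    Cell X (l + 1) → Cell X n → Cell X (l + 1) → Cell X (n + 1)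
  th_low : ∀ {X : GlobModel C} {l n : ℕ} (_ : n ≤ l) (δ : Cell X (l + 1)) (w : Cell X n)
    (γ : Cell X (l + 1)), th l δ w γ = O.unit w
  th_src : ∀ {X : GlobModel C} {l n : ℕ} (h : l < n) {δ : Cell X (l + 1)} {w : Cell X n}
    {γ : Cell X (l + 1)}, V3 h δ w γ →
      src (th l δ w γ) =
        tr O (l + 1) n (fun _ h' b => th l δ (face h' b w) γ) (O.Phi l δ w γ)
  th_tgt : ∀ {X : GlobModel C} {l n : ℕ} (h : l < n) {δ : Cell X (l + 1)} {w : Cell X n}
    {γ : Cell X (l + 1)}, V3 h δ w γ → tgt (th l δ w γ) = w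
  th_ok : ∀ {X : GlobModel C} {l n : ℕ} (h : l < n) {δ : Cell X (l + 1)} {w : Cell X n}
    {γ : Cell X (l + 1)}, V3 h δ w γ →
      TrOK O (l + 1) le_rfl (fun _ h' b => th l δ (face h' b w) γ) (O.Phi l δ w γ)
  app_th : ∀ {X Y : GlobModel C} (f : X ⟶ Y) {l n : ℕ} (h : l < n) {δ : Cell X (l + 1)}
    {w : Cell X n} {γ : Cell X (l + 1)}, V3 h δ w γ →
      app f (th l δ w γ) = th l (app f δ) (app f w) (app f γ)

/-! ## Division (job DIV) -/

/-- Transport is surjective up to `Step` onto the cells with the transported boundary.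
Here `(p,q)` is the boundary of the cell `w` we look for, `G` a valid family for any such `w`.

Proof.  Write `Hom(p,q)` for `(n+1)`-cells `p → q` modulo `Step` (an equivalence relation,
`Ops.step_refl/symm/trans`).  Claim `D(l)`, `l ≤ n`: for all `δ γ` and `(p,q)` parallel `n`-cells valid
for `(δ,γ)` (if `l < n`: `V3 δ p γ`; if `l = n`: `tgt δ = p`, `q = src γ`), `W l δ – γ` is BIJECTIVE
`Hom(p,q) → Hom(p',q')` (`p' = W δ p γ, q' = W δ q γ`, resp. `src δ`, `tgt γ`).  Downward induction on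
`l`.  From `D(l')` for all `l < l' ≤ n`, `tr O (l+1) j G` is bijective on classes for valid `G` (induction
on `j ≤ n+1`, it is a composite of such `W`).  `Theta` gives `tr O (l+1) (n+1) G_Θ (Φ w) ~ w`, where
`G_Θ` depends only on `(p,q)`; hence `Φ = B ∘ A` is bijective on classes (`A = W δ – γ`,
`B = W (inv δ) – (inv γ)`), and the same applied to `(inv δ, inv γ)` shows `A' ∘ B` bijective
(`A' = W (inv inv δ) – (inv inv γ)`).  So `B` is injective and surjective, hence `A` is bijective
(2-out-of-6).  It is convenient to phrase bijectivity as `Surj` and `Inj` statements without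
quotients.  Finally `TrSurj` is the surjectivity of `tr O k (n+1) G`. -/
def TrSurj (O : Ops C) : Prop :=
  ∀ (X : GlobModel C) (k n : ℕ) (p q : Cell X n) (G : Fam X (n + 1)), Par p q →
    TrOK O k le_rfl (G.below (Nat.le_succ n)) p →
    src (G n (Nat.lt_add_one n) false) = tr O k n (G.below (Nat.le_succ n)) p →
    src (G n (Nat.lt_add_one n) true) = tr O k n (G.below (Nat.le_succ n)) q →
    (n < k → tgt (G n (Nat.lt_add_one n) false) = p ∧ tgt (G n (Nat.lt_add_one n) true) = q) →
    ∀ x : Cell X (n + 1), src x = tgt (G n (Nat.lt_add_one n) false) →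
      tgt x = tgt (G n (Nat.lt_add_one n) true) →
      ∃ w : Cell X (n + 1), src w = p ∧ tgt w = q ∧ Step (tr O k (n + 1) G w) x

/-! ## Cylinders on globes and glued shapes (job CYL) -/

/-- Parallel cylinders on a globe. -/
def CylPar {O : Ops C} {k m : ℕ} {X Y : GlobModel C} {i : X ⟶ Y} {n : ℕ}
    (z z' : Cyl O k m i (globe n)) : Prop :=
  ∀ (l : ℕ) (h : l < n) (b : Bool), z.res (faceMap h b) = z'.res (faceMap h b)

/-- The face of side `b`, or the identity. -/
noncomputable def fo {l n : ℕ} (h : l ≤ n) (b : Bool) : globe l ⟶ globe n :=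
  if h' : l < n then faceMap h' b else eqToHom (by rw [show l = n by omega])

theorem fo_lt {l n : ℕ} (h : l < n) (b : Bool) : fo h.le b = faceMap h b := dif_pos h

theorem fo_self (n : ℕ) (b : Bool) : fo (le_refl n) b = 𝟙 _ := by
  unfold fo; rw [dif_neg (lt_irrefl n)]; rfl

theorem fo_faceMap {l n p : ℕ} (h : l ≤ n) (h' : n < p) (b : Bool) :
    fo h b ≫ faceMap h' b = faceMap (lt_of_le_of_lt h h') b := by
  rcases h.lt_or_eq with h1 | rfl
  · rw [fo_lt h1, faceMap_comp]
  · rw [fo_self, Category.id_comp]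

/-- The family of cylinder cells on a sphere made of two cylinders on the `n`-globe. -/
noncomputable def sphFam {O : Ops C} {k m : ℕ} {X Y : GlobModel C} {i : X ⟶ Y} {n : ℕ}
    (hn : n ≤ m) (z z' : Cyl O k m i (globe n)) : Fam Y (n + 1) :=
  fun l h b => (cond b z' z).gam l ((Nat.le_of_lt_succ h).trans hn) (fo (Nat.le_of_lt_succ h) b)

/-- Constructors and extensionality for cylinders (for all arrows).
Proof: cells of `globe (n+1)` of dimension `l ≤ n` are `faceMap h b = fo _ b ≫ faceMap _ b`; define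
`bot`/`gam` by cases using a choice of side (`ShapeAPI.globe_lt`, `face_inj`); glue by
`ShapeAPI.glue_desc` + `el_glue_exists`, check the conditions with `glue_cases`. -/
structure CylAPI (O : Ops C) (k m : ℕ) : Prop where
  mk0 : ∀ {X Y : GlobModel C} (i : X ⟶ Y) (w : Cell X 0) (γ : Cell Y 1),
    src γ = app i w → (0 < k → γ = O.unit (app i w)) →
    ∃ z : Cyl O k m i (globe 0), z.top = tgt γ ∧ z.bot 0 (Nat.zero_le m) (𝟙 _) = w ∧
      z.gam 0 (Nat.zero_le m) (𝟙 _) = γ
  mkS : ∀ {X Y : GlobModel C} (i : X ⟶ Y) (n : ℕ) (hn : n + 1 ≤ m)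
    (z z' : Cyl O k m i (globe n)) (w : Cell X (n + 1)) (γ : Cell Y (n + 2)), CylPar z z' →
    src w = z.bot n (by omega) (𝟙 _) → tgt w = z'.bot n (by omega) (𝟙 _) →
    src γ = tr O k (n + 1) (sphFam (by omega) z z') (app i w) →
    (n + 1 < k → γ = O.unit (app i w)) →
    ∃ y : Cyl O k m i (globe (n + 1)), y.res (faceMap (Nat.lt_add_one n) false) = z ∧
      y.res (faceMap (Nat.lt_add_one n) true) = z' ∧ y.top = tgt γ ∧
      y.bot (n + 1) hn (𝟙 _) = w ∧ y.gam (n + 1) hn (𝟙 _) = γ
  /-- the family on a sphere is valid for any `w` with the right boundary -/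
  sph_ok : ∀ {X Y : GlobModel C} (i : X ⟶ Y) (n : ℕ) (hn : n ≤ m)
    (z z' : Cyl O k m i (globe n)) (w : Cell Y (n + 1)), CylPar z z' →
    src w = app i (z.bot n hn (𝟙 _)) → tgt w = app i (z'.bot n hn (𝟙 _)) →
    TrOK O k le_rfl (sphFam hn z z') w
  mkHi : ∀ {X Y : GlobModel C} (i : X ⟶ Y) (n : ℕ) (_ : m ≤ n)
    (z z' : Cyl O k m i (globe n)) (x : Cell Y (n + 1)), CylPar z z' →
    src x = z.top → tgt x = z'.top →
    ∃ y : Cyl O k m i (globe (n + 1)), y.res (faceMap (Nat.lt_add_one n) false) = z ∧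
      y.res (faceMap (Nat.lt_add_one n) true) = z' ∧ y.top = x
  extHi : ∀ {X Y : GlobModel C} (i : X ⟶ Y) (n : ℕ) (_ : m ≤ n)
    (y y' : Cyl O k m i (globe (n + 1))),
    y.res (faceMap (Nat.lt_add_one n) false) = y'.res (faceMap (Nat.lt_add_one n) false) →
    y.res (faceMap (Nat.lt_add_one n) true) = y'.res (faceMap (Nat.lt_add_one n) true) →
    y.top = y'.top → y = y'
  glue_exists : ∀ {X Y : GlobModel C} (i : X ⟶ Y) (S : Shape) (b h : ℕ) (hb : b < S.last)
    (hh : b < h) (x : Cyl O k m i S) (y : Cyl O k m i (globe h)),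
    x.res (S.hinge hb) = y.res (faceMap hh false) →
    ∃ z : Cyl O k m i (S.glue b h hb hh),
      z.res (S.inLeft b h hb hh) = x ∧ z.res (S.inRight b h hb hh) = y
  glue_ext : ∀ {X Y : GlobModel C} (i : X ⟶ Y) (S : Shape) (b h : ℕ) (hb : b < S.last)
    (hh : b < h) (z z' : Cyl O k m i (S.glue b h hb hh)),
    z.res (S.inLeft b h hb hh) = z'.res (S.inLeft b h hb hh) →
    z.res (S.inRight b h hb hh) = z'.res (S.inRight b h hb hh) → z = z'

/-- `top : Cyl (𝟙 X) → X` is a trivial fibration of globular sets (job TF, from `TrSurj`, `CylAPI`).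
Dimension 0: `mk0` with `w = x`, `γ = unit x`.  Dimension `n+1 > m`: `mkHi`.  Dimension `n+1 ≤ m`: if
`n+1 < k` take `w = x`, `γ = unit x` (`Cyl.top_low`, `tr_low`); otherwise `TrSurj` with
`G = sphFam z z'`, `p, q` the bottoms of `z, z'`, then `mkS`. -/
def TF (O : Ops C) (k m : ℕ) : Prop :=
  ∀ X : GlobModel C,
    (∀ x : Cell X 0, ∃ z : Cyl O k m (𝟙 X) (globe 0), z.top = x) ∧
    ∀ (n : ℕ) (z z' : Cyl O k m (𝟙 X) (globe n)) (x : Cell X (n + 1)), CylPar z z' →
      src x = z.top → tgt x = z'.top →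
      ∃ y : Cyl O k m (𝟙 X) (globe (n + 1)), y.res (faceMap (Nat.lt_add_one n) false) = z ∧
        y.res (faceMap (Nat.lt_add_one n) true) = z' ∧ y.top = x

/-! ## Model structures on cylinders (jobs THY, LIFT) -/

/-- A model whose elements are the cylinders, with `top` a map of models. -/
structure CylModel (O : Ops C) (k m : ℕ) {X Y : GlobModel C} (i : X ⟶ Y) where
  M : GlobModel C
  e : ∀ S : Shape, El M S ≃ Cyl O k m i S
  e_res : ∀ (S T : Shape) (f : S ⟶ T) (x : El M T), e S (res f x) = (e T x).res f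
  top : M ⟶ Y
  top_e : ∀ (S : Shape) (x : El M S), app top x = (e S x).top

/-- Compatible model structures on the cylinders of two arrows. -/
def Good (O : Ops C) (k m : ℕ) : Prop :=
  ∀ {X Y X' Y' : GlobModel C} (i : X ⟶ Y) (i' : X' ⟶ Y') (f : X ⟶ X') (g : Y ⟶ Y')
    (w : i ≫ g = f ≫ i'),
    ∃ (A : CylModel O k m i) (A' : CylModel O k m i') (F : A.M ⟶ A'.M),
      ∀ (S : Shape) (x : El A.M S), A'.e S (app F x) = (A.e S x).push f g w

/-- An arrow of models. -/
structure Ar (C : GlobTheory.{u}) where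
  X : GlobModel C
  Y : GlobModel C
  i : X ⟶ Y

/-- A map of arrows. -/
@[ext]
structure ArHom (a a' : Ar C) where
  f : a.X ⟶ a'.X
  g : a.Y ⟶ a'.Y
  w : a.i ≫ g = f ≫ a'.i

/-- Natural families of operations on cylinders over a small family of arrows, lying over an operation
`o` of `C`.  These are the arrows of a globular theory `𝓔` with a projection to `C`. -/
@[ext]
structure NF (O : Ops C) (k m : ℕ) {I : Type u} (ar : I → Ar C) (S T : Shape) : Type u where
  o : C.arr S T
  φ : ∀ a : I, Cyl O k m (ar a).i T → Cyl O k m (ar a).i S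
  top_φ : ∀ (a : I) (d : Cyl O k m (ar a).i T), (φ a d).top = act o d.top
  nat : ∀ (a a' : I) (F : ArHom (ar a) (ar a')) (d : Cyl O k m (ar a).i T),
    φ a' (d.push F.f F.g F.w) = (φ a d).push F.f F.g F.w

/-- The projection `𝓔 → C` lifts fillers of admissible pairs. -/
def Lift (O : Ops C) (k m : ℕ) {I : Type u} (ar : I → Ar C) : Prop :=
  ∀ (n : ℕ) (T : Shape) (_ : T.dim ≤ n + 1) (f g : NF O k m ar (globe n) T)
    (o : C.arr (globe (n + 1)) T),
    (∀ a d, CylPar (f.φ a d) (g.φ a d)) →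
    C.seq (C.ofShape (faceMap (Nat.lt_add_one n) false)) o = f.o →
    C.seq (C.ofShape (faceMap (Nat.lt_add_one n) true)) o = g.o →
    ∃ z : NF O k m ar (globe (n + 1)) T, z.o = o ∧ ∀ a d,
      (z.φ a d).res (faceMap (Nat.lt_add_one n) false) = f.φ a d ∧
      (z.φ a d).res (faceMap (Nat.lt_add_one n) true) = g.φ a d

/-- Job THY.  Build the globular theory `𝓔` with `arr := NF O k m ar` (`one`, `seq` componentwise,
`ofShape f := ⟨C.ofShape f, fun _ d => d.res f, ..⟩` using `Cyl.push_res`); `RespectsSums` from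
`C.respectsSums` for `o` and `CylAPI.glue_exists/glue_ext` (+ `el_glue_ext` for `top_φ`) for `φ`.
`π : TheoryMap 𝓔 C`.  Recursively build `G r : TheoryMap (stage r) 𝓔` with `(G r).comp π = toEnd r`
and `(next r).comp (G (r+1)) = G r` (`stage_zero` uniqueness; step: `Lift` with
`o = (toEnd (r+1)).map (fill g)`, existence in `IsFreeOn` for `𝓔`, uniqueness in `IsFreeOn` for `C`);
`colim` gives `H : C → 𝓔` and `H.comp π = id` by uniqueness.  The model for `a` has
`obj ⟨S⟩ = Cyl .. S`, `map o = (H.map o).φ a`; `e = Equiv.refl`; `sums` from `CylAPI`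
(`Types.isPullback_iff`). -/
def JobThy (O : Ops C) (k m : ℕ) : Prop :=
  ∀ (I : Type u) (ar : I → Ar C), Nonempty C.Tower → CylAPI O k m → Lift O k m ar →
    ∃ A : ∀ a : I, CylModel O k m (ar a).i, ∀ (a a' : I) (F : ArHom (ar a) (ar a')),
      ∃ H : (A a).M ⟶ (A a').M, ∀ (S : Shape) (x : El (A a).M S),
        (A a').e S (app H x) = ((A a).e S x).push F.f F.g F.w

/-- `a` is a universal arrow with a `T`-cylinder, with the required fillability. -/
def USpecAt (O : Ops C) (k m : ℕ) (T : Shape) (a : Ar C) : Prop :=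
  ∃ (d : Cyl O k m a.i T) (t : El a.X T),
    (∀ (l : ℕ) (hl : l ≤ m) (c : globe l ⟶ T), d.bot l hl c = res c t) ∧
    (∀ (n : ℕ) (x y : Cell a.X n), app a.i x = app a.i y → x = y) ∧
    (∀ j, T.dim ≤ j + 1 → Fillable a.X j) ∧
    (∀ j, T.dim ≤ j → k ≤ j → j ≤ m → Fillable a.Y j) ∧
    ∀ (a' : Ar C) (d' : Cyl O k m a'.i T), ∃! F : ArHom a a', d.push F.f F.g F.w = d'

/-- Job LIFT.  Case `m ≤ n`: `φ a d :=` the cylinder of `mkHi` on `(f.φ a d, g.φ a d, act o d.top)`;
naturality by `extHi`.  Case `n+1 ≤ m` (so `T.dim ≤ m`): take the universal `a₀`, `d₀`, `t`;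
`z∓ := f.φ a₀ d₀, g.φ a₀ d₀`.  If `n+1 < k`: `w := act o t`, `γ := unit`; here `app i t = d₀.top`
(`ElAPI.ext`, `le_dim`, `top_low`) and `src w = z⁻.bot` by injectivity of `i`.  Else `w :=` a filler in
`a₀.X` of the two bottoms (parallel by `bot_face` + `CylPar`), `γ :=` a filler in `a₀.Y` from
`tr .. (sphFam z⁻ z⁺) (i w)` to `act o d₀.top` (parallel by `sph_ok`, `TrOK.face_lt`, `gam_tgt`,
`par_succ`).  `mkS` gives `y₀`; put `φ a d := y₀.push (classifying map of d)`; naturality from uniqueness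
of classifying maps (`push_push`), faces from `f.nat`, `g.nat`, `push_res`. -/
def JobLift (O : Ops C) (k m : ℕ) : Prop :=
  ∀ (I : Type u) (ar : I → Ar C), ShapeAPI.{u} → ElAPI C → CylAPI O k m → k ≤ m + 1 →
    (∀ T : Shape, T.dim ≤ m → ∃ a : I, USpecAt O k m T (ar a)) → Lift O k m ar

/-! ## Expansions and cofibrant models (jobs EXP, COF) -/

/-- `i : X ⟶ Y` freely adjoins `(l+1)`-cells `β s` with source `a s`. -/
structure IsExp {X Y : GlobModel C} (i : X ⟶ Y) (l : ℕ) {ι : Type} (a : ι → Cell X l)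
    (β : ι → Cell Y (l + 1)) : Prop where
  src_β : ∀ s, src (β s) = app i (a s)
  univ : ∀ (Z : GlobModel C) (g : X ⟶ Z) (z : ι → Cell Z (l + 1)), (∀ s, src (z s) = app g (a s)) →
    ∃! h : Y ⟶ Z, i ≫ h = g ∧ ∀ s, app h (β s) = z s

/-- Job EXP: expansions exist.  Proof: models are the `W`-local presheaves on `C.Ob` for
`W = {pushout (y hinge) (y faceMap) ⟶ y (glue)}`; `MorphismProperty.isRightAdjoint_ι_isLocal`
(κ = ℵ₀ or any regular cardinal in universe `u`; representables and their pushouts are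
κ-presentable) gives a reflection `η : P ⟶ L P`; apply it to the presheaf pushout of
`X ⟵ ∐ y(globe l) ⟶ ∐ y(globe (l+1))`. -/
def JobExp (C : GlobTheory.{u}) : Prop :=
  ∀ (X : GlobModel C) (l : ℕ) (ι : Type) (a : ι → Cell X l),
    ∃ (Y : GlobModel C) (i : X ⟶ Y) (β : ι → Cell Y (l + 1)), IsExp i l a β

/-- Trivial fibrations: right lifting property against boundary inclusions. -/
def TrivFib {M Z : GlobModel C} (p : M ⟶ Z) : Prop :=
  (∀ z : Cell Z 0, ∃ x : Cell M 0, app p x = z) ∧
  ∀ (n : ℕ) (x y : Cell M n) (z : Cell Z (n + 1)), Par x y → src z = app p x → tgt z = app p y →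
    ∃ w : Cell M (n + 1), src w = x ∧ tgt w = y ∧ app p w = z

/-- Cofibrant models. -/
def Cof (X : GlobModel C) : Prop :=
  ∀ (M Z : GlobModel C) (p : M ⟶ Z), TrivFib p → ∀ f : X ⟶ Z, ∃ g : X ⟶ M, g ≫ p = f

/-- Job COF.  `free`: lift the cells of `T` by recursion on the dimension, `ElAPI.exists_el/ext`, `cls`.
`exp`: lift `i ≫ f` to `g`; lift `tgt (f β)` to a cell parallel to `g a`, then `f β`; uniqueness in
`univ`.  `cell`: successor maps have the left lifting property against `p` (`IsAttaching.universal`),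
`llp` is stable under transfinite composition (`HasLiftingProperty.transfiniteComposition`,
`MorphismProperty.isStableUnderTransfiniteCompositionOfShape_llp`), `start` is initial. -/
structure JobCof (C : GlobTheory.{u}) : Prop where
  free : ∀ T : Shape, Cof (GlobModel.freeOn C T)
  exp : ∀ {X Y : GlobModel C} (i : X ⟶ Y) (l : ℕ) (ι : Type) (a : ι → Cell X l)
    (β : ι → Cell Y (l + 1)), IsExp i l a β → Cof X → Cof Y
  cell : ∀ X : GlobModel C, X.IsCellularModel → Cof X

/-! ## Sections (jobs LA, LS, HAT1, HAT2) -/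

/-- A globular section of `top`. -/
def IsSec {O : Ops C} {k m : ℕ} {X Y : GlobModel C} {i : X ⟶ Y}
    (H : ∀ n : ℕ, Cell Y n → Cyl O k m i (globe n)) : Prop :=
  (∀ n y, (H n y).top = y) ∧
    ∀ (l n : ℕ) (h : l < n) (b : Bool) (y : Cell Y n), H l (face h b y) = (H n y).res (faceMap h b)

def HasSec (O : Ops C) (k m : ℕ) {X Y : GlobModel C} (i : X ⟶ Y) : Prop :=
  ∃ H : ∀ n : ℕ, Cell Y n → Cyl O k m i (globe n), IsSec H

/-- A section whose values on cells coming from `X` are cylinders coming from `X`. -/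
def HasRelSec (O : Ops C) (k m : ℕ) {X Y : GlobModel C} (i : X ⟶ Y) : Prop :=
  ∃ H : ∀ n : ℕ, Cell Y n → Cyl O k m i (globe n), IsSec H ∧
    ∀ (n : ℕ) (x : Cell X n), ∃ z : Cyl O k m (𝟙 X) (globe n),
      H n (app i x) = z.push (𝟙 X) i (by simp)

/-- Job LS.  For parallel `y y'` of dimension `j ≤ m`: `H y`, `H y'` are `CylPar`, so the bottoms are
parallel and the families `fam` agree; `y ← tr G (i bot) ~ tr G (i bot') → y'` (`TrOK.step`,
`Step.map`, `gam_src`, `gam_tgt`). -/
def JobLS (O : Ops C) : Prop :=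
  ∀ (k m : ℕ) {X Y : GlobModel C} (i : X ⟶ Y), HasSec O k m i →
    ∀ j, j ≤ m → Fillable X j → Fillable Y j

/-- Job LA.  `Good` for `(𝟙 X) → i` along `(𝟙 X, i)` gives `A₀, A, F`.  `A₀.top` is a `TrivFib` (`TF`),
so `Cof X` gives `s` with `s ≫ A₀.top = 𝟙`.  `g := s ≫ F`.  For each `s₀`: `z := A.e (g (a s₀))`,
`a₀ := z.bot`, `γ := z.gam : i a₀ → i a` (`tr_low`).  Cylinder `z'` on `globe l` with the same faces as
`z`, bottom `a₀`, `gam := comp γ β` (`mk0` / `mkS`).  Cylinder `y` on `globe (l+1)` from `z` to `z'` with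
top `β`: `mkHi` if `m ≤ l`; else `mkS` with `w = unit a₀` and a cell from
`tr .. = W l (inv γ) (unit (src γ)) (comp γ β)` to `β`, which exists by `Fill3` (`n = l+1`, `j = l+1`,
data `(γ, β, unit (tgt β))`, `lo δ w ε := W (inv δ) (unit (src δ)) (comp δ w)`, `up δ w ε := w`).
`univ` gives `H : Y ⟶ A.M`, `H ≫ A.top = 𝟙` by uniqueness. -/
def JobLA (O : Ops C) : Prop :=
  ∀ (l m : ℕ), l ≤ m → Good O l m → TF O l m → CylAPI O l m → Fill3 C →
    ∀ {X Y : GlobModel C} (i : X ⟶ Y) (ι : Type) (a : ι → Cell X l) (β : ι → Cell Y (l + 1)),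
      Cof X → IsExp i l a β → HasRelSec O l m i

/-- Job HAT1 (combinatorics of shapes).  `S` is `T` with each `k`-cell `x` doubled into an arrow
`a_x : x → x'`.  Induction on `T` (`shape_induction`) with the following invariant ("open form"):
there are `S`, `V : El Y S`, `d : Cyl O (k+1) m (cls V) T` with `S.dim ≤ max T.dim (k+1)`, `d.top = t`,
* every `k`-cell `x` is `Done` (`∃ a, src a = d.bot x ∧ app (cls V) a = inv (inv (α x))`) or `k < T.last` and
  `x` is the `k`-target of `ap T` (pending);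
* if `T.last < k`: `S.last = T.last` and `d.bot (ap T)` is the last globe `g := res (ap S) (gen C S)`;
  if `T.last = k`: `S.last = k+1` and `src g = d.bot (ap T)`;
  if `k < T.last`: `S.last = T.last` and `d.res (ap T)` is *standard*: there is `a` with, for `w := res (ap T) t`,
  `x :=` the `k`-source of `ap T`, `δ := inv (α x)`, `y := face _ true w`: `tgt a = face_k^- g`,
  `v a = inv δ`, `v g = W k δ w (unit y)`, bottoms = faces of `W k a g (inv (unit (face_k^+ g)))`,
  `gam` at a face `c` of `w` is `Θ.th k δ (c-face of w) (unit y)` (units at levels `≤ k`).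
Standard cylinders exist for such data (`Theta`, `app_W`; build the structure directly), restrict to faces
of dimension `> k`, and push forward along `cls (res inLeft ..)`.  Closing (when `k < T.last`): glue a
`(k+1)`-globe along `k` with `V`-value `inv (inv (α y))`; all cells become `Done`, and the `b`-target
faces (`b < k`) of the last globe do not change.  Gluing `D_h` along `b`: `b > k`: glue `D_h` to the open
form; `b = k`: close, then glue `D_h` along `k` (value `W δ w unit`); `b < k`: close, then glue `D_h`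
(`h < k`), `D_{k+1}` (`h = k`), or `D_{k+1}` then `D_h` along `k` (`h > k`), and glue the cylinders by
`CylAPI.glue_exists`.  At the end close; `Step (inv (inv α)) α` by `Fill3`. -/
def JobHat1 (O : Ops C) : Prop :=
  ∀ (k m : ℕ) (hk : k ≤ m) (T : Shape), T.dim ≤ m → ShapeAPI.{u} → CylAPI O (k + 1) m →
    Nonempty (Theta O) →
    ∀ (Y : GlobModel C) (t : El Y T) (α : (globe k ⟶ T) → Cell Y (k + 1)),
      (∀ x, src (α x) = res x t) →
      ∃ (S : Shape) (V : El Y S) (d : Cyl O (k + 1) m (cls V) T), S.dim ≤ max T.dim (k + 1) ∧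
        d.top = t ∧ ∀ x : globe k ⟶ T, ∃ a : Cell (GlobModel.freeOn C S) (k + 1),
          src a = d.bot k hk x ∧ app (cls V) a = O.inv (O.inv (α x))

/-- Job HAT2: the expansion of `freeOn T` along all its `k`-cells is fillable.  From `JobHat1` (with
`t = app i (gen C T)`), `Good (k+1)` for `v = cls V` (take both arrows equal), define `H : Y ⟶ A.M` by `univ`:
`g := cls (A.e.symm d)`, and for each `x` a cylinder on `globe (k+1)` with source `d.res x`, top `α x`:
first the target cylinder on `globe k` (bottom `tgt a`, unit `gam`; `mk0`/`mkS`), then `mkHi` or `mkS` with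
`w = a`, `γ : inv (inv (α x)) → α x` (`Fill3`, `tr_low`).  `H ≫ top = 𝟙`; conclude with `JobLS` and
`fillable_free` (`S.dim ≤ j+1`). -/
def JobHat2 (O : Ops C) : Prop :=
  ∀ (k m : ℕ) (_ : k ≤ m) (T : Shape), T.dim ≤ m → Contr C → Fill3 C → JobHat1 O → JobLS O →
    ShapeAPI.{u} → CylAPI O (k + 1) m → Nonempty (Theta O) → Good O (k + 1) m →
    ∀ (Y : GlobModel C) (i : GlobModel.freeOn C T ⟶ Y) (α : (globe k ⟶ T) → Cell Y (k + 1)),
      IsExp i k (fun x : globe k ⟶ T => res x (gen C T)) α →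
      ∀ j, T.dim ≤ j → k ≤ j → j ≤ m → Fillable Y j

/-! ## Universal arrows (job U) -/

/-- Job U.  Partial data up to level `j` (`k ≤ j ≤ m+1`) in a model `Z` with `t : El Z T`:
`γ : ∀ l < j, (globe l ⟶ T) → Cell Z (l+1)` with `src (γ c) = tr O k l (γ on faces of c) (res c t)` and
`γ c = unit (res c t)` for `l < k` (validity `TrOK` follows as in `Cyl.trOK`).  Induction on `j ≥ k`: a
universal `(U_j, u_j : freeOn T ⟶ U_j, γ^j)` (for all `Z`, `g : freeOn T ⟶ Z`, partial data for
`app g gen`: `∃! h, u_j ≫ h = g ∧ h γ^j = γ`), `Cof U_j`, `u_j` split mono, and for `j ≥ k+1` fillable in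
the range.  `U_k = freeOn T`; `U_{j+1}` = expansion at level `j` along
`a_c = tr O k j (γ^j on faces of c) (res c (u_j gen))`, `c : globe j ⟶ T`; fillability by `hH` for
`j = k` (`tr_low`), by `hA` for `j > k`; retraction of an expansion via `unit`.  At `j = m+1`: `top` is
the element with cells `tgt (γ c)` (`ElAPI.exists_el`, `le_dim`, `TrOK.face_lt`); a cylinder `d'` on `a'` gives
`t' : El a'.X T` from `d'.bot` (`ElAPI.exists_el`), `f = cls t'`, `g` from the universal property. -/
def JobU (O : Ops C) : Prop :=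
  ∀ (k m : ℕ) (T : Shape), k ≤ m + 1 → T.dim ≤ m → Contr C → ShapeAPI.{u} → ElAPI C → JobExp C →
    JobCof C →
    (∀ l, k < l → l ≤ m → ∀ (X Y : GlobModel C) (i : X ⟶ Y) (ι : Type) (a : ι → Cell X l)
      (β : ι → Cell Y (l + 1)), Cof X → IsExp i l a β →
      ∀ j, j ≤ m → Fillable X j → Fillable Y j) →
    (k ≤ m → ∀ (Y : GlobModel C) (i : GlobModel.freeOn C T ⟶ Y)
      (α : (globe k ⟶ T) → Cell Y (k + 1)),
      IsExp i k (fun x : globe k ⟶ T => res x (gen C T)) α →
      ∀ j, T.dim ≤ j → k ≤ j → j ≤ m → Fillable Y j) →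
    ∃ a : Ar C, USpecAt O k m T a

/-! ## Final step (job FIN) -/

/-- Job FIN.  Injectivity: a retraction `r` (`i ≫ r = 𝟙`) preserves `Step`, use `Quot.eqvGen_exact` /
`Quot.sound`.  Surjectivity: for `y` of dimension `d ≤ m` (choose `m ≥ max k d`), `H y` gives
`γ : tr G (i w) → y`; for a loop `y` at `basePoint (i x) n = i (basePoint x n)` the faces of `H y` are pushes
of one cylinder `z` of `𝟙 X`, so `G` is the image of a family `G₀` in `X`, valid for `w`, and
`tr G (i w) = i (tr G₀ w)` (`TrOK.app_tr`); `tr G₀ w` is a loop since `i` is injective. -/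
def JobFin (O : Ops C) : Prop :=
  ∀ (e : C.UnitChoice) (k : ℕ) {X Y : GlobModel C} (i : X ⟶ Y) (r : Y ⟶ X), i ≫ r = 𝟙 X →
    (∀ m, k ≤ m → HasRelSec O k m i) → GlobModel.IsWeakEquiv e i

end Crest.Agent.GC
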