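import Crest.Agent.GC.Defs

/-!
Row 248 (S0382), job EXP: free expansions of models exist (reflection of presheaves into models).
-/

set_option autoImplicit false
set_option backward.isDefEq.respectTransparency false
open CategoryTheory CategoryTheory.Limits Opposite
open Crest.GeometryTopology.Coherator Crest.GeometryTopology.Coherator.GlobTheory
open Crest.GeometryTopology.Coherator.Shape (globe faceMap)
universe u

namespace Crest.Agent.GC

namespace EXP

variable (C : GlobTheory.{u})

abbrev Psh : Type (u + 1) := C.Obᵒᵖ ⥤ Type u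

/-- Gluing data. -/
structure GIdx : Type where
  S : Shape
  b : ℕ
  h : ℕ
  hb : b < S.last
  hh : b < h

noncomputable abbrev yy (S : Shape) : Psh C := yoneda.obj (⟨S⟩ : C.Ob)

noncomputable def ym {S T : Shape} (f : S ⟶ T) : yy C S ⟶ yy C T := yoneda.map (C.incl.map f)

theorem ym_comp {R S T : Shape} (f : R ⟶ S) (g : S ⟶ T) : ym C (f ≫ g) = ym C f ≫ ym C g := by
  unfold ym
  rw [C.incl.map_comp]
  exact yoneda.map_comp _ _

noncomputable abbrev dom (g : GIdx) : Psh C :=
  pushout (ym C (g.S.hinge g.hb)) (ym C (faceMap g.hh false))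

noncomputable abbrev cod (g : GIdx) : Psh C := yy C (g.S.glue g.b g.h g.hb g.hh)

noncomputable def cmp (g : GIdx) : dom C g ⟶ cod C g :=
  pushout.desc (ym C (g.S.inLeft g.b g.h g.hb g.hh)) (ym C (g.S.inRight g.b g.h g.hb g.hh))
    (by rw [← ym_comp, ← ym_comp, glue_cond])

noncomputable def W : MorphismProperty (Psh C) := MorphismProperty.ofHoms (cmp C)

instance : MorphismProperty.IsSmall.{u} (W C) :=
  MorphismProperty.isSmall_ofHoms.{u} (cmp C)

theorem inl_cmp (g : GIdx) {P : Psh C} (f : cod C g ⟶ P) :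
    pushout.inl _ _ ≫ cmp C g ≫ f = ym C (g.S.inLeft g.b g.h g.hb g.hh) ≫ f :=
  pushout.inl_desc_assoc _ _ _ _

theorem inr_cmp (g : GIdx) {P : Psh C} (f : cod C g ⟶ P) :
    pushout.inr _ _ ≫ cmp C g ≫ f = ym C (g.S.inRight g.b g.h g.hb g.hh) ≫ f :=
  pushout.inr_desc_assoc _ _ _ _

attribute [local instance] Cardinal.fact_isRegular_aleph0

theorem pres_yy (S : Shape) : IsCardinalPresentable (yy C S) Cardinal.aleph0.{u} where
  preservesColimitOfShape J _ _ := by
    let e : (coyoneda.obj (op (yy C S))) ≅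
        (evaluation _ _).obj (op (⟨S⟩ : C.Ob)) :=
      NatIso.ofComponents (fun P ↦ Equiv.toIso yonedaEquiv)
    exact preservesColimitsOfShape_of_natIso e.symm

theorem pres_dom (g : GIdx) : IsCardinalPresentable (dom C g) Cardinal.aleph0.{u} := by
  have : ∀ k, IsCardinalPresentable
      ((span (ym C (g.S.hinge g.hb)) (ym C (faceMap g.hh false))).obj k) Cardinal.aleph0.{u} := by
    rintro (_ | _ | _)
    · exact pres_yy C _
    · exact pres_yy C _
    · exact pres_yy C _
  exact isCardinalPresentable_of_isColimit' (colimit.cocone _) (colimit.isColimit _) _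
    (hasCardinalLT_of_finite _ _ le_rfl)

/-- The element classified by a map out of a representable. -/
noncomputable def el {P : Psh C} {S : Shape} (f : yy C S ⟶ P) : P.obj (op (⟨S⟩ : C.Ob)) :=
  yonedaEquiv f

/-- The map classified by an element. -/
noncomputable def mp {P : Psh C} {S : Shape} (x : P.obj (op (⟨S⟩ : C.Ob))) : yy C S ⟶ P :=
  yonedaEquiv.symm x

theorem el_mp {P : Psh C} {S : Shape} (x : P.obj (op (⟨S⟩ : C.Ob))) : el C (mp C x) = x :=
  yonedaEquiv.apply_symm_apply x

theorem el_inj {P : Psh C} {S : Shape} {f g : yy C S ⟶ P} (h : el C f = el C g) : f = g :=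
  yonedaEquiv.injective h

theorem el_ym {P : Psh C} {S T : Shape} (c : S ⟶ T) (f : yy C T ⟶ P) :
    el C (ym C c ≫ f) = P.map (C.incl.map c).op (el C f) :=
  (yonedaEquiv_naturality f (C.incl.map c)).symm

theorem el_comp {P Q : Psh C} {S : Shape} (f : yy C S ⟶ P) (g : P ⟶ Q) :
    el C (f ≫ g) = g.app _ (el C f) := yonedaEquiv_comp f g

theorem el_ym_mp {P : Psh C} {S T : Shape} (c : S ⟶ T) (x : P.obj (op (⟨T⟩ : C.Ob))) :
    el C (ym C c ≫ mp C x) = P.map (C.incl.map c).op x := by
  rw [el_ym, el_mp]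

theorem local_of_model (M : GlobModel C) : (W C).isLocal M.functor := by
  rintro _ _ _ ⟨g⟩
  constructor
  · intro f f' hf
    apply el_inj
    have h1 := congrArg (fun t => el C (pushout.inl _ _ ≫ t)) hf
    have h2 := congrArg (fun t => el C (pushout.inr _ _ ≫ t)) hf
    simp only [inl_cmp, inr_cmp, el_ym] at h1 h2
    exact el_glue_ext (X := M) g.S g.b g.h g.hb g.hh _ _ h1 h2
  · intro f
    have hc : el C (ym C (g.S.hinge g.hb) ≫ (pushout.inl _ _ ≫ f)) =
        el C (ym C (faceMap g.hh false) ≫ (pushout.inr _ _ ≫ f)) := by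
      rw [pushout.condition_assoc]
    rw [el_ym, el_ym] at hc
    obtain ⟨z, h1, h2⟩ := el_glue_exists (X := M) g.S g.b g.h g.hb g.hh _ _ hc
    refine ⟨mp C z, ?_⟩
    apply pushout.hom_ext
    · apply el_inj
      dsimp only
      rw [inl_cmp, el_ym_mp]; exact h1
    · apply el_inj
      dsimp only
      rw [inr_cmp, el_ym_mp]; exact h2

theorem pb_of_local (P : Psh C) (hP : (W C).isLocal P) (g : GIdx) :
    IsPullback (P.map (C.incl.map (g.S.inLeft g.b g.h g.hb g.hh)).op)
      (P.map (C.incl.map (g.S.inRight g.b g.h g.hb g.hh)).op)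
      (P.map (C.incl.map (g.S.hinge g.hb)).op)
      (P.map (C.incl.map (Shape.faceMap g.hh false)).op) := by
  have hl := hP (cmp C g) ⟨_⟩
  rw [Types.isPullback_iff]
  refine ⟨?_, ?_, ?_⟩
  · rw [← P.map_comp, ← P.map_comp, ← op_comp, ← op_comp, ← C.incl.map_comp, ← C.incl.map_comp,
      glue_cond]
  · intro x y ⟨h1, h2⟩
    have : mp C (S := g.S.glue g.b g.h g.hb g.hh) x = mp C (S := g.S.glue g.b g.h g.hb g.hh) y := by
      apply hl.1
      apply pushout.hom_ext
      · apply el_inj
        dsimp only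
        rw [inl_cmp, inl_cmp, el_ym_mp, el_ym_mp]; exact h1
      · apply el_inj
        dsimp only
        rw [inr_cmp, inr_cmp, el_ym_mp, el_ym_mp]; exact h2
    exact (el_mp C _).symm.trans ((congrArg (el C) this).trans (el_mp C _))
  · intro x y hxy
    obtain ⟨f, hf⟩ := hl.2 (pushout.desc (mp C (S := g.S) x) (mp C (S := globe g.h) y) (by
      apply el_inj
      rw [el_ym_mp, el_ym_mp]; exact hxy))
    have h1 := congrArg (fun t => el C (pushout.inl _ _ ≫ t)) hf
    have h2 := congrArg (fun t => el C (pushout.inr _ _ ≫ t)) hf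
    simp only [inl_cmp, inr_cmp, el_ym, pushout.inl_desc, pushout.inr_desc] at h1 h2
    exact ⟨el C f, h1.trans (el_mp C _), h2.trans (el_mp C _)⟩

/-- A local presheaf is a model. -/
noncomputable def toModel (P : Psh C) (hP : (W C).isLocal P) : GlobModel C where
  functor := P
  sums S b h hb hh := pb_of_local C P hP ⟨S, b, h, hb, hh⟩

/-- Reflection of presheaves into models. -/
theorem reflect (P : Psh C) : ∃ (Y : GlobModel C) (η : P ⟶ Y.functor),
    ∀ (Z : GlobModel C), Function.Bijective (fun (h : Y.functor ⟶ Z.functor) => η ≫ h) := by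
  have hr : (W C).isLocal.ι.IsRightAdjoint :=
    MorphismProperty.isRightAdjoint_ι_isLocal (W C) Cardinal.aleph0.{u} (by
      rintro _ _ _ ⟨g⟩
      exact ⟨pres_dom C g, pres_yy C _⟩)
  let adj := Adjunction.ofIsRightAdjoint (W C).isLocal.ι
  let L := (W C).isLocal.ι.leftAdjoint.obj P
  refine ⟨toModel C L.obj L.property, adj.unit.app P, fun Z => ?_⟩
  have := ObjectProperty.isLocal_adj_unit_app adj P Z.functor
    ⟨⟨Z.functor, local_of_model C Z⟩, rfl⟩
  exact this

end EXP

open EXP in
theorem jobExp (C : GlobTheory.{u}) : JobExp C := by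
  intro X l ι a
  let A : Psh C := ∐ fun _ : ι => yy C (globe l)
  let B : Psh C := ∐ fun _ : ι => yy C (globe (l + 1))
  let p : A ⟶ X.functor := Sigma.desc fun s => mp C (P := X.functor) (a s)
  let q : A ⟶ B := Limits.Sigma.map fun _ => ym C (faceMap (Nat.lt_add_one l) false)
  obtain ⟨Y, η, hη⟩ := reflect C (pushout p q)
  let i : X ⟶ Y := (show X.functor ⟶ Y.functor from pushout.inl p q ≫ η)
  let β : ι → Cell Y (l + 1) := fun s =>
    el C (P := Y.functor) (Sigma.ι (fun _ : ι => yy C (globe (l + 1))) s ≫ pushout.inr p q ≫ η)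
  have key : ∀ (Z : GlobModel C) (s : ι) (g : X.functor ⟶ Z.functor),
      el C (P := Z.functor) (Sigma.ι (fun _ : ι => yy C (globe l)) s ≫ p ≫ g) =
        app (show X ⟶ Z from g) (a s) := by
    intro Z s g
    simp only [p, Sigma.ι_desc_assoc]
    rw [el_comp, el_mp]; rfl
  have key2 : ∀ (Z : GlobModel C) (s : ι) (g : B ⟶ Z.functor),
      el C (P := Z.functor) (Sigma.ι (fun _ : ι => yy C (globe l)) s ≫ q ≫ g) =
        src (show Cell Z (l + 1) from
          el C (P := Z.functor) (Sigma.ι (fun _ : ι => yy C (globe (l + 1))) s ≫ g)) := by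
    intro Z s g
    simp only [q, Sigma.ι_map_assoc]
    rw [el_ym]; rfl
  have key3 : ∀ (Z : GlobModel C) (s : ι) (h : Y ⟶ Z), app h (β s) =
      el C (P := Z.functor) (Sigma.ι (fun _ : ι => yy C (globe (l + 1))) s ≫ pushout.inr p q ≫ η ≫
        (show Y.functor ⟶ Z.functor from h)) := by
    intro Z s h
    have := el_comp C (Sigma.ι (fun _ : ι => yy C (globe (l + 1))) s ≫ pushout.inr p q ≫ η)
      (show Y.functor ⟶ Z.functor from h)
    simp only [Category.assoc] at this
    rw [this]; rfl
  refine ⟨Y, i, β, fun s => ?_, fun Z g z hz => ?_⟩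
  · rw [← key Y s (pushout.inl p q ≫ η), pushout.condition_assoc, key2]
  · let r : B ⟶ Z.functor := Sigma.desc fun s => mp C (P := Z.functor) (z s)
    have hr : ∀ s, el C (P := Z.functor)
        (Sigma.ι (fun _ : ι => yy C (globe (l + 1))) s ≫ r) = z s := by
      intro s
      simp only [r, Sigma.ι_desc]
      exact el_mp C _
    have hw : p ≫ (show X.functor ⟶ Z.functor from g) = q ≫ r := by
      apply Sigma.hom_ext
      intro s
      apply el_inj
      rw [key Z s g, key2, hr, hz]
    obtain ⟨h, hh⟩ := (hη Z).2 (pushout.desc (show X.functor ⟶ Z.functor from g) r hw)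
    dsimp only at hh
    have e1 : i ≫ (show Y ⟶ Z from h) = g := by
      show (pushout.inl p q ≫ η) ≫ h = _
      rw [Category.assoc, hh, pushout.inl_desc]
    have e2 : ∀ s, app (show Y ⟶ Z from h) (β s) = z s := by
      intro s
      rw [key3, hh, pushout.inr_desc, hr]
    refine ⟨h, ⟨e1, e2⟩, fun h' ⟨e1', e2'⟩ => ?_⟩
    apply (hη Z).1
    dsimp only
    rw [hh]
    apply pushout.hom_ext
    · rw [pushout.inl_desc, ← e1']
      exact (Category.assoc _ _ _).symm
    · rw [pushout.inr_desc]
      apply Sigma.hom_ext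
      intro s
      apply el_inj
      rw [hr, ← e2', key3]

end Crest.Agent.GC
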