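import Crest.Agent.GC.CYL

/-!
Row 248 (S0382), job FIN: relative sections and a retraction give a weak equivalence.
-/

set_option autoImplicit false
open CategoryTheory CategoryTheory.Limits Opposite
open Crest.GeometryTopology.Coherator Crest.GeometryTopology.Coherator.GlobTheory
open Crest.GeometryTopology.Coherator.Shape (globe faceMap)
universe u

namespace Crest.Agent.GC

variable {C : GlobTheory.{u}}

namespace JFin

theorem app_basePoint {X Y : GlobModel C} (f : X ⟶ Y) (e : C.UnitChoice) (x : Cell X 0) (n : ℕ) :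
    app f (S := globe n) (X.basePoint e x n) = Y.basePoint e (app f x) n := by
  induction n with
  | zero => rfl
  | succ n ih =>
    have h := app_act f (e.unit n) (X.basePoint e x n)
    rw [ih] at h
    exact h

theorem step_of_eqvGen (O : Ops C) {X : GlobModel C} {n : ℕ} {A : Type u} (p : A → Cell X n)
    {a b : A} (h : Relation.EqvGen (fun a b : A => Step (p a) (p b)) a b) : Step (p a) (p b) := by
  induction h with
  | rel _ _ h => exact h
  | refl _ => exact O.step_refl _
  | symm _ _ _ ih => exact O.step_symm ih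
  | trans _ _ _ _ _ ih ih' => exact O.step_trans ih ih'

end JFin

open JFin in
theorem jobFin (O : Ops C) : JobFin O := by
  intro e k X Y i r hr hsec
  have hri : ∀ {S : Shape} (x : El X S), app r (app i x) = x := fun x => by
    rw [← app_comp, hr, app_id]
  have hinj : ∀ {S : Shape} (x y : El X S), app i x = app i y → x = y := fun x y h => by
    rw [← hri x, h, hri]
  refine ⟨⟨?_, ?_⟩, fun x n => ⟨?_, ?_⟩⟩
  · rintro ⟨a⟩ ⟨b⟩ h
    have h1 : Step (X := Y) (n := 0) (app i a) (app i b) :=
      step_of_eqvGen O (fun c : Cell Y 0 => c) (Quot.eqvGen_exact h)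
    have h2 := h1.map r
    rw [hri, hri] at h2
    exact Quot.sound h2
  · rintro ⟨y⟩
    obtain ⟨H, ⟨H1, -⟩, -⟩ := hsec k le_rfl
    refine ⟨Quot.mk _ ((H 0 y).bot 0 (Nat.zero_le k) (𝟙 _)), Quot.sound ?_⟩
    refine ⟨(H 0 y).gam 0 (Nat.zero_le k) (𝟙 _), (H 0 y).gam_src 0 _ _, ?_⟩
    have := (H 0 y).gam_tgt 0 (Nat.zero_le k) (𝟙 _)
    rw [res_id, H1] at this
    exact this
  · rintro ⟨a⟩ ⟨b⟩ h
    have h1 : Step (X := Y) (n := n + 1) (app i a.1) (app i b.1) :=
      step_of_eqvGen O (fun c : Y.LoopsAt e (app i x) n => (c.1 : Cell Y (n + 1)))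
        (Quot.eqvGen_exact h)
    have h2 := h1.map r
    rw [hri, hri] at h2
    exact Quot.sound h2
  · rintro ⟨⟨y, hy1, hy2⟩⟩
    have hm : n + 1 ≤ max k (n + 1) := le_max_right _ _
    have hn : n ≤ max k (n + 1) := (Nat.le_succ n).trans hm
    obtain ⟨H, ⟨H1, H2⟩, H3⟩ := hsec (max k (n + 1)) (le_max_left _ _)
    obtain ⟨z, hz⟩ := H3 n (X.basePoint e x n)
    have hy : ∀ b : Bool, face (X := Y) (Nat.lt_add_one n) b y =
        app i (S := globe n) (X.basePoint e x n) := by
      intro b
      rw [app_basePoint]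
      cases b
      · exact hy1
      · exact hy2
    set d := H (n + 1) y with hd
    have hres : ∀ b : Bool, d.res (faceMap (Nat.lt_add_one n) b) = z.push (𝟙 X) i (by simp) := by
      intro b
      rw [← H2, hy b, hz]
    have hw : ∀ b : Bool, face (Nat.lt_add_one n) b (d.bot (n + 1) hm (𝟙 _)) =
        app (𝟙 X) (z.bot n hn (𝟙 _)) := by
      intro b
      rw [← d.bot_face, Category.comp_id, ← Category.id_comp (faceMap (Nat.lt_add_one n) b),
        ← Cyl.res_bot, hres b]
      rfl
    have hok := JCyl.sph_ok n hn z z (d.bot (n + 1) hm (𝟙 _)) (fun _ _ _ => rfl) (hw false)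
      (hw true)
    have hγ : src (d.gam (n + 1) hm (𝟙 _)) =
        app i (tr O k (n + 1) (sphFam hn z z) (d.bot (n + 1) hm (𝟙 _))) := by
      rw [hok.app_tr i, d.gam_src]
      congr 1
      funext l h b
      rw [Category.comp_id, ← fo_faceMap (Nat.le_of_lt_succ h) (Nat.lt_add_one n) b,
        ← Cyl.res_gam, hres b]
      cases b <;> rfl
    have hγ' : tgt (d.gam (n + 1) hm (𝟙 _)) = y := by
      rw [d.gam_tgt, res_id, hd, H1]
    have hl : ∀ b : Bool, face (Nat.lt_add_one n) b
        (tr O k (n + 1) (sphFam hn z z) (d.bot (n + 1) hm (𝟙 _))) = X.basePoint e x n := by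
      intro b
      apply hinj
      rw [app_face, ← hγ, face_face, ← hy b, ← hγ', face_face]
    refine ⟨Quot.mk _ ⟨tr O k (n + 1) (sphFam hn z z) (d.bot (n + 1) hm (𝟙 _)), hl false, hl true⟩,
      Quot.sound ?_⟩
    exact ⟨d.gam (n + 1) hm (𝟙 _), hγ, hγ'⟩

end Crest.Agent.GC
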