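import Crest.Agent.GC.HatStd

/-! Row 248, job HAT1: doubling the `k`-cells of a shape. -/

set_option autoImplicit false
open CategoryTheory CategoryTheory.Limits Opposite
open Crest.GeometryTopology.Coherator Crest.GeometryTopology.Coherator.GlobTheory
open Crest.GeometryTopology.Coherator.Shape (globe faceMap)
universe u

namespace Crest.Agent.GC

variable {C : GlobTheory.{u}}

/-- The generic cell of a free model given by a shape map. -/
noncomputable abbrev gc (C : GlobTheory.{u}) {R S : Shape} (c : R ⟶ S) :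
    El (GlobModel.freeOn C S) R := res c (gen C S)

theorem app_cls_gc {Y : GlobModel C} {R S : Shape} (V : El Y S) (c : R ⟶ S) :
    app (cls V) (gc C c) = res c V := by rw [app_res, app_cls_gen]

theorem IsStd.of_eq {O : Ops C} {Θ : Theta O} {k m : ℕ} {F Y : GlobModel C} {v : F ⟶ Y} {n : ℕ}
    {h : k < n} {z z' : Cyl O (k + 1) m v (globe n)} {a : Cell F (k + 1)} {g g' : Cell F n}
    {δ δ' : Cell Y (k + 1)} (H : IsStd Θ v h z a g δ) (e1 : z' = z) (e2 : g' = g) (e3 : δ' = δ) :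
    IsStd Θ v h z' a g' δ' := by subst e1 e2 e3; exact H

/-- Extending the hat shape by one globe. -/
theorem hat_ext {Y : GlobModel C} (S : Shape) (V : El Y S) (b h : ℕ) (hb : b < S.last) (hh : b < h)
    (y : Cell Y h) (hy : res (S.hinge hb) V = face hh false y) :
    ∃ (V' : El Y (S.glue b h hb hh))
      (f : GlobModel.freeOn C S ⟶ GlobModel.freeOn C (S.glue b h hb hh))
      (_ : cls V ≫ 𝟙 Y = f ≫ cls V'),
      app (cls V') (gc C (S.inRight b h hb hh)) = y ∧
      app f (gc C (S.hinge hb)) = face hh false (gc C (S.inRight b h hb hh)) := by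
  obtain ⟨V', h1, h2⟩ := el_glue_exists S b h hb hh V y hy
  refine ⟨V', cls (gc C (S.inLeft b h hb hh)), ?_, ?_, ?_⟩
  · apply free_hom_ext
    rw [app_comp, app_comp, app_cls_gen, app_cls_gen, app_cls_gc, h1, app_id]
  · rw [app_cls_gc, h2]
  · rw [app_cls_gc, face_res, ← res_comp, glue_cond]

section
variable {O : Ops C} (Θ : Theta O) {k m : ℕ} (hk : k ≤ m) {Y : GlobModel C}

/-- The `k`-cell `x` has been doubled. -/
def Done {T S : Shape} (α : (globe k ⟶ T) → Cell Y (k + 1)) (V : El Y S)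
    (d : Cyl O (k + 1) m (cls V) T) (x : globe k ⟶ T) : Prop :=
  ∃ a : Cell (GlobModel.freeOn C S) (k + 1),
    src a = d.bot k hk x ∧ app (cls V) a = O.inv (O.inv (α x))

/-- Closed form. -/
def Closed (O : Ops C) (T : Shape) (t : El Y T) (α : (globe k ⟶ T) → Cell Y (k + 1)) : Prop :=
  ∃ (S : Shape) (V : El Y S) (d : Cyl O (k + 1) m (cls V) T), S.dim ≤ max T.dim (k + 1) ∧
    d.top = t ∧ (∀ x, Done hk α V d x) ∧
    ∀ (b : ℕ) (hb : b < T.last) (hbk : b < k), ∃ hb' : b < S.last,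
      gc C (S.hinge hb') = d.bot b (hbk.le.trans hk) (T.hinge hb)

/-- Closed form, remembering the last doubled cell. -/
def ClosedK (O : Ops C) (T : Shape) (h : k < T.last) (t : El Y T)
    (α : (globe k ⟶ T) → Cell Y (k + 1)) : Prop :=
  ∃ (P : Pasting (k + 1)) (V : El Y ⟨k + 1, P⟩) (d : Cyl O (k + 1) m (cls V) T),
    P.dim ≤ max T.dim (k + 1) ∧ d.top = t ∧ (∀ x, Done hk α V d x) ∧
    src (gc C (ap ⟨k + 1, P⟩) : Cell _ (k + 1)) = d.bot k hk (T.hinge h) ∧
    app (cls V) (gc C (ap ⟨k + 1, P⟩) : Cell _ (k + 1)) = O.inv (O.inv (α (T.hinge h)))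

/-- Open form. -/
def Opened (T : Shape) (h : k < T.last) (t : El Y T)
    (α : (globe k ⟶ T) → Cell Y (k + 1)) : Prop :=
  ∃ (P : Pasting T.last) (V : El Y ⟨T.last, P⟩) (d : Cyl O (k + 1) m (cls V) T),
    P.dim ≤ max T.dim (k + 1) ∧ d.top = t ∧ (∀ x, Done hk α V d x ∨ x = T.hinge h) ∧
    ∃ a, IsStd Θ (cls V) h (d.res (ap T)) a (gc C (ap ⟨T.last, P⟩) : Cell _ T.last)
      (O.inv (α (faceMap h false ≫ ap T)))

theorem Done.push {T S S' : Shape} {α : (globe k ⟶ T) → Cell Y (k + 1)} {V : El Y S}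
    {d : Cyl O (k + 1) m (cls V) T} {x : globe k ⟶ T} (H : Done hk α V d x) {V' : El Y S'}
    (f : GlobModel.freeOn C S ⟶ GlobModel.freeOn C S') (w : cls V ≫ 𝟙 Y = f ≫ cls V') :
    Done hk α V' (d.push f (𝟙 Y) w) x := by
  obtain ⟨a, h1, h2⟩ := H
  refine ⟨app f a, by rw [← app_face, h1]; rfl, ?_⟩
  rw [← app_comp, ← w, ← h2]; rfl

theorem Done.of_res {T T' S : Shape} {α : (globe k ⟶ T') → Cell Y (k + 1)} {V : El Y S}
    {d : Cyl O (k + 1) m (cls V) T'} (j : T ⟶ T') {x : globe k ⟶ T}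
    (H : Done hk (fun c => α (c ≫ j)) V (d.res j) x) : Done hk α V d (x ≫ j) := H

theorem Opened.close {T : Shape} {h : k < T.last} {t : El Y T}
    {α : (globe k ⟶ T) → Cell Y (k + 1)} (hα : ∀ x, src (α x) = res x t)
    (H : Opened Θ hk T h t α) : ClosedK hk O T h t α := by
  obtain ⟨P, V, d, hdim, htop, hdone, a, hstd⟩ := H
  have e1 : d.bot k hk (T.hinge h) = gc C (Shape.hinge ⟨T.last, P⟩ h) := by
    have := hstd.bot_tgt hk
    rw [Cyl.res_bot, face_res] at this
    exact this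
  obtain ⟨V', f, w, h1, h2⟩ := hat_ext (⟨T.last, P⟩ : Shape) V k (k + 1) h (Nat.lt_add_one k)
    (O.inv (O.inv (α (T.hinge h)))) (by
      rw [O.src_inv, O.tgt_inv, hα, ← app_cls_gc, ← e1, ← d.top_low hk _ (Nat.lt_add_one k), htop])
  refine ⟨P.glue k (k + 1) h (Nat.lt_add_one k), V', d.push f (𝟙 Y) w, ?_, htop, ?_, ?_, h1⟩
  · show max P.dim (k + 1) ≤ _
    omega
  · intro x
    rcases hdone x with hx | rfl
    · exact hx.push hk f w
    · refine ⟨gc C (Shape.inRight ⟨T.last, P⟩ k (k + 1) h (Nat.lt_add_one k)), ?_, h1⟩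
      rw [Cyl.push_bot, e1]; exact h2.symm
  · rw [Cyl.push_bot, e1]; exact h2.symm

theorem ClosedK.closed {T : Shape} {h : k < T.last} {t : El Y T}
    {α : (globe k ⟶ T) → Cell Y (k + 1)} (H : ClosedK hk O T h t α) : Closed hk O T t α := by
  obtain ⟨P, V, d, hdim, htop, hdone, h1, -⟩ := H
  refine ⟨⟨k + 1, P⟩, V, d, hdim, htop, hdone, fun b hb hbk => ⟨Nat.lt_succ_of_lt hbk, ?_⟩⟩
  have e : T.hinge hb = faceMap hbk true ≫ T.hinge h := by
    rw [hinge_eq, hinge_eq, faceMap_comp_assoc]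
  rw [e, d.bot_face k hk, ← h1, face_face, face_res]
  rfl

/-- Attach the hat of a globe of dimension `> k` after a doubled `k`-cell. -/
theorem open_step (hS : ShapeAPI.{u}) (m : ℕ) (P : Pasting (k + 1)) (V : El Y ⟨k + 1, P⟩)
    (δ : Cell Y (k + 1))
    (hδ : app (cls V) (gc C (ap ⟨k + 1, P⟩) : Cell _ (k + 1)) = O.inv δ) {n : ℕ} (h : k < n)
    (w : Cell Y n) (hw : tgt δ = face h false w) :
    ∃ (V' : El Y ⟨n, P.glue k n (Nat.lt_add_one k) h⟩)
      (f : GlobModel.freeOn C ⟨k + 1, P⟩ ⟶ GlobModel.freeOn C ⟨n, P.glue k n (Nat.lt_add_one k) h⟩)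
      (_ : cls V ≫ 𝟙 Y = f ≫ cls V') (z : Cyl O (k + 1) m (cls V') (globe n)), z.top = w ∧
      IsStd Θ (cls V') h z (app f (gc C (ap ⟨k + 1, P⟩) : Cell _ (k + 1)))
        (gc C (ap ⟨n, P.glue k n (Nat.lt_add_one k) h⟩) : Cell _ n) δ := by
  have hv : V3 h δ w (O.unit (face h true w)) := ⟨hw, (O.src_unit _).symm⟩
  obtain ⟨V', f, wf, h1, h2⟩ := hat_ext (⟨k + 1, P⟩ : Shape) V k n (Nat.lt_add_one k) h
    (O.W k δ w (O.unit (face h true w))) (by
      rw [O.W_src h hv, ← O.tgt_inv, ← hδ, ← app_face, face_res, app_cls_gc]; rfl)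
  obtain ⟨z, hz, hstd⟩ := std_exists Θ hS m (cls V') h
    (app f (gc C (ap ⟨k + 1, P⟩) : Cell _ (k + 1)))
    (gc C (Shape.inRight ⟨k + 1, P⟩ k n (Nat.lt_add_one k) h)) δ w
    (by rw [← h2, ← app_face, face_res]; rfl)
    (by rw [← app_comp, ← wf, ← hδ]; rfl) hw h1
  exact ⟨V', f, wf, z, hz, hstd⟩

/-- Glue a cylinder on `T` and a cylinder on a globe. -/
theorem glue_cyl (hC : CylAPI O (k + 1) m) {S : Shape} {V : El Y S} (T : Shape) (b h : ℕ)
    (hb : b < T.last) (hh : b < h) (t : El Y (T.glue b h hb hh))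
    (d : Cyl O (k + 1) m (cls V) T) (z : Cyl O (k + 1) m (cls V) (globe h))
    (hd : d.top = res (T.inLeft b h hb hh) t) (hz : z.top = res (T.inRight b h hb hh) t)
    (hdz : d.res (T.hinge hb) = z.res (faceMap hh false)) :
    ∃ d' : Cyl O (k + 1) m (cls V) (T.glue b h hb hh), d'.top = t ∧
      d'.res (T.inLeft b h hb hh) = d ∧ d'.res (T.inRight b h hb hh) = z := by
  obtain ⟨d', h1, h2⟩ := hC.glue_exists _ T b h hb hh d z hdz
  refine ⟨d', el_glue_ext T b h hb hh _ _ ?_ ?_, h1, h2⟩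
  · rw [← hd, ← h1]; rfl
  · rw [← hz, ← h2]; rfl

end

section main
variable {O : Ops C} (Θ : Theta O) {k m : ℕ} (hk : k ≤ m) (hS : ShapeAPI.{u})
  (hC : CylAPI O (k + 1) m)

include hS in
theorem hat_globe (n : ℕ) (Y : GlobModel C) (t : El Y (globe n))
    (α : (globe k ⟶ globe n) → Cell Y (k + 1)) (hα : ∀ x, src (α x) = res x t) :
    (∀ h : k < n, Opened Θ hk (globe n) h t α) ∧ (n ≤ k → Closed hk O (globe n) t α) := by
  refine ⟨fun h => ?_, fun h => ?_⟩
  · obtain ⟨V', f, wf, z, hz, hstd⟩ := open_step Θ hS m (Pasting.single (k + 1))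
      (O.inv (O.inv (α (faceMap h false)))) (O.inv (α (faceMap h false)))
      (by rw [app_cls_gc]; exact res_id _) h t (by rw [O.tgt_inv, hα]; rfl)
    refine ⟨_, V', z, ?_, hz, fun x => ?_, app f (gc C (ap ⟨k + 1, Pasting.single (k + 1)⟩)), ?_⟩
    · show max (k + 1) n ≤ max n (k + 1)
      omega
    · obtain ⟨b, rfl⟩ := hS.globe_lt k n h x
      cases b
      · refine Or.inl ⟨_, (hstd.bot_src le_rfl hk).symm, hstd.va⟩
      · exact Or.inr (Category.comp_id _).symm
    · have e1 : z.res (ap (globe n)) = z := z.res_id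
      have e2 : faceMap h false ≫ ap (globe n) = faceMap h false := Category.comp_id _
      exact hstd.of_eq e1 rfl (congrArg (fun c => O.inv (α c)) e2)
  · rcases h.lt_or_eq with h1 | rfl
    · obtain ⟨z, hz, hb⟩ := low_exists hS O (k + 1) m (cls t) (show n < k + 1 by omega)
        (gen C (globe n))
      refine ⟨globe n, t, z, le_max_left _ _, hz.trans (app_cls_gen _), fun x => ?_,
        fun b hb' hbk => ⟨hb', (hb _ _ _).symm⟩⟩
      exact absurd (hS.le_dim (globe n) k x) (by rw [dim_globe]; omega)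
    · obtain ⟨z, hz, hb⟩ := low_exists hS O (n + 1) m (cls (O.inv (O.inv (α (𝟙 _)))))
        (Nat.lt_add_one n) (src (gen C (globe (n + 1)) : Cell _ (n + 1)))
      refine ⟨globe (n + 1), O.inv (O.inv (α (𝟙 _))), z, le_max_right _ _, ?_, fun x => ?_,
        fun b hb' hbk => ⟨Nat.lt_succ_of_lt hbk, ?_⟩⟩
      · rw [hz, app_face, app_cls_gen, O.src_inv, O.tgt_inv, hα, res_id]
      · rw [hS.globe_self n x]
        exact ⟨gen C (globe (n + 1)), by rw [hb, res_id], app_cls_gen _⟩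
      · rw [hb, hinge_eq, hinge_eq, ap_globe, ap_globe]
        show res (faceMap _ true ≫ 𝟙 _) _ = res (faceMap _ true ≫ 𝟙 _) _
        rw [Category.comp_id, Category.comp_id, res_faceMap, res_faceMap]
        exact (face_face hbk (Nat.lt_add_one n) true false _).symm

include hS hC in
theorem hat_glue_hi (T : Shape) (b n : ℕ) (hb : b < T.last) (hn : b < n) (hkb : k < b)
    (Y : GlobModel C) (t : El Y (T.glue b n hb hn))
    (α : (globe k ⟶ T.glue b n hb hn) → Cell Y (k + 1))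
    (H : Opened Θ hk T (hkb.trans hb) (res (T.inLeft b n hb hn) t)
      (fun c => α (c ≫ T.inLeft b n hb hn))) :
    Opened Θ hk (T.glue b n hb hn) (hkb.trans hn) t α := by
  obtain ⟨P, V, d, hdim, htop, hdone, a, hstd⟩ := H
  have hface : ∀ s, faceMap (hkb.trans hn) s ≫ T.inRight b n hb hn =
      (faceMap (hkb.trans hb) s ≫ ap T) ≫ T.inLeft b n hb hn := by
    intro s
    rw [← faceMap_comp_assoc hkb hn s false, ← glue_cond, hinge_eq, ← faceMap_comp hkb hb s true]
    simp only [Category.assoc]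
  set δ := O.inv (α ((faceMap (hkb.trans hb) false ≫ ap T) ≫ T.inLeft b n hb hn)) with hδ
  have hs1 := IsStd.face hkb hb hstd true
  have hw : face hn false (res (T.inRight b n hb hn) t) =
      ((d.res (ap T)).res (faceMap hb true)).top := by
    rw [face_res, ← glue_cond, res_comp, ← htop, hinge_eq, res_comp]; rfl
  have tδ : tgt δ = face (hkb.trans hn) false (res (T.inRight b n hb hn) t) := by
    rw [hs1.tδ, ← hw, face_face]
  have hy : face (hkb.trans hn) true (res (T.inRight b n hb hn) t) =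
      face hkb true ((d.res (ap T)).res (faceMap hb true)).top := by
    rw [← hw, face_face]
  have hv : V3 (hkb.trans hn) δ (res (T.inRight b n hb hn) t)
      (O.unit (face (hkb.trans hn) true (res (T.inRight b n hb hn) t))) := ⟨tδ, (O.src_unit _).symm⟩
  obtain ⟨V', f, wf, h1, h2⟩ := hat_ext (⟨T.last, P⟩ : Shape) V b n hb hn
    (O.W k δ (res (T.inRight b n hb hn) t)
      (O.unit (face (hkb.trans hn) true (res (T.inRight b n hb hn) t)))) (by
      rw [O.W_hi hkb hn hv, hw, hy, ← hs1.vg, face_res, app_cls_gc]; rfl)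
  have hs2 := hs1.push f wf
  have h3 : app f (face hb true (gc C (ap ⟨T.last, P⟩) : Cell _ T.last)) =
      face hn false (gc C (Shape.inRight ⟨T.last, P⟩ b n hb hn)) := by
    rw [← h2, face_res]; rfl
  obtain ⟨z, hz, hstd'⟩ := std_exists Θ hS m (cls V') (hkb.trans hn) (app f a)
    (gc C (Shape.inRight ⟨T.last, P⟩ b n hb hn)) δ (res (T.inRight b n hb hn) t)
    (by rw [hs2.ta, h3, face_face]) hs2.va tδ h1
  obtain ⟨d', e1, e2, e3⟩ := glue_cyl hC T b n hb hn t (d.push f (𝟙 Y) wf) z htop hz (by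
    refine IsStd.ext (hs2.of_eq ?_ h3.symm rfl) (IsStd.face hkb hn hstd' false) ?_
    · rw [Cyl.push_res, hinge_eq, Cyl.res_comp]
    · rw [Cyl.res_top, Cyl.res_top, hz, res_faceMap, hw, hinge_eq, res_comp]; rfl)
  refine ⟨P.glue b n hb hn, V', d', ?_, e1, fun x => ?_, app f a, ?_⟩
  · show max P.dim n ≤ max (max T.dim n) (k + 1)
    omega
  · have key : ∀ c : globe k ⟶ T, Done hk α V' d' (c ≫ T.inLeft b n hb hn) ∨
        c ≫ T.inLeft b n hb hn = (T.glue b n hb hn).hinge (hkb.trans hn) := by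
      intro c
      rcases hdone c with hc | rfl
      · left
        apply Done.of_res
        rw [e2]
        exact hc.push hk f wf
      · right
        exact (hface true).symm
    rcases hS.glue_cases T b n hb hn k x with ⟨c, rfl⟩ | ⟨c, rfl⟩
    · exact key c
    · obtain ⟨s, rfl⟩ := hS.globe_lt k n (hkb.trans hn) c
      rw [hface]
      exact key _
  · exact hstd'.of_eq e3 rfl (congrArg (fun c => O.inv (α c)) (hface false))

include hS hC in
/-- Final step shared by the cases `b ≤ k < n`. -/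
theorem hat_glue_open (T : Shape) (b n : ℕ) (hb : b < T.last) (hn : b < n) (hbk : b ≤ k)
    (hkn : k < n) (Y : GlobModel C) (t : El Y (T.glue b n hb hn))
    (α : (globe k ⟶ T.glue b n hb hn) → Cell Y (k + 1)) (hα : ∀ x, src (α x) = res x t)
    (P : Pasting (k + 1)) (V : El Y ⟨k + 1, P⟩) (d : Cyl O (k + 1) m (cls V) T)
    (hdim : P.dim ≤ max T.dim (k + 1)) (htop : d.top = res (T.inLeft b n hb hn) t)
    (hdone : ∀ x, Done hk (fun c => α (c ≫ T.inLeft b n hb hn)) V d x)
    (h1 : face (Nat.lt_succ_of_le hbk) false (gc C (ap ⟨k + 1, P⟩) : Cell _ (k + 1)) =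
      d.bot b (hbk.trans hk) (T.hinge hb))
    (h2 : app (cls V) (gc C (ap ⟨k + 1, P⟩) : Cell _ (k + 1)) =
      O.inv (O.inv (α (faceMap hkn false ≫ T.inRight b n hb hn)))) :
    Opened Θ hk (T.glue b n hb hn) hkn t α := by
  obtain ⟨V', f, wf, z, hz, hstd⟩ := open_step Θ hS m P V _ h2 hkn (res (T.inRight b n hb hn) t)
    (by rw [O.tgt_inv, hα, face_res])
  obtain ⟨d', e1, e2, e3⟩ := glue_cyl hC T b n hb hn t (d.push f (𝟙 Y) wf) z htop hz (by
    apply low_ext hS (Nat.lt_succ_of_le hbk) (hbk.trans hk)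
    rw [Cyl.res_bot, Cyl.res_bot, Category.id_comp, Category.id_comp, Cyl.push_bot, ← h1,
      hstd.bot_src hbk, app_face])
  refine ⟨P.glue k n (Nat.lt_add_one k) hkn, V', d', ?_, e1, fun x => ?_, _, hstd.of_eq e3 rfl rfl⟩
  · show max P.dim n ≤ max (max T.dim n) (k + 1)
    omega
  · rcases hS.glue_cases T b n hb hn k x with ⟨c, rfl⟩ | ⟨c, rfl⟩
    · left
      have := (hdone c).push hk f wf
      rw [← e2] at this
      exact this
    · obtain ⟨s, rfl⟩ := hS.globe_lt k n hkn c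
      cases s
      · left
        refine ⟨_, ?_, hstd.va⟩
        have := hstd.bot_src le_rfl hk
        rw [← e3] at this
        exact this.symm
      · right; rfl

include hS hC in
theorem hat_glue_eq (T : Shape) (n : ℕ) (hb : k < T.last) (hn : k < n)
    (Y : GlobModel C) (t : El Y (T.glue k n hb hn))
    (α : (globe k ⟶ T.glue k n hb hn) → Cell Y (k + 1)) (hα : ∀ x, src (α x) = res x t)
    (H : ClosedK hk O T hb (res (T.inLeft k n hb hn) t) (fun c => α (c ≫ T.inLeft k n hb hn))) :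
    Opened Θ hk (T.glue k n hb hn) hn t α := by
  obtain ⟨P, V, d, hdim, htop, hdone, h1, h2⟩ := H
  exact hat_glue_open Θ hk hS hC T k n hb hn le_rfl hn Y t α hα P V d hdim htop hdone h1
    (by rw [h2, ← glue_cond])

theorem closed_hinge {Y : GlobModel C} {T S : Shape} {V : El Y S} (d : Cyl O (k + 1) m (cls V) T)
    {b : ℕ} (hb : b < T.last) (hbk : b < k) (hb' : b < S.last)
    (e : gc C (S.hinge hb') = d.bot b (hbk.le.trans hk) (T.hinge hb)) :
    res (S.hinge hb') V = res (T.hinge hb) d.top := by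
  rw [← app_cls_gc, e, d.top_low (hbk.le.trans hk) _ (by omega)]

include hS hC in
theorem hat_glue_lo_hi (T : Shape) (b n : ℕ) (hb : b < T.last) (hn : b < n) (hbk : b < k)
    (hkn : k < n) (Y : GlobModel C) (t : El Y (T.glue b n hb hn))
    (α : (globe k ⟶ T.glue b n hb hn) → Cell Y (k + 1)) (hα : ∀ x, src (α x) = res x t)
    (H : Closed hk O T (res (T.inLeft b n hb hn) t) (fun c => α (c ≫ T.inLeft b n hb hn))) :
    Opened Θ hk (T.glue b n hb hn) hkn t α := by
  obtain ⟨S, V, d, hdim, htop, hdone, hh⟩ := H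
  obtain ⟨hb', e⟩ := hh b hb hbk
  obtain ⟨V', f, wf, h1, h2⟩ := hat_ext S V b (k + 1) hb' (Nat.lt_succ_of_lt hbk)
    (O.inv (O.inv (α (faceMap hkn false ≫ T.inRight b n hb hn)))) (by
      rw [closed_hinge hk d hb hbk hb' e, htop, ← res_comp, glue_cond,
        ← face_face hbk (Nat.lt_add_one k) false false, O.src_inv, O.tgt_inv, hα, face_res,
        faceMap_comp_assoc])
  refine hat_glue_open Θ hk hS hC T b n hb hn hbk.le hkn Y t α hα
    (S.pasting.glue b (k + 1) hb' (Nat.lt_succ_of_lt hbk)) V' (d.push f (𝟙 Y) wf) ?_ htop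
    (fun x => (hdone x).push hk f wf) ?_ h1
  · show max S.dim (k + 1) ≤ _
    omega
  · rw [Cyl.push_bot, ← e]; exact h2.symm

include hS hC in
theorem hat_glue_lo_eq (T : Shape) (b : ℕ) (hb : b < T.last) (hbk : b < k)
    (Y : GlobModel C) (t : El Y (T.glue b k hb hbk))
    (α : (globe k ⟶ T.glue b k hb hbk) → Cell Y (k + 1)) (hα : ∀ x, src (α x) = res x t)
    (H : Closed hk O T (res (T.inLeft b k hb hbk) t) (fun c => α (c ≫ T.inLeft b k hb hbk))) :
    Closed hk O (T.glue b k hb hbk) t α := by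
  obtain ⟨S, V, d, hdim, htop, hdone, hh⟩ := H
  obtain ⟨hb', e⟩ := hh b hb hbk
  obtain ⟨V', f, wf, h1, h2⟩ := hat_ext S V b (k + 1) hb' (Nat.lt_succ_of_lt hbk)
    (O.inv (O.inv (α (T.inRight b k hb hbk)))) (by
      rw [closed_hinge hk d hb hbk hb' e, htop, ← res_comp, glue_cond,
        ← face_face hbk (Nat.lt_add_one k) false false, O.src_inv, O.tgt_inv, hα, face_res])
  obtain ⟨z, hz, hzb⟩ := low_exists hS O (k + 1) m (cls V') (Nat.lt_add_one k)
    (src (gc C (S.inRight b (k + 1) hb' (Nat.lt_succ_of_lt hbk))))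
  obtain ⟨d', e1, e2, e3⟩ := glue_cyl hC T b k hb hbk t (d.push f (𝟙 Y) wf) z htop
    (by rw [hz, app_face, h1, O.src_inv, O.tgt_inv, hα]) (by
    apply low_ext hS (by omega) (hbk.le.trans hk)
    rw [Cyl.res_bot, Cyl.res_bot, Category.id_comp, Category.id_comp, Cyl.push_bot, ← e, h2, hzb,
      res_faceMap, face_face])
  refine ⟨S.glue b (k + 1) hb' (Nat.lt_succ_of_lt hbk), V', d', ?_, e1, fun x => ?_,
    fun b' hb1 hb2 => ⟨Nat.lt_succ_of_lt hb2, ?_⟩⟩
  · show max S.dim (k + 1) ≤ max (max T.dim k) (k + 1)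
    omega
  · rcases hS.glue_cases T b k hb hbk k x with ⟨c, rfl⟩ | ⟨c, rfl⟩
    · apply Done.of_res
      rw [e2]
      exact (hdone c).push hk f wf
    · rw [hS.globe_self k c]
      refine ⟨gc C (S.inRight b (k + 1) hb' (Nat.lt_succ_of_lt hbk)), ?_, ?_⟩
      · have := hzb k hk (𝟙 _)
        rw [← e3, res_id] at this
        exact this.symm
      · rw [Category.id_comp]; exact h1
  · have := hzb b' (hb2.le.trans hk) (faceMap hb2 true)
    rw [← e3, res_faceMap, face_face, face_res] at this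
    exact this.symm

include hS hC in
theorem hat_glue_lo_lo (T : Shape) (b n : ℕ) (hb : b < T.last) (hn : b < n) (hnk : n < k)
    (Y : GlobModel C) (t : El Y (T.glue b n hb hn))
    (α : (globe k ⟶ T.glue b n hb hn) → Cell Y (k + 1))
    (H : Closed hk O T (res (T.inLeft b n hb hn) t) (fun c => α (c ≫ T.inLeft b n hb hn))) :
    Closed hk O (T.glue b n hb hn) t α := by
  obtain ⟨S, V, d, hdim, htop, hdone, hh⟩ := H
  have hbk := hn.trans hnk
  obtain ⟨hb', e⟩ := hh b hb hbk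
  obtain ⟨V', f, wf, h1, h2⟩ := hat_ext S V b n hb' hn (res (T.inRight b n hb hn) t) (by
      rw [closed_hinge hk d hb hbk hb' e, htop, ← res_comp, glue_cond, face_res])
  obtain ⟨z, hz, hzb⟩ := low_exists hS O (k + 1) m (cls V') (show n < k + 1 by omega)
    (gc C (S.inRight b n hb' hn))
  obtain ⟨d', e1, e2, e3⟩ := glue_cyl hC T b n hb hn t (d.push f (𝟙 Y) wf) z htop
    (by rw [hz, h1]) (by
    apply low_ext hS (by omega) (hbk.le.trans hk)
    rw [Cyl.res_bot, Cyl.res_bot, Category.id_comp, Category.id_comp, Cyl.push_bot, ← e, h2, hzb,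
      res_faceMap])
  refine ⟨S.glue b n hb' hn, V', d', ?_, e1, fun x => ?_, fun b' hb1 hb2 => ⟨hb1, ?_⟩⟩
  · show max S.dim n ≤ max (max T.dim n) (k + 1)
    omega
  · rcases hS.glue_cases T b n hb hn k x with ⟨c, rfl⟩ | ⟨c, rfl⟩
    · apply Done.of_res
      rw [e2]
      exact (hdone c).push hk f wf
    · exact absurd (hS.le_dim (globe n) k c) (by rw [dim_globe]; omega)
  · have := hzb b' (hb2.le.trans hk) (faceMap hb1 true)
    rw [← e3, ← res_comp] at this
    exact this.symm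

include hS hC in
theorem hat_all (T : Shape) : ∀ (Y : GlobModel C) (t : El Y T)
    (α : (globe k ⟶ T) → Cell Y (k + 1)), (∀ x, src (α x) = res x t) →
    (∀ h : k < T.last, Opened Θ hk T h t α) ∧ Closed hk O T t α := by
  have fin : ∀ (T : Shape) (Y : GlobModel C) (t : El Y T)
      (α : (globe k ⟶ T) → Cell Y (k + 1)), (∀ x, src (α x) = res x t) →
      (∀ h : k < T.last, Opened Θ hk T h t α) ∧ (T.last ≤ k → Closed hk O T t α) →
      (∀ h : k < T.last, Opened Θ hk T h t α) ∧ Closed hk O T t α := by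
    intro T Y t α hα H
    refine ⟨H.1, ?_⟩
    by_cases h : k < T.last
    · exact ((H.1 h).close Θ hk hα).closed hk
    · exact H.2 (by omega)
  induction T using shape_induction with
  | hg n => intro Y t α hα; exact fin _ Y t α hα (hat_globe Θ hk hS n Y t α hα)
  | hglue T b n hb hn ih =>
    intro Y t α hα
    have hα' : ∀ x : globe k ⟶ T, src (α (x ≫ T.inLeft b n hb hn)) =
        res x (res (T.inLeft b n hb hn) t) := fun x => by rw [hα, res_comp]
    obtain ⟨ih1, ih2⟩ := ih Y (res (T.inLeft b n hb hn) t) (fun c => α (c ≫ T.inLeft b n hb hn)) hα'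
    refine fin _ Y t α hα ⟨fun h => ?_, fun h => ?_⟩
    · rcases lt_trichotomy k b with h1 | rfl | h1
      · exact hat_glue_hi Θ hk hS hC T b n hb hn h1 Y t α (ih1 _)
      · exact hat_glue_eq Θ hk hS hC T n hb hn Y t α hα ((ih1 hb).close Θ hk hα')
      · exact hat_glue_lo_hi Θ hk hS hC T b n hb hn h1 h Y t α hα ih2
    · rcases (show n ≤ k from h).lt_or_eq with h1 | rfl
      · exact hat_glue_lo_lo hk hS hC T b n hb hn h1 Y t α ih2
      · exact hat_glue_lo_eq hk hS hC T b hb hn Y t α hα ih2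

end main

theorem jobHat1 (O : Ops C) : JobHat1 O := by
  rintro k m hk T - hS hC ⟨Θ⟩ Y t α hα
  obtain ⟨S, V, d, h1, h2, h3, -⟩ := (hat_all Θ hk hS hC T Y t α hα).2
  exact ⟨S, V, d, h1, h2, h3⟩

end Crest.Agent.GC
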