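import Crest.Agent.GC.Defs

/-!
Row 248 (S0382), job HAT2: the expansion of a free model along all its `k`-cells is fillable.
-/

set_option autoImplicit false
open CategoryTheory CategoryTheory.Limits Opposite
open Crest.GeometryTopology.Coherator Crest.GeometryTopology.Coherator.GlobTheory
open Crest.GeometryTopology.Coherator.Shape (globe faceMap)
universe u

namespace Crest.Agent.GC

variable {C : GlobTheory.{u}}

namespace HAT2

theorem step_inv_inv (O : Ops C) (hF : Fill3 C) {Y : GlobModel C} {k : ℕ} (w : Cell Y (k + 1)) :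
    Step (O.inv (O.inv w)) w := by
  obtain ⟨z, -, hz⟩ := hF k (k + 1) (k + 1) (Nat.lt_add_one k) (Nat.le_succ _)
    (fun _ _ w _ => O.inv (O.inv w)) (fun _ _ w _ => w)
    (fun X Y f δ w γ _ => by rw [O.app_inv, O.app_inv]) (fun _ _ _ _ _ _ _ => rfl)
    (fun X δ w γ _ => par_succ (by rw [O.src_inv, O.tgt_inv]) (by rw [O.tgt_inv, O.src_inv]))
  exact ⟨_, hz Y (O.unit (src w)) w (O.unit (tgt w)) ⟨O.tgt_unit _, (O.src_unit _).symm⟩⟩

theorem cylPar_faces {O : Ops C} {k m : ℕ} {X Y : GlobModel C} {i : X ⟶ Y} {n : ℕ}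
    (z : Cyl O k m i (globe (n + 1))) :
    CylPar (z.res (faceMap (Nat.lt_add_one n) false)) (z.res (faceMap (Nat.lt_add_one n) true)) := by
  intro l h b
  rw [← Cyl.res_comp, ← Cyl.res_comp, faceMap_comp, faceMap_comp]

theorem cylPar_succ {O : Ops C} {k m : ℕ} {X Y : GlobModel C} {i : X ⟶ Y} {n : ℕ}
    {z z' : Cyl O k m i (globe (n + 1))}
    (h1 : z.res (faceMap (Nat.lt_add_one n) false) = z'.res (faceMap (Nat.lt_add_one n) false))
    (h2 : z.res (faceMap (Nat.lt_add_one n) true) = z'.res (faceMap (Nat.lt_add_one n) true)) :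
    CylPar z z' := by
  intro l h b
  rcases Nat.lt_succ_iff_lt_or_eq.1 h with h' | rfl
  · rw [← faceMap_comp h' (Nat.lt_add_one n) b false, Cyl.res_comp, Cyl.res_comp, h1]
  · cases b
    · exact h1
    · exact h2

/-- The target cylinder. -/
theorem exists_tgt {O : Ops C} {k m : ℕ} (hk : k ≤ m) (hA : CylAPI O (k + 1) m)
    {X Y : GlobModel C} {v : X ⟶ Y} (z : Cyl O (k + 1) m v (globe k)) (w : Cell X k)
    (hw : Par (z.bot k hk (𝟙 _)) w) :
    ∃ z' : Cyl O (k + 1) m v (globe k), CylPar z z' ∧ z'.top = app v w ∧ z'.bot k hk (𝟙 _) = w := by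
  cases k with
  | zero =>
    obtain ⟨z', h1, h2, -⟩ := hA.mk0 v w (O.unit (app v w)) (O.src_unit _) (fun _ => rfl)
    exact ⟨z', fun l h => absurd h (by omega), h1.trans (O.tgt_unit _), h2⟩
  | succ n =>
    have hb : ∀ b : Bool, face (Nat.lt_add_one n) b w =
        (z.res (faceMap (Nat.lt_add_one n) b)).bot n (by omega) (𝟙 _) := by
      intro b
      rw [← hw, ← z.bot_face, Cyl.res_bot, Category.comp_id, Category.id_comp]
    obtain ⟨z', h1, h2, h3, h4, -⟩ := hA.mkS v n hk (z.res (faceMap (Nat.lt_add_one n) false))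
      (z.res (faceMap (Nat.lt_add_one n) true)) w (O.unit (app v w)) (cylPar_faces z) (hb false)
      (hb true) (by rw [O.src_unit, tr_low O _ (by omega)]) (fun _ => rfl)
    exact ⟨z', cylPar_succ h1.symm h2.symm, h3.trans (O.tgt_unit _), h4⟩

/-- The cylinder over `α`. -/
theorem exists_over {O : Ops C} {k m : ℕ} (hk : k ≤ m) (hA : CylAPI O (k + 1) m) (hF : Fill3 C)
    {X Y : GlobModel C} {v : X ⟶ Y} (z : Cyl O (k + 1) m v (globe k)) (α : Cell Y (k + 1))
    (a : Cell X (k + 1)) (h0 : src α = z.top) (ha : src a = z.bot k hk (𝟙 _))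
    (hv : app v a = O.inv (O.inv α)) :
    ∃ y : Cyl O (k + 1) m v (globe (k + 1)), y.res (faceMap (Nat.lt_add_one k) false) = z ∧
      y.top = α := by
  obtain ⟨z', hp, ht, hb⟩ := exists_tgt hk hA z (tgt a) (ha ▸ par_src_tgt a)
  rcases hk.lt_or_eq with hk' | hk'
  · obtain ⟨γ, hγ1, hγ2⟩ := step_inv_inv O hF α
    obtain ⟨y, h1, -, h3, -⟩ := hA.mkS v k hk' z z' a γ hp ha hb.symm
      (by rw [tr_low O _ le_rfl, hγ1, hv]) (fun h => absurd h (lt_irrefl _))
    exact ⟨y, h1, h3.trans hγ2⟩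
  · obtain ⟨y, h1, -, h3⟩ := hA.mkHi v k hk'.ge z z' α hp h0
      (by rw [ht, app_face, hv, O.tgt_inv, O.src_inv])
    exact ⟨y, h1, h3⟩

end HAT2

theorem jobHat2 (O : Ops C) : JobHat2 O := by
  intro k m hk T hT hC hF h1 hLS hS hA hΘ hG Y i α hE j hj1 hj2 hj3
  have hsrc : ∀ x, src (α x) = res x (app i (gen C T)) := fun x => by
    rw [hE.src_β, app_res]
  obtain ⟨S, V, d, hd, htop, ha⟩ := h1 k m hk T hT hS hA hΘ Y (app i (gen C T)) α hsrc
  obtain ⟨A, -, -⟩ := hG (cls V) (cls V) (𝟙 _) (𝟙 _) (by simp)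
  have hy : ∀ x : globe k ⟶ T, ∃ y : Cyl O (k + 1) m (cls V) (globe (k + 1)),
      y.res (faceMap (Nat.lt_add_one k) false) = d.res x ∧ y.top = α x := by
    intro x
    obtain ⟨a, ha1, ha2⟩ := ha x
    exact HAT2.exists_over hk hA hF (d.res x) (α x) a (by rw [hsrc, Cyl.res_top, htop])
      (by rw [ha1, Cyl.res_bot, Category.id_comp]) ha2
  choose y hy1 hy2 using hy
  let g : GlobModel.freeOn C T ⟶ A.M := cls ((A.e T).symm d)
  obtain ⟨H, ⟨hH1, hH2⟩, -⟩ := hE.univ A.M g (fun x => (A.e _).symm (y x)) (fun x => by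
    apply (A.e _).injective
    rw [app_res, app_cls_gen, A.e_res, Equiv.apply_symm_apply, ← res_faceMap, A.e_res,
      Equiv.apply_symm_apply, hy1])
  have hid : H ≫ A.top = 𝟙 Y := by
    obtain ⟨h0, -, hu⟩ := hE.univ Y i α hE.src_β
    refine (hu _ ⟨?_, fun x => ?_⟩).trans (hu _ ⟨Category.comp_id _, fun x => rfl⟩).symm
    · rw [← Category.assoc, hH1]
      apply free_hom_ext
      rw [app_comp, app_cls_gen, A.top_e, Equiv.apply_symm_apply, htop]
    · rw [app_comp, hH2, A.top_e, Equiv.apply_symm_apply, hy2]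
  have hsec : HasSec O (k + 1) m (cls V) := by
    refine ⟨fun n w => A.e _ (app H w), fun n w => ?_, fun l n h b w => ?_⟩
    · dsimp only
      rw [← A.top_e, ← app_comp, hid, app_id]
    · dsimp only
      rw [app_face, ← res_faceMap, A.e_res]
  exact hLS (k + 1) m (cls V) hsec j hj3 (fillable_free hC S j (hd.trans (max_le (by omega) (by omega))))

end Crest.Agent.GC
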