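import Crest.Agent.GC.Defs

/-! Row 248, job HAT1, part 1: low and standard cylinders on globes. -/

set_option autoImplicit false
open CategoryTheory CategoryTheory.Limits Opposite
open Crest.GeometryTopology.Coherator Crest.GeometryTopology.Coherator.GlobTheory
open Crest.GeometryTopology.Coherator.Shape (globe faceMap)
universe u

namespace Crest.Agent.GC

variable {C : GlobTheory.{u}}

theorem ShapeAPI.cell_cases (hS : ShapeAPI.{u}) {l n : ℕ} (c : globe l ⟶ globe n) :
    (∃ (h : l < n) (b : Bool), c = faceMap h b) ∨ (∃ h : l = n, c = h ▸ 𝟙 (globe l)) := by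
  have hle : l ≤ n := hS.le_dim (globe n) l c
  rcases hle.lt_or_eq with h | rfl
  · obtain ⟨b, hb⟩ := hS.globe_lt l n h c
    exact Or.inl ⟨h, b, hb⟩
  · exact Or.inr ⟨rfl, hS.globe_self _ c⟩

theorem ShapeAPI.face_res_globe (hS : ShapeAPI.{u}) {X : GlobModel C} {l l' n : ℕ} (h' : l' < l)
    (h : l' < n) (c : globe l ⟶ globe n) (b : Bool) (w : Cell X n) :
    face h' b (res c w) = face h b w := by
  rcases hS.cell_cases c with ⟨h1, b1, rfl⟩ | ⟨rfl, rfl⟩
  · exact face_face h' h1 b b1 w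
  · simp

namespace Ops
variable (O : Ops C) {X : GlobModel C}

theorem phi_v3 {l n : ℕ} (h : l < n) {δ : Cell X (l + 1)} {w : Cell X n} {γ : Cell X (l + 1)}
    (hv : V3 h δ w γ) : V3 h (O.inv δ) (O.W l δ w γ) (O.inv γ) :=
  ⟨by rw [O.tgt_inv, O.W_src h hv], by rw [O.src_inv, O.W_tgt h hv]⟩

theorem phi_face_low {l l' n : ℕ} (h : l < n) (h' : l' ≤ l) {δ : Cell X (l + 1)} {w : Cell X n}
    {γ : Cell X (l + 1)} (hv : V3 h δ w γ) (b : Bool) :
    face (lt_of_le_of_lt h' h) b (O.Phi l δ w γ) = face (lt_of_le_of_lt h' h) b w := by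
  unfold Ops.Phi
  rcases h'.lt_or_eq with h1 | rfl
  · rw [O.W_lo h1 h (O.phi_v3 h hv), O.W_lo h1 h hv]
  · cases b
    · rw [O.W_src h (O.phi_v3 h hv), O.src_inv, hv.1]
    · rw [O.W_tgt h (O.phi_v3 h hv), O.tgt_inv, hv.2]

theorem phi_face_hi {l l' n : ℕ} (h1 : l < l') (h2 : l' < n) {δ : Cell X (l + 1)} {w : Cell X n}
    {γ : Cell X (l + 1)} (hv : V3 (h1.trans h2) δ w γ) (b : Bool) :
    face h2 b (O.Phi l δ w γ) = O.Phi l δ (face h2 b w) γ := by
  unfold Ops.Phi
  rw [O.W_hi h1 h2 (O.phi_v3 _ hv), O.W_hi h1 h2 hv]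

end Ops

section low
variable {O : Ops C} {K m : ℕ} {F Y : GlobModel C} {v : F ⟶ Y}

theorem low_ext (hS : ShapeAPI.{u}) {n : ℕ} (hn : n < K) (hm : n ≤ m)
    (z z' : Cyl O K m v (globe n)) (h : z.bot n hm (𝟙 _) = z'.bot n hm (𝟙 _)) : z = z' := by
  have hb : ∀ l hl c, z.bot l hl c = z'.bot l hl c := by
    intro l hl c
    rcases hS.cell_cases c with ⟨h1, b1, rfl⟩ | ⟨rfl, rfl⟩
    · have e1 := z.bot_face n hm (𝟙 _) l h1 b1
      have e2 := z'.bot_face n hm (𝟙 _) l h1 b1
      rw [Category.comp_id] at e1 e2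
      rw [e1, e2, h]
    · exact h
  ext
  · have e1 := z.top_low hm (𝟙 _) hn
    have e2 := z'.top_low hm (𝟙 _) hn
    rw [res_id] at e1 e2
    rw [e1, e2, h]
  · exact hb _ _ _
  · rename_i l hl c
    have : l ≤ n := hS.le_dim (globe n) l c
    rw [z.gam_low l hl c (by omega), z'.gam_low l hl c (by omega), hb]

theorem low_exists (hS : ShapeAPI.{u}) (O : Ops C) (K m : ℕ) (v : F ⟶ Y) {n : ℕ} (hn : n < K)
    (g : Cell F n) :
    ∃ z : Cyl O K m v (globe n), z.top = app v g ∧ ∀ l hl c, z.bot l hl c = res c g := by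
  refine ⟨⟨app v g, fun l _ c => res c g, fun l _ c => O.unit (app v (res c g)), ?_, ?_, ?_, ?_⟩,
    rfl, fun _ _ _ => rfl⟩
  · intro l hl c l' h b; rw [face_res]
  · intro l hl c
    have : l ≤ n := hS.le_dim (globe n) l c
    rw [O.src_unit, tr_low O K (by omega)]
  · intro l hl c; rw [O.tgt_unit, app_res]
  · intro l hl c _; rfl

end low

section std
variable {O : Ops C} (Θ : Theta O) {k m : ℕ} {F F' Y : GlobModel C}

/-- Standard cylinders. -/
structure IsStd (v : F ⟶ Y) {n : ℕ} (h : k < n) (z : Cyl O (k + 1) m v (globe n))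
    (a : Cell F (k + 1)) (g : Cell F n) (δ : Cell Y (k + 1)) : Prop where
  ta : tgt a = face h false g
  va : app v a = O.inv δ
  tδ : tgt δ = face h false z.top
  vg : app v g = O.W k δ z.top (O.unit (face h true z.top))
  bot : ∀ l hl (c : globe l ⟶ globe n),
    z.bot l hl c = res c (O.W k a g (O.inv (O.unit (face h true g))))
  gam : ∀ l hl (c : globe l ⟶ globe n),
    z.gam l hl c = Θ.th k δ (res c z.top) (O.unit (face h true z.top))

theorem v3_bot {n : ℕ} (h : k < n) {a : Cell F (k + 1)} {g : Cell F n}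
    (ta : tgt a = face h false g) : V3 h a g (O.inv (O.unit (face h true g))) :=
  ⟨ta, by rw [O.src_inv, O.tgt_unit]⟩

theorem std_exists (hS : ShapeAPI.{u}) (m : ℕ) (v : F ⟶ Y) {n : ℕ} (h : k < n)
    (a : Cell F (k + 1)) (g : Cell F n) (δ : Cell Y (k + 1)) (w : Cell Y n)
    (ta : tgt a = face h false g) (va : app v a = O.inv δ) (tδ : tgt δ = face h false w)
    (vg : app v g = O.W k δ w (O.unit (face h true w))) :
    ∃ z : Cyl O (k + 1) m v (globe n), z.top = w ∧ IsStd Θ v h z a g δ := by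
  have hv : V3 h δ w (O.unit (face h true w)) := ⟨tδ, (O.src_unit _).symm⟩
  have hB : app v (O.W k a g (O.inv (O.unit (face h true g)))) =
      O.Phi k δ w (O.unit (face h true w)) := by
    rw [O.app_W v h (v3_bot h ta), O.app_inv, O.app_unit, app_face, va, vg, O.W_tgt h hv,
      O.tgt_unit]
    rfl
  have hlow : ∀ l (c : globe l ⟶ globe n), l ≤ k →
      res c (O.Phi k δ w (O.unit (face h true w))) = res c w := by
    intro l c hl
    rcases hS.cell_cases c with ⟨h1, b1, rfl⟩ | ⟨rfl, rfl⟩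
    · exact O.phi_face_low h hl hv b1
    · omega
  have hhi : ∀ l (c : globe l ⟶ globe n), k < l →
      res c (O.Phi k δ w (O.unit (face h true w))) =
        O.Phi k δ (res c w) (O.unit (face h true w)) := by
    intro l c hl
    rcases hS.cell_cases c with ⟨h1, b1, rfl⟩ | ⟨rfl, rfl⟩
    · exact O.phi_face_hi hl h1 hv b1
    · simp
  have hvc : ∀ l (c : globe l ⟶ globe n) (hl : k < l),
      V3 hl δ (res c w) (O.unit (face h true w)) := by
    intro l c hl
    exact ⟨by rw [hS.face_res_globe hl h]; exact hv.1, by rw [hS.face_res_globe hl h]; exact hv.2⟩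
  refine ⟨⟨w, fun l _ c => res c (O.W k a g (O.inv (O.unit (face h true g)))),
    fun l _ c => Θ.th k δ (res c w) (O.unit (face h true w)), ?_, ?_, ?_, ?_⟩,
    rfl, ta, va, tδ, vg, fun _ _ _ => rfl, fun _ _ _ => rfl⟩
  · intro l hl c l' h b; rw [face_res]
  · intro l hl c
    rw [app_res, hB]
    by_cases hkl : k < l
    · rw [Θ.th_src hkl (hvc l c hkl), hhi l c hkl]
      congr 1
      funext l' h' b
      rw [face_res]
    · rw [Θ.th_low (by omega), O.src_unit, tr_low O _ (by omega), hlow l c (by omega)]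
  · intro l hl c
    by_cases hkl : k < l
    · exact Θ.th_tgt hkl (hvc l c hkl)
    · rw [Θ.th_low (by omega), O.tgt_unit]
  · intro l hl c hlk
    rw [Θ.th_low (by omega), app_res, hB, hlow l c (by omega)]

variable {Θ}

theorem IsStd.ext {v : F ⟶ Y} {n : ℕ} {h : k < n} {z z' : Cyl O (k + 1) m v (globe n)}
    {a : Cell F (k + 1)} {g : Cell F n} {δ : Cell Y (k + 1)} (H : IsStd Θ v h z a g δ)
    (H' : IsStd Θ v h z' a g δ) (ht : z.top = z'.top) : z = z' := by
  ext
  · exact ht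
  · rw [H.bot, H'.bot]
  · rw [H.gam, H'.gam, ht]

theorem IsStd.face {v : F ⟶ Y} {n b : ℕ} (h : k < b) (hb : b < n)
    {z : Cyl O (k + 1) m v (globe n)}
    {a : Cell F (k + 1)} {g : Cell F n} {δ : Cell Y (k + 1)}
    (H : IsStd Θ v (h.trans hb) z a g δ) (s : Bool) :
    IsStd Θ v h (z.res (faceMap hb s)) a (face hb s g) δ := by
  have hv : V3 (h.trans hb) δ z.top (O.unit (GC.face (h.trans hb) true z.top)) :=
    ⟨H.tδ, (O.src_unit _).symm⟩
  refine ⟨by rw [face_face]; exact H.ta, H.va, ?_, ?_, ?_, ?_⟩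
  · rw [Cyl.res_top, res_faceMap, face_face]; exact H.tδ
  · rw [Cyl.res_top, res_faceMap, face_face, app_face, H.vg, O.W_hi h hb hv]
  · intro l hl c
    rw [Cyl.res_bot, H.bot, res_comp, res_faceMap, face_face, O.W_hi h hb (v3_bot _ H.ta)]
  · intro l hl c
    rw [Cyl.res_gam, H.gam, Cyl.res_top, res_comp, res_faceMap, face_face]

theorem IsStd.push {v : F ⟶ Y} {v' : F' ⟶ Y} (f : F ⟶ F') (w : v ≫ 𝟙 Y = f ≫ v') {n : ℕ}
    {h : k < n} {z : Cyl O (k + 1) m v (globe n)}
    {a : Cell F (k + 1)} {g : Cell F n} {δ : Cell Y (k + 1)} (H : IsStd Θ v h z a g δ) :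
    IsStd Θ v' h (z.push f (𝟙 Y) w) (app f a) (app f g) δ := by
  have hw : ∀ (S : Shape) (x : El F S), app v' (app f x) = app v x := by
    intro S x; rw [← app_comp, ← w]; rfl
  refine ⟨by rw [← app_face, ← app_face, H.ta], by rw [hw]; exact H.va, H.tδ,
    by rw [hw]; exact H.vg, ?_, ?_⟩
  · intro l hl c
    rw [Cyl.push_bot, H.bot, app_res, O.app_W f h (v3_bot h H.ta), O.app_inv, O.app_unit, app_face]
  · intro l hl c
    exact H.gam l hl c

theorem IsStd.bot_src {v : F ⟶ Y} {n : ℕ} {h : k < n} {z : Cyl O (k + 1) m v (globe n)}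
    {a : Cell F (k + 1)} {g : Cell F n} {δ : Cell Y (k + 1)} (H : IsStd Θ v h z a g δ)
    {b : ℕ} (hb : b ≤ k) (hm : b ≤ m) :
    z.bot b hm (faceMap (lt_of_le_of_lt hb h) false) =
      GC.face (Nat.lt_succ_of_le hb) false a := by
  rw [H.bot, res_faceMap]
  rcases hb.lt_or_eq with h1 | rfl
  · rw [← face_face h1 h false false, O.W_src h (v3_bot h H.ta), face_face]
  · exact O.W_src h (v3_bot h H.ta)

theorem IsStd.bot_tgt {v : F ⟶ Y} {n : ℕ} {h : k < n} {z : Cyl O (k + 1) m v (globe n)}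
    {a : Cell F (k + 1)} {g : Cell F n} {δ : Cell Y (k + 1)} (H : IsStd Θ v h z a g δ)
    (hm : k ≤ m) : z.bot k hm (faceMap h true) = GC.face h true g := by
  rw [H.bot, res_faceMap, O.W_tgt h (v3_bot h H.ta), O.tgt_inv, O.src_unit]

end std

end Crest.Agent.GC
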