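import Crest.Agent.GC.Defs

/-!
Row 248 (S0382), jobs LA and LS: sections of `top` on expansions, and transfer of fillability.
-/

set_option autoImplicit false
open CategoryTheory CategoryTheory.Limits Opposite
open Crest.GeometryTopology.Coherator Crest.GeometryTopology.Coherator.GlobTheory
open Crest.GeometryTopology.Coherator.Shape (globe faceMap)
universe u

namespace Crest.Agent.GC

variable {C : GlobTheory.{u}}

namespace LAx

variable {O : Ops C} {k m : ℕ} {X Y : GlobModel C} {i : X ⟶ Y}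

theorem bot_par {j : ℕ} (hj : j ≤ m) {z z' : Cyl O k m i (globe j)} (h : CylPar z z') :
    Par (z.bot j hj (𝟙 _)) (z'.bot j hj (𝟙 _)) := by
  intro l hl b
  rw [← z.bot_face, ← z'.bot_face]
  have := congrArg (fun c : Cyl O k m i (globe l) => c.bot l (hl.le.trans hj) (𝟙 _)) (h l hl b)
  simpa using this

theorem fam_eq {j : ℕ} (hj : j ≤ m) {z z' : Cyl O k m i (globe j)} (h : CylPar z z') :
    z.fam hj (𝟙 _) = z'.fam hj (𝟙 _) := by
  funext l hl b
  have := congrArg (fun c : Cyl O k m i (globe l) => c.gam l (hl.le.trans hj) (𝟙 _)) (h l hl b)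
  simpa [Cyl.fam] using this

theorem gam_step {j : ℕ} (hj : j ≤ m) (z : Cyl O k m i (globe j)) :
    Step (tr O k j (z.fam hj (𝟙 _)) (app i (z.bot j hj (𝟙 _)))) z.top :=
  ⟨z.gam j hj (𝟙 _), z.gam_src j hj _, by rw [z.gam_tgt, res_id]⟩

theorem cylPar_succ {n : ℕ} {z z' : Cyl O k m i (globe (n + 1))}
    (h1 : z.res (faceMap (Nat.lt_add_one n) false) = z'.res (faceMap (Nat.lt_add_one n) false))
    (h2 : z.res (faceMap (Nat.lt_add_one n) true) = z'.res (faceMap (Nat.lt_add_one n) true)) :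
    CylPar z z' := by
  intro l h b
  rcases Nat.lt_succ_iff_lt_or_eq.1 h with h' | rfl
  · rw [← faceMap_comp h' (Nat.lt_add_one n) b false, Cyl.res_comp, Cyl.res_comp, h1]
  · cases b
    · exact h1
    · exact h2

theorem cylPar_faces {n : ℕ} (z : Cyl O k m i (globe (n + 1))) :
    CylPar (z.res (faceMap (Nat.lt_add_one n) false)) (z.res (faceMap (Nat.lt_add_one n) true)) := by
  intro l h b
  rw [← Cyl.res_comp, ← Cyl.res_comp, faceMap_comp, faceMap_comp]

theorem e_face (A : CylModel O k m i) {l n : ℕ} (h : l < n) (b : Bool) (x : Cell A.M n) :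
    A.e _ (face h b x) = (A.e _ x).res (faceMap h b) := A.e_res _ _ _ x

theorem trivFib_top (hTF : TF O k m) (A : CylModel O k m (𝟙 X)) : TrivFib A.top := by
  obtain ⟨h0, h1⟩ := hTF X
  refine ⟨fun z => ?_, fun n x y z hp hx hy => ?_⟩
  · obtain ⟨c, hc⟩ := h0 z
    exact ⟨(A.e _).symm c, by rw [A.top_e, Equiv.apply_symm_apply, hc]⟩
  · have hpar : CylPar (A.e _ x) (A.e _ y) := by
      intro l h b
      rw [← e_face, ← e_face, hp l h b]
    obtain ⟨c, c1, c2, c3⟩ := h1 n (A.e _ x) (A.e _ y) z hpar (by rw [hx, A.top_e])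
      (by rw [hy, A.top_e])
    refine ⟨(A.e _).symm c, (A.e _).injective ?_, (A.e _).injective ?_, ?_⟩
    · rw [e_face, Equiv.apply_symm_apply, c1]
    · rw [e_face, Equiv.apply_symm_apply, c2]
    · rw [A.top_e, Equiv.apply_symm_apply, c3]

/-- Replace the top-dimensional cylinder cell of a level-`l` cylinder on the `l`-globe. -/
theorem regam {l : ℕ} (hl : l ≤ m) (hA : CylAPI O l m) (z : Cyl O l m i (globe l))
    (γ : Cell Y (l + 1)) (hγ : src γ = app i (z.bot l hl (𝟙 _))) :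
    ∃ z' : Cyl O l m i (globe l), CylPar z z' ∧ z'.top = tgt γ ∧
      z'.bot l hl (𝟙 _) = z.bot l hl (𝟙 _) ∧ z'.gam l hl (𝟙 _) = γ := by
  cases l with
  | zero =>
    obtain ⟨z', h1, h2, h3⟩ := hA.mk0 i (z.bot 0 hl (𝟙 _)) γ hγ (fun h => absurd h (by omega))
    exact ⟨z', fun l h => absurd h (by omega), h1, h2, h3⟩
  | succ n =>
    obtain ⟨z', h1, h2, h3, h4, h5⟩ := hA.mkS i n hl (z.res (faceMap (Nat.lt_add_one n) false))
      (z.res (faceMap (Nat.lt_add_one n) true)) (z.bot (n + 1) hl (𝟙 _)) γ (cylPar_faces z)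
      (by rw [← z.bot_face]; simp) (by rw [← z.bot_face]; simp)
      (by rw [tr_low O _ le_rfl]; exact hγ) (fun h => absurd h (by omega))
    exact ⟨z', cylPar_succ h1.symm h2.symm, h3, h4, h5⟩

theorem cancel_step (O : Ops C) (hF : Fill3 C) {l : ℕ} (γ β : Cell Y (l + 1))
    (h : tgt γ = src β) : Step (O.W l (O.inv γ) (O.unit (src γ)) (O.comp γ β)) β := by
  have key : ∀ (Z : GlobModel C) (δ w : Cell Z (l + 1)), tgt δ = src w →
      V3 (Nat.lt_add_one l) (O.inv δ) (O.unit (src δ)) (O.comp δ w) := fun Z δ w hw =>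
    ⟨by rw [O.tgt_inv, O.src_unit], by rw [O.tgt_unit, O.src_comp hw]⟩
  obtain ⟨z, -, hz⟩ := hF l (l + 1) (l + 1) (Nat.lt_add_one l) (Nat.le_succ _)
    (fun _ δ w _ => O.W l (O.inv δ) (O.unit (src δ)) (O.comp δ w)) (fun _ _ w _ => w)
    (fun Z Z' f δ w ε hv => by
      rw [O.app_W f _ (key Z δ w hv.1), O.app_inv, O.app_unit, app_face, O.app_comp' f hv.1])
    (fun _ _ _ _ _ _ _ => rfl)
    (fun Z δ w ε hv => par_succ
      (by rw [O.W_src _ (key Z δ w hv.1), O.src_inv]; exact hv.1)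
      (by rw [O.W_tgt _ (key Z δ w hv.1), O.tgt_comp hv.1]))
  exact ⟨z Y γ β (O.unit (tgt β)), hz Y γ β _ ⟨h, (O.src_unit _).symm⟩⟩

/-- A level-`l` cylinder on the `l`-globe extends along any `(l+1)`-cell starting at its top. -/
theorem extend {l : ℕ} (hl : l ≤ m) (hA : CylAPI O l m) (hF : Fill3 C) (z : Cyl O l m i (globe l))
    (β : Cell Y (l + 1)) (hβ : src β = z.top) :
    ∃ y : Cyl O l m i (globe (l + 1)), y.res (faceMap (Nat.lt_add_one l) false) = z ∧
      y.top = β := by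
  have g1 : src (z.gam l hl (𝟙 _)) = app i (z.bot l hl (𝟙 _)) := by
    rw [z.gam_src, tr_low O _ le_rfl]
  have g2 : tgt (z.gam l hl (𝟙 _)) = src β := by rw [z.gam_tgt, res_id, hβ]
  obtain ⟨z', hp, t1, t2, t3⟩ := regam hl hA z (O.comp (z.gam l hl (𝟙 _)) β)
    (by rw [O.src_comp g2, g1])
  rw [O.tgt_comp g2] at t1
  rcases le_or_gt m l with hm | hm
  · obtain ⟨y, y1, -, y3⟩ := hA.mkHi i l hm z z' β hp hβ t1.symm
    exact ⟨y, y1, y3⟩
  · obtain ⟨ε, e1, e2⟩ := cancel_step O hF (z.gam l hl (𝟙 _)) β g2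
    obtain ⟨y, y1, -, y3, -, -⟩ := hA.mkS i l hm z z' (O.unit (z.bot l hl (𝟙 _))) ε hp
      (O.src_unit _) (by rw [O.tgt_unit, t2]) (by
        rw [e1, tr_succ_of_le O l le_rfl, tr_low O _ le_rfl, O.app_unit, ← g1]
        simp only [sphFam, cond_true, cond_false, fo_self, t3]) (fun h => absurd h (by omega))
    exact ⟨y, y1, y3.trans e2⟩

end LAx

theorem jobLS (O : Ops C) : JobLS O := by
  rintro k m X Y i ⟨H, h1, h2⟩ j hj hX y y' hp
  have hc : CylPar (H j y) (H j y') := by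
    intro l h b
    rw [← h2, ← h2, hp l h b]
  have s1 := LAx.gam_step hj (H j y)
  have s2 := LAx.gam_step hj (H j y')
  rw [h1] at s1 s2
  rw [← LAx.fam_eq hj hc] at s2
  exact O.step_trans (O.step_symm s1) (O.step_trans
    (((H j y).trOK hj (𝟙 _)).step ((hX _ _ (LAx.bot_par hj hc)).map i)) s2)

theorem jobLA (O : Ops C) : JobLA O := by
  intro l m hl hG hTF hA hF X Y i ι a β hX hE
  obtain ⟨A₀, A, F, hFe⟩ := hG (𝟙 X) i (𝟙 X) i (by simp)
  obtain ⟨s, hs⟩ := hX A₀.M X A₀.top (LAx.trivFib_top hTF A₀) (𝟙 X)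
  have hg : ∀ (S : Shape) (x : El X S), app A.top (app (s ≫ F) x) = app i x := by
    intro S x
    rw [A.top_e, app_comp, hFe, Cyl.push_top, ← A₀.top_e, ← app_comp s, hs, app_id]
  have hy : ∀ s₀ : ι, ∃ y : Cell A.M (l + 1), src y = app (s ≫ F) (a s₀) ∧ app A.top y = β s₀ := by
    intro s₀
    obtain ⟨y, y1, y2⟩ := LAx.extend hl hA hF (A.e _ (app (s ≫ F) (a s₀))) (β s₀)
      (by rw [← A.top_e, hg, hE.src_β])
    refine ⟨(A.e _).symm y, (A.e _).injective ?_, ?_⟩
    · rw [LAx.e_face, Equiv.apply_symm_apply, y1]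
    · rw [A.top_e, Equiv.apply_symm_apply, y2]
  choose y y1 y2 using hy
  obtain ⟨H, ⟨H1, H2⟩, -⟩ := hE.univ A.M (s ≫ F) y y1
  have hH : H ≫ A.top = 𝟙 Y := by
    refine (hE.univ Y i β hE.src_β).unique ⟨?_, fun s₀ => ?_⟩ ⟨by simp, fun _ => rfl⟩
    · rw [← Category.assoc, H1]
      exact hom_ext fun S x => hg S x
    · rw [app_comp, H2, y2]
  refine ⟨fun n x => A.e _ (app H x), ⟨fun n x => ?_, fun l' n h b x => ?_⟩, fun n x => ?_⟩
  · show (A.e _ (app H x)).top = x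
    rw [← A.top_e, ← app_comp, hH, app_id]
  · show A.e _ (app H (face h b x)) = (A.e _ (app H x)).res (faceMap h b)
    rw [app_face, LAx.e_face]
  · refine ⟨A₀.e _ (app s x), ?_⟩
    show A.e _ (app H (app i x)) = _
    rw [← app_comp, H1, app_comp, hFe]

end Crest.Agent.GC
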