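import Crest.Agent.GC.Defs

/-!
Row 248 (S0382), job LIFT: the theory of natural families lifts fillers.
-/

set_option autoImplicit false
open CategoryTheory CategoryTheory.Limits Opposite
open Crest.GeometryTopology.Coherator Crest.GeometryTopology.Coherator.GlobTheory
open Crest.GeometryTopology.Coherator.Shape (globe faceMap)
universe u

namespace Crest.Agent.GC

variable {C : GlobTheory.{u}}

namespace LIFTx

variable {O : Ops C} {k m : ℕ}

theorem face_act {X : GlobModel C} {l n : ℕ} (h : l < n) (b : Bool) {T : Shape}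
    (o : C.arr (globe n) T) (t : El X T) :
    face h b (act o t) = act (C.seq (C.ofShape (faceMap h b)) o) t := res_act _ o t

theorem bot_par {X Y : GlobModel C} {i : X ⟶ Y} {j : ℕ} (hj : j ≤ m)
    {z z' : Cyl O k m i (globe j)} (h : CylPar z z') :
    Par (z.bot j hj (𝟙 _)) (z'.bot j hj (𝟙 _)) := by
  intro l hl b
  rw [← z.bot_face, ← z'.bot_face]
  have := congrArg (fun c : Cyl O k m i (globe l) => c.bot l (hl.le.trans hj) (𝟙 _)) (h l hl b)
  simpa using this

/-- Composition of maps of arrows. -/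
noncomputable def arComp {a a' a'' : Ar C} (F : ArHom a a') (G : ArHom a' a'') : ArHom a a'' where
  f := F.f ≫ G.f
  g := F.g ≫ G.g
  w := by rw [← Category.assoc, F.w, Category.assoc, G.w, Category.assoc]

/-- The filler cylinder on a universal arrow. -/
theorem univ_fill (hS : ShapeAPI.{u}) (hE : ElAPI C) (hA : CylAPI O k m) {n : ℕ} (hn : n + 1 ≤ m)
    {T : Shape} (hT : T.dim ≤ n + 1) {X Y : GlobModel C} {i : X ⟶ Y} (d : Cyl O k m i T)
    (t : El X T) (hbot : ∀ (l : ℕ) (hl : l ≤ m) (c : globe l ⟶ T), d.bot l hl c = res c t)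
    (hinj : ∀ (n : ℕ) (x y : Cell X n), app i x = app i y → x = y)
    (hfX : ∀ j, T.dim ≤ j + 1 → Fillable X j)
    (hfY : ∀ j, T.dim ≤ j → k ≤ j → j ≤ m → Fillable Y j)
    (z z' : Cyl O k m i (globe n)) (hp : CylPar z z') (o : C.arr (globe (n + 1)) T)
    (h1 : src (act o d.top) = z.top) (h2 : tgt (act o d.top) = z'.top) :
    ∃ y : Cyl O k m i (globe (n + 1)), y.res (faceMap (Nat.lt_add_one n) false) = z ∧
      y.res (faceMap (Nat.lt_add_one n) true) = z' ∧ y.top = act o d.top := by
  have hn' : n ≤ m := by omega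
  rcases lt_or_ge (n + 1) k with hk | hk
  · have ht : app i t = d.top := by
      refine hE.ext Y T _ _ fun l c => ?_
      have hl := hS.le_dim T l c
      rw [d.top_low (show l ≤ m by omega) c (by omega), hbot, app_res]
    have hw : app i (act o t) = act o d.top := by rw [app_act, ht]
    have e1 : src (act o t) = z.bot n hn' (𝟙 _) := by
      apply hinj
      rw [app_face, hw, h1, ← z.top_low hn' (𝟙 _) (by omega), res_id]
    have e2 : tgt (act o t) = z'.bot n hn' (𝟙 _) := by
      apply hinj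
      rw [app_face, hw, h2, ← z'.top_low hn' (𝟙 _) (by omega), res_id]
    obtain ⟨y, y1, y2, y3, -, -⟩ := hA.mkS i n hn z z' (act o t) (O.unit (app i (act o t))) hp e1 e2
      (by rw [O.src_unit, tr_low O k hk.le]) (fun _ => rfl)
    exact ⟨y, y1, y2, by rw [y3, O.tgt_unit, hw]⟩
  · obtain ⟨w, w1, w2⟩ := hfX n hT _ _ (bot_par hn' hp)
    have hok := hA.sph_ok i n hn' z z' (app i w) hp (by rw [← app_face, w1])
      (by rw [← app_face, w2])
    have hpar : Par (tr O k (n + 1) (sphFam hn' z z') (app i w)) (act o d.top) := by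
      refine par_succ ?_ ?_
      · rw [h1]
        refine (hok.face_lt (Nat.lt_add_one n) false).trans ?_
        simp only [sphFam, cond_false, fo_self]
        rw [z.gam_tgt, res_id]
      · rw [h2]
        refine (hok.face_lt (Nat.lt_add_one n) true).trans ?_
        simp only [sphFam, cond_true, fo_self]
        rw [z'.gam_tgt, res_id]
    obtain ⟨γ, g1, g2⟩ := hfY (n + 1) hT hk hn _ _ hpar
    obtain ⟨y, y1, y2, y3, -, -⟩ := hA.mkS i n hn z z' w γ hp w1 w2 g1
      (fun h => absurd h (by omega))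
    exact ⟨y, y1, y2, y3.trans g2⟩

end LIFTx

theorem jobLift (O : Ops C) (k m : ℕ) : JobLift O k m := by
  intro I ar hS hE hA _ hU n T hT f g o hp ho1 ho2
  have s1 : ∀ (a : I) (d : Cyl O k m (ar a).i T), src (act o d.top) = (f.φ a d).top := by
    intro a d; rw [LIFTx.face_act, ho1, f.top_φ]
  have s2 : ∀ (a : I) (d : Cyl O k m (ar a).i T), tgt (act o d.top) = (g.φ a d).top := by
    intro a d; rw [LIFTx.face_act, ho2, g.top_φ]
  rcases le_or_gt m n with hm | hm
  · choose φ φ1 φ2 φ3 using fun (a : I) (d : Cyl O k m (ar a).i T) =>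
      hA.mkHi (ar a).i n hm (f.φ a d) (g.φ a d) (act o d.top) (hp a d) (s1 a d) (s2 a d)
    refine ⟨⟨o, φ, φ3, fun a a' F d => hA.extHi _ n hm _ _ ?_ ?_ ?_⟩, rfl,
      fun a d => ⟨φ1 a d, φ2 a d⟩⟩
    · rw [φ1, Cyl.push_res, φ1, f.nat]
    · rw [φ2, Cyl.push_res, φ2, g.nat]
    · rw [φ3, Cyl.push_top, Cyl.push_top, φ3, app_act]
  · obtain ⟨a₀, d₀, t, hbot, hinj, hfX, hfY, huniv⟩ := hU T (by omega)
    obtain ⟨y, y1, y2, y3⟩ := LIFTx.univ_fill hS hE hA hm hT d₀ t hbot hinj hfX hfY _ _
      (hp a₀ d₀) o (s1 a₀ d₀) (s2 a₀ d₀)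
    choose F hF hF' using fun (a : I) (d : Cyl O k m (ar a).i T) => huniv (ar a) d
    refine ⟨⟨o, fun a d => y.push (F a d).f (F a d).g (F a d).w, fun a d => ?_,
      fun a a' G d => ?_⟩, rfl, fun a d => ⟨?_, ?_⟩⟩
    · rw [Cyl.push_top, y3, app_act, ← Cyl.push_top d₀ _ _ (F a d).w, hF a d]
    · have : LIFTx.arComp (F a d) G = F a' (d.push G.f G.g G.w) := by
        apply hF'
        have := congrArg (fun c : Cyl O k m (ar a).i T => c.push G.f G.g G.w) (hF a d)
        exact this
      rw [← this]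
      rfl
    · show (y.push _ _ (F a d).w).res _ = _
      rw [Cyl.push_res, y1, ← f.nat, hF a d]
    · show (y.push _ _ (F a d).w).res _ = _
      rw [Cyl.push_res, y2, ← g.nat, hF a d]

end Crest.Agent.GC
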