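import Crest.Agent.GC.Defs

/-!
Row 248 (S0382), job OPS: natural ternary fillers and the natural operations `Ops`.
-/

set_option autoImplicit false
open CategoryTheory CategoryTheory.Limits Opposite
open Crest.GeometryTopology.Coherator Crest.GeometryTopology.Coherator.GlobTheory
open Crest.GeometryTopology.Coherator.Shape (globe faceMap)
universe u

namespace Crest.Agent.GC

variable {C : GlobTheory.{u}}

namespace OPSx

section T3
variable {l n : ℕ} (h : l < n)

/-- The binary shape `D_{l+1} ⨿_l D_n`. -/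
def T2 : Shape := (globe (l + 1)).glue l n (Nat.lt_add_one l) h

/-- The ternary shape `D_{l+1} ⨿_l D_n ⨿_l D_{l+1}`. -/
def T3 : Shape := (T2 h).glue l (l + 1) h (Nat.lt_add_one l)

noncomputable def i12 : T2 h ⟶ T3 h := (T2 h).inLeft l (l + 1) h (Nat.lt_add_one l)
noncomputable def i3 : globe (l + 1) ⟶ T3 h := (T2 h).inRight l (l + 1) h (Nat.lt_add_one l)
noncomputable def j1 : globe (l + 1) ⟶ T2 h := (globe (l + 1)).inLeft l n (Nat.lt_add_one l) h
noncomputable def j2 : globe n ⟶ T2 h := (globe (l + 1)).inRight l n (Nat.lt_add_one l) h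

theorem T3_dim : (T3 h).dim = n := by
  show max (max (l + 1) n) (l + 1) = n
  omega

variable {X : GlobModel C}

theorem hinge1 (x : Cell X (l + 1)) :
    res ((globe (l + 1)).hinge (b := l) (Nat.lt_add_one l)) x = tgt x := by
  rw [hinge_eq, res_comp, ap_globe]
  exact congrArg _ (res_id x)

theorem hinge2 (x : El X (T2 h)) :
    res ((T2 h).hinge (b := l) h) x = face h true (res (j2 h) x) := by
  rw [hinge_eq, res_comp]
  rfl

theorem v3_el (t : El X (T3 h)) :
    V3 h (res (j1 h) (res (i12 h) t)) (res (j2 h) (res (i12 h) t)) (res (i3 h) t) := by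
  refine ⟨?_, ?_⟩
  · generalize res (i12 h) t = s
    rw [← hinge1, ← res_faceMap, ← res_comp, ← res_comp]
    exact congrArg (fun c => res c s) (glue_cond (globe (l + 1)) l n _ h)
  · rw [← hinge2, ← res_faceMap, ← res_comp, ← res_comp]
    exact congrArg (fun c => res c t) (glue_cond (T2 h) l (l + 1) h _)

theorem el_exists {δ : Cell X (l + 1)} {w : Cell X n} {γ : Cell X (l + 1)} (hv : V3 h δ w γ) :
    ∃ t : El X (T3 h), res (j1 h) (res (i12 h) t) = δ ∧ res (j2 h) (res (i12 h) t) = w ∧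
      res (i3 h) t = γ := by
  obtain ⟨s, s1, s2⟩ := el_glue_exists (globe (l + 1)) l n (Nat.lt_add_one l) h δ w
    ((hinge1 δ).trans hv.1)
  obtain ⟨t, t1, t2⟩ := el_glue_exists (T2 h) l (l + 1) h (Nat.lt_add_one l) s γ
    ((hinge2 h s).trans ((congrArg (face h true) s2).trans hv.2))
  exact ⟨t, (congrArg (res (j1 h)) t1).trans s1, (congrArg (res (j2 h)) t1).trans s2, t2⟩

theorem el_ext {t t' : El X (T3 h)} (h1 : res (j1 h) (res (i12 h) t) = res (j1 h) (res (i12 h) t'))
    (h2 : res (j2 h) (res (i12 h) t) = res (j2 h) (res (i12 h) t'))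
    (h3 : res (i3 h) t = res (i3 h) t') : t = t' :=
  el_glue_ext (T2 h) l (l + 1) h _ t t'
    (el_glue_ext (globe (l + 1)) l n (Nat.lt_add_one l) h _ _ h1 h2) h3

end T3

/-- Units from a `UnitChoice`. -/
noncomputable def un (e : C.UnitChoice) {X : GlobModel C} {n : ℕ} (x : Cell X n) :
    Cell X (n + 1) := act (e.unit n) x

theorem src_un (e : C.UnitChoice) {X : GlobModel C} {n : ℕ} (x : Cell X n) : src (un e x) = x :=
  (res_act _ _ x).trans ((congrArg (fun o => act o x) (e.src_unit n)).trans (act_one x))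

theorem tgt_un (e : C.UnitChoice) {X : GlobModel C} {n : ℕ} (x : Cell X n) : tgt (un e x) = x :=
  (res_act _ _ x).trans ((congrArg (fun o => act o x) (e.tgt_unit n)).trans (act_one x))

theorem app_un (e : C.UnitChoice) {X Y : GlobModel C} (f : X ⟶ Y) {n : ℕ} (x : Cell X n) :
    app f (un e x) = un e (app f x) := app_act f _ x

end OPSx

open OPSx in
theorem fill3 (hC : Contr C) (e : C.UnitChoice) : Fill3 C := by
  classical
  intro l n j h hn lo up hlo hup hp
  have hv₀ := v3_el h (gen C (T3 h))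
  obtain ⟨z₀, z1, z2⟩ := fillable_free hC (T3 h) j (by rw [T3_dim]; exact hn) _ _ (hp _ _ _ _ hv₀)
  refine ⟨fun X δ w γ => if hv : V3 h δ w γ then app (cls (el_exists h hv).choose) z₀
    else un e (lo X δ w γ), fun X Y f δ w γ hv => ?_, fun X δ w γ hv => ?_⟩
  · have hv' := hv.map f
    simp only [dif_pos hv, dif_pos hv']
    obtain ⟨a1, a2, a3⟩ := (el_exists h hv).choose_spec
    obtain ⟨b1, b2, b3⟩ := (el_exists h hv').choose_spec
    rw [← app_comp]
    congr 1
    apply free_hom_ext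
    rw [app_comp, app_cls_gen, app_cls_gen]
    apply el_ext h
    · rw [b1, ← app_res, ← app_res, a1]
    · rw [b2, ← app_res, ← app_res, a2]
    · rw [b3, ← app_res, a3]
  · simp only [dif_pos hv]
    obtain ⟨a1, a2, a3⟩ := (el_exists h hv).choose_spec
    refine ⟨?_, ?_⟩
    · rw [← app_face, z1, hlo _ _ _ _ _ _ hv₀]
      simp only [app_res, app_cls_gen, a1, a2, a3]
    · rw [← app_face, z2, hup _ _ _ _ _ _ hv₀]
      simp only [app_res, app_cls_gen, a1, a2, a3]

namespace OPSx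

/-- Ternary operations in dimension `n`. -/
abbrev Op3 (C : GlobTheory.{u}) (l n : ℕ) : Type (u + 1) :=
  ∀ X : GlobModel C, Cell X (l + 1) → Cell X n → Cell X (l + 1) → Cell X n

/-- The invariant of the whiskering in dimension `n`. -/
def Inv (l n : ℕ) (W : Op3 C l n) : Prop :=
  ∀ h : l < n, Nat3 h W ∧
    (∀ X δ w γ, V3 h δ w γ → face h false (W X δ w γ) = src δ ∧ face h true (W X δ w γ) = tgt γ) ∧
    ∀ X δ w w' γ, V3 h δ w γ → Par w w' → Par (W X δ w γ) (W X δ w' γ)

/-- The link between consecutive dimensions. -/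
def Link (l n : ℕ) (W : Op3 C l n) (W' : Op3 C l (n + 1)) : Prop :=
  ∀ (h : l < n) X δ w γ, V3 (h.trans (Nat.lt_add_one n)) δ w γ → ∀ b : Bool,
    face (Nat.lt_add_one n) b (W' X δ w γ) = W X δ (face (Nat.lt_add_one n) b w) γ

theorem v3_par {X : GlobModel C} {l n : ℕ} {h : l < n} {δ γ : Cell X (l + 1)} {p q : Cell X n}
    (hv : V3 h δ p γ) (hp : Par p q) : V3 h δ q γ :=
  ⟨hv.1.trans (hp l h false), (hp l h true).symm.trans hv.2⟩

theorem step (hF : Fill3 C) (l n : ℕ) (W : Op3 C l n) (hW : Inv l n W) :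
    ∃ W' : Op3 C l (n + 1), Inv l (n + 1) W' ∧ Link l n W W' := by
  rcases lt_trichotomy l n with h | rfl | h
  · obtain ⟨w1, w2, w3⟩ := hW h
    obtain ⟨z, z1, z2⟩ := hF l (n + 1) n (h.trans (Nat.lt_add_one n)) le_rfl
      (fun X δ w γ => W X δ (src w) γ) (fun X δ w γ => W X δ (tgt w) γ)
      (fun X Y f δ w γ hv => by rw [w1 X Y f δ _ γ (hv.face h _ false), app_face])
      (fun X Y f δ w γ hv => by rw [w1 X Y f δ _ γ (hv.face h _ true), app_face])
      (fun X δ w γ hv => w3 X δ _ _ γ (hv.face h _ false) (par_src_tgt w))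
    refine ⟨z, fun _ => ⟨z1, fun X δ w γ hv => ⟨?_, ?_⟩, fun X δ w w' γ hv hp => ?_⟩,
      fun _ X δ w γ hv b => ?_⟩
    · rw [← face_face h (Nat.lt_add_one n) false false, (z2 X δ w γ hv).1]
      exact (w2 X δ _ γ (hv.face h _ false)).1
    · rw [← face_face h (Nat.lt_add_one n) true false, (z2 X δ w γ hv).1]
      exact (w2 X δ _ γ (hv.face h _ false)).2
    · have hv' := v3_par hv hp
      refine par_succ ?_ ?_
      · rw [(z2 X δ w γ hv).1, (z2 X δ w' γ hv').1, hp n _ false]
      · rw [(z2 X δ w γ hv).2, (z2 X δ w' γ hv').2, hp n _ true]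
    · cases b
      · exact (z2 X δ w γ hv).1
      · exact (z2 X δ w γ hv).2
  · obtain ⟨z, z1, z2⟩ := hF l (l + 1) l (Nat.lt_add_one l) le_rfl
      (fun X δ _ _ => src δ) (fun X _ _ γ => tgt γ)
      (fun X Y f δ w γ _ => app_face f _ _ _) (fun X Y f δ w γ _ => app_face f _ _ _)
      (fun X δ w γ hv => (par_src_tgt δ).trans (by
        rw [hv.1]
        refine (par_src_tgt w).trans ?_
        rw [hv.2]
        exact par_src_tgt γ))
    refine ⟨z, fun _ => ⟨z1, z2, fun X δ w w' γ hv hp => ?_⟩, fun h => absurd h (lt_irrefl l)⟩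
    have hv' := v3_par hv hp
    exact par_succ ((z2 X δ w γ hv).1.trans (z2 X δ w' γ hv').1.symm)
      ((z2 X δ w γ hv).2.trans (z2 X δ w' γ hv').2.symm)
  · exact ⟨fun _ _ w _ => w, fun h' => absurd h' (by omega), fun h' => absurd h' (by omega)⟩

/-- The whiskering, by recursion on the dimension. -/
noncomputable def Wr (hF : Fill3 C) (l : ℕ) : (n : ℕ) → {W : Op3 C l n // Inv l n W}
  | 0 => ⟨fun _ _ w _ => w, fun h => absurd h (by omega)⟩
  | n + 1 => ⟨(step hF l n (Wr hF l n).1 (Wr hF l n).2).choose,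
      (step hF l n (Wr hF l n).1 (Wr hF l n).2).choose_spec.1⟩

theorem Wr_link (hF : Fill3 C) (l n : ℕ) : Link l n (Wr hF l n).1 (Wr hF l (n + 1)).1 :=
  (step hF l n (Wr hF l n).1 (Wr hF l n).2).choose_spec.2

theorem Wr_hi (hF : Fill3 C) {X : GlobModel C} {l l' : ℕ} (h1 : l < l') :
    ∀ (n : ℕ) (h2 : l' < n) (δ : Cell X (l + 1)) (w : Cell X n) (γ : Cell X (l + 1)),
      V3 (h1.trans h2) δ w γ → ∀ b : Bool,
        face h2 b ((Wr hF l n).1 X δ w γ) = (Wr hF l l').1 X δ (face h2 b w) γ := by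
  intro n
  induction n with
  | zero => intro h2; exact absurd h2 (by omega)
  | succ n ih =>
    intro h2 δ w γ hv b
    rcases Nat.lt_succ_iff_lt_or_eq.1 h2 with h' | rfl
    · rw [← face_face h' (Nat.lt_add_one n) b false, Wr_link hF l n (h1.trans h') X δ w γ hv false,
        ih h' δ _ γ (hv.face (h1.trans h') _ false) b, face_face]
    · exact Wr_link hF l l' h1 X δ w γ hv b

theorem inv_exists (e : C.UnitChoice) (hF : Fill3 C) (n : ℕ) :
    ∃ ι : ∀ X : GlobModel C, Cell X (n + 1) → Cell X (n + 1),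
      (∀ X x, src (ι X x) = tgt x ∧ tgt (ι X x) = src x) ∧
      ∀ (X Y : GlobModel C) (f : X ⟶ Y) x, app f (ι X x) = ι Y (app f x) := by
  obtain ⟨z, z1, z2⟩ := hF n (n + 1) n (Nat.lt_add_one n) le_rfl
    (fun X _ w _ => tgt w) (fun X _ w _ => src w)
    (fun X Y f δ w γ _ => app_face f _ _ _) (fun X Y f δ w γ _ => app_face f _ _ _)
    (fun X δ w γ _ => (par_src_tgt w).symm)
  have hv : ∀ (X : GlobModel C) (x : Cell X (n + 1)),
      V3 (Nat.lt_add_one n) (un e (src x)) x (un e (tgt x)) :=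
    fun X x => ⟨tgt_un e _, (src_un e _).symm⟩
  refine ⟨fun X x => z X (un e (src x)) x (un e (tgt x)), fun X x => z2 X _ _ _ (hv X x),
    fun X Y f x => ?_⟩
  rw [z1 X Y f _ _ _ (hv X x), app_un, app_un, app_face, app_face]

end OPSx

open OPSx in
theorem ops_exists (e : C.UnitChoice) (h : Fill3 C) : Nonempty (Ops C) := by
  choose ι ι1 ι2 using inv_exists e h
  exact ⟨{
    unit := fun x => un e x
    src_unit := fun x => src_un e x
    tgt_unit := fun x => tgt_un e x
    app_unit := fun f _ x => app_un e f x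
    inv := fun {X} {n} x => ι n X x
    src_inv := fun {X} {n} x => (ι1 n X x).1
    tgt_inv := fun {X} {n} x => (ι1 n X x).2
    app_inv := fun {X Y} f {n} x => ι2 n X Y f x
    W := fun {X} l {n} δ w γ => (Wr h l n).1 X δ w γ
    W_src := fun {X} {l n} hl {δ w γ} hv => (((Wr h l n).2 hl).2.1 X δ w γ hv).1
    W_tgt := fun {X} {l n} hl {δ w γ} hv => (((Wr h l n).2 hl).2.1 X δ w γ hv).2
    W_hi := fun {_} {_ _ n} h1 h2 {δ w γ} hv b => Wr_hi h h1 n h2 δ w γ hv b
    app_W := fun {X Y} f {l n} hl {δ w γ} hv => ((Wr h l n).2 hl).1 X Y f δ w γ hv }⟩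

end Crest.Agent.GC
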