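import Crest.Agent.GC.Defs

/-!
Row 248 (S0382), job SH: cells of shapes and the cellwise Segal condition.
-/

set_option autoImplicit false
set_option backward.isDefEq.respectTransparency false
open CategoryTheory CategoryTheory.Limits Opposite
open Crest.GeometryTopology.Coherator Crest.GeometryTopology.Coherator.GlobTheory
open Crest.GeometryTopology.Coherator.Shape (globe faceMap)
universe u

namespace Crest.Agent.GC

namespace SH

/-- A cell of a shape as an element of its presheaf. -/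
noncomputable def cl {l : ℕ} {S : Shape} (c : globe l ⟶ S) : S.psh.obj (op (GlobeObj.mk l)) :=
  yonedaEquiv (show yoneda.obj (GlobeObj.mk l) ⟶ S.psh from c)

noncomputable def lc {l : ℕ} {S : Shape} (x : S.psh.obj (op (GlobeObj.mk l))) : globe l ⟶ S :=
  (yonedaEquiv.symm x : yoneda.obj (GlobeObj.mk l) ⟶ S.psh)

theorem cl_lc {l : ℕ} {S : Shape} (x : S.psh.obj (op (GlobeObj.mk l))) : cl (lc x) = x :=
  yonedaEquiv.apply_symm_apply x

theorem lc_cl {l : ℕ} {S : Shape} (c : globe l ⟶ S) : lc (cl c) = c :=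
  yonedaEquiv.symm_apply_apply (show yoneda.obj (GlobeObj.mk l) ⟶ S.psh from c)

theorem cl_inj {l : ℕ} {S : Shape} {c c' : globe l ⟶ S} (h : cl c = cl c') : c = c' := by
  rw [← lc_cl c, h, lc_cl]

theorem cl_comp {l : ℕ} {S T : Shape} (c : globe l ⟶ S) (f : S ⟶ T) :
    cl (c ≫ f) = (show S.psh ⟶ T.psh from f).app _ (cl c) :=
  yonedaEquiv_comp (show yoneda.obj (GlobeObj.mk l) ⟶ S.psh from c) (show S.psh ⟶ T.psh from f)

theorem lc_comp {l : ℕ} {S T : Shape} (x : S.psh.obj (op (GlobeObj.mk l))) (f : S ⟶ T) :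
    lc x ≫ f = lc ((show S.psh ⟶ T.psh from f).app _ x) := by
  apply cl_inj
  rw [cl_comp, cl_lc, cl_lc]

theorem exists_arrow {l n : ℕ} (c : globe l ⟶ globe n) :
    ∃ a : GlobeObj.Arrow l n,
      c = (yoneda.map (show GlobeObj.mk l ⟶ GlobeObj.mk n from a) :
        yoneda.obj (GlobeObj.mk l) ⟶ yoneda.obj (GlobeObj.mk n)) := by
  obtain ⟨a, ha⟩ := yoneda.map_surjective
    (show yoneda.obj (GlobeObj.mk l) ⟶ yoneda.obj (GlobeObj.mk n) from c)
  exact ⟨a, ha.symm⟩

theorem globe_self (n : ℕ) (c : globe n ⟶ globe n) : c = 𝟙 _ := by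
  obtain ⟨a, rfl⟩ := exists_arrow c
  cases a with
  | refl => exact yoneda.map_id (GlobeObj.mk n)
  | pole h b => exact absurd h (lt_irrefl _)

theorem globe_lt (l n : ℕ) (h : l < n) (c : globe l ⟶ globe n) : ∃ b, c = faceMap h b := by
  obtain ⟨a, rfl⟩ := exists_arrow c
  cases a with
  | refl => exact absurd h (lt_irrefl _)
  | pole h' b => exact ⟨b, rfl⟩

theorem globe_le (l n : ℕ) (c : globe l ⟶ globe n) : l ≤ n := by
  obtain ⟨a, -⟩ := exists_arrow c
  cases a with
  | refl => exact le_rfl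
  | pole h' b => exact h'.le

theorem face_inj (l n : ℕ) (h : l < n) (b b' : Bool) (e : faceMap h b = faceMap h b') : b = b' := by
  have : GlobeObj.faceArrow h b = GlobeObj.faceArrow h b' := yoneda.map_injective e
  unfold GlobeObj.faceArrow at this
  injection this

theorem isPushout_ev (S : Shape) (b h : ℕ) (hb : b < S.last) (hh : b < h) (l : ℕ) :
    IsPushout ((show (globe b).psh ⟶ S.psh from S.hinge hb).app (op (GlobeObj.mk l)))
      ((show (globe b).psh ⟶ (globe h).psh from faceMap hh false).app (op (GlobeObj.mk l)))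
      ((show S.psh ⟶ (S.glue b h hb hh).psh from S.inLeft b h hb hh).app (op (GlobeObj.mk l)))
      ((show (globe h).psh ⟶ (S.glue b h hb hh).psh from S.inRight b h hb hh).app
        (op (GlobeObj.mk l))) :=
  (IsPushout.of_hasPushout (GlobPsh.globeRepFace hb true ≫ S.apex)
    (GlobPsh.globeRepFace hh false)).map ((evaluation _ _).obj (op (GlobeObj.mk l)))

theorem glue_cases (S : Shape) (b h : ℕ) (hb : b < S.last) (hh : b < h) (l : ℕ)
    (c : globe l ⟶ S.glue b h hb hh) :
    (∃ c', c = c' ≫ S.inLeft b h hb hh) ∨ (∃ c', c = c' ≫ S.inRight b h hb hh) := by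
  rcases Types.eq_or_eq_of_isPushout (isPushout_ev S b h hb hh l) (cl c) with ⟨x, hx⟩ | ⟨x, hx⟩
  · left
    exact ⟨lc x, by rw [lc_comp, hx, lc_cl]⟩
  · right
    exact ⟨lc (S := globe h) x, by rw [lc_comp, hx, lc_cl]⟩

theorem desc_types {X₀ X₁ X₂ X₃ : Type} {t : X₀ ⟶ X₁} {l : X₀ ⟶ X₂} {r : X₁ ⟶ X₃} {b : X₂ ⟶ X₃}
    (h : IsPushout t l r b) (A : Type u) (F₁ : X₁ → A) (F₂ : X₂ → A)
    (hF : ∀ x, F₁ (t x) = F₂ (l x)) :
    ∃ F : X₃ → A, (∀ x, F (r x) = F₁ x) ∧ ∀ x, F (b x) = F₂ x := by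
  let φ : X₃ ⟶ Types.Pushout t l :=
    h.desc (Types.Pushout.inl t l) (Types.Pushout.inr t l) (Types.Pushout.condition t l)
  let G : Types.Pushout t l → A := Quot.lift (Sum.elim F₁ F₂) (by
    rintro _ _ ⟨s⟩
    exact hF s)
  refine ⟨fun x => G (φ x), fun x => ?_, fun x => ?_⟩
  · have := types_congr_hom (h.inl_desc (Types.Pushout.inl t l) (Types.Pushout.inr t l)
      (Types.Pushout.condition t l)) x
    exact congrArg G this
  · have := types_congr_hom (h.inr_desc (Types.Pushout.inl t l) (Types.Pushout.inr t l)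
      (Types.Pushout.condition t l)) x
    exact congrArg G this

theorem glue_desc (S : Shape) (b h : ℕ) (hb : b < S.last) (hh : b < h) (l : ℕ) (A : Type u)
    (F₁ : (globe l ⟶ S) → A) (F₂ : (globe l ⟶ globe h) → A)
    (hF : ∀ c : globe l ⟶ globe b, F₁ (c ≫ S.hinge hb) = F₂ (c ≫ faceMap hh false)) :
    ∃ F : (globe l ⟶ S.glue b h hb hh) → A,
      (∀ c, F (c ≫ S.inLeft b h hb hh) = F₁ c) ∧ (∀ c, F (c ≫ S.inRight b h hb hh) = F₂ c) := by
  obtain ⟨F, h1, h2⟩ := desc_types (isPushout_ev S b h hb hh l) A (fun x => F₁ (lc x))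
    (fun x => F₂ (lc (S := globe h) x)) (fun x => by
      have := hF (lc (S := globe b) x)
      rw [lc_comp, lc_comp] at this
      exact this)
  refine ⟨fun c => F (cl c), fun c => ?_, fun c => ?_⟩
  · dsimp only
    rw [cl_comp, h1, lc_cl]
  · dsimp only
    rw [cl_comp, h2, lc_cl]

theorem le_dim (S : Shape) : ∀ (l : ℕ), (globe l ⟶ S) → l ≤ S.dim := by
  induction S using shape_induction with
  | hg n => intro l c; exact globe_le l n c
  | hglue S b h hb hh ih =>
    intro l c
    rw [dim_glue]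
    rcases glue_cases S b h hb hh l c with ⟨c', -⟩ | ⟨c', -⟩
    · exact (ih l c').trans (le_max_left _ _)
    · exact (globe_le l h c').trans (le_max_right _ _)

variable {C : GlobTheory.{u}}

theorem el_ext (X : GlobModel C) (S : Shape) : ∀ (t t' : El X S),
    (∀ (l : ℕ) (c : globe l ⟶ S), res c t = res c t') → t = t' := by
  induction S using shape_induction with
  | hg n => intro t t' H; simpa using H n (𝟙 _)
  | hglue S b h hb hh ih =>
    intro t t' H
    apply el_glue_ext S b h hb hh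
    · apply ih
      intro l c
      rw [← res_comp, ← res_comp, H]
    · exact H h _

theorem exists_el (X : GlobModel C) (S : Shape) : ∀ (x : ∀ l : ℕ, (globe l ⟶ S) → Cell X l),
    (∀ (l : ℕ) (c : globe l ⟶ S) (l' : ℕ) (h : l' < l) (b : Bool),
      x l' (faceMap h b ≫ c) = face h b (x l c)) →
    ∃ t : El X S, ∀ (l : ℕ) (c : globe l ⟶ S), res c t = x l c := by
  induction S using shape_induction with
  | hg n =>
    intro x hx
    refine ⟨x n (𝟙 _), fun l c => ?_⟩
    rcases (globe_le l n c).lt_or_eq with h | rfl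
    · obtain ⟨b, rfl⟩ := globe_lt l n h c
      rw [res_faceMap, ← hx, Category.comp_id]
    · rw [globe_self l c, res_id]
  | hglue S b h hb hh ih =>
    intro x hx
    obtain ⟨t₁, ht₁⟩ := ih (fun l c => x l (c ≫ S.inLeft b h hb hh)) (fun l c l' h' b' => by
      rw [Category.assoc, hx])
    obtain ⟨t, h1, h2⟩ := el_glue_exists S b h hb hh t₁ (x h (S.inRight b h hb hh)) (by
      rw [ht₁, glue_cond, hx])
    refine ⟨t, fun l c => ?_⟩
    rcases glue_cases S b h hb hh l c with ⟨c', rfl⟩ | ⟨c', rfl⟩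
    · rw [res_comp, h1, ht₁]
    · rw [res_comp, h2]
      rcases (globe_le l h c').lt_or_eq with h' | rfl
      · obtain ⟨b', rfl⟩ := globe_lt l h h' c'
        rw [res_faceMap, hx]
      · rw [globe_self l c', res_id, Category.id_comp]

end SH

theorem shapeAPI : ShapeAPI.{u} where
  globe_self := SH.globe_self
  globe_lt := SH.globe_lt
  face_inj := SH.face_inj
  le_dim := SH.le_dim
  glue_cases := SH.glue_cases
  glue_desc := SH.glue_desc

theorem elAPI (C : GlobTheory.{u}) : ElAPI C where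
  ext := SH.el_ext
  exists_el := SH.exists_el

end Crest.Agent.GC
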