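import Crest.Agent.GC.Defs

/-! Row 248, job TF: `top` is a trivial fibration for the identity arrow. -/

set_option autoImplicit false
open CategoryTheory CategoryTheory.Limits Opposite
open Crest.GeometryTopology.Coherator Crest.GeometryTopology.Coherator.GlobTheory
open Crest.GeometryTopology.Coherator.Shape (globe faceMap)
universe u

namespace Crest.Agent.GC

variable {C : GlobTheory.{u}}

theorem tf (O : Ops C) (k m : ℕ) (h1 : TrSurj O) (h2 : CylAPI O k m) : TF O k m := by
  intro X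
  refine ⟨fun x => ?_, fun n z z' x hp hs ht => ?_⟩
  · obtain ⟨z, hz, -⟩ := h2.mk0 (𝟙 X) x (O.unit x) (O.src_unit x) (fun _ => rfl)
    exact ⟨z, hz.trans (O.tgt_unit x)⟩
  by_cases hm : m ≤ n
  · exact h2.mkHi _ n hm z z' x hp hs ht
  have hn : n ≤ m := by omega
  have tl : ∀ y : Cyl O k m (𝟙 X) (globe n), n < k → y.top = y.bot n hn (𝟙 _) := by
    intro y hk
    have := y.top_low hn (𝟙 _) hk
    rwa [res_id] at this
  by_cases hk : n + 1 < k
  · obtain ⟨y, e1, e2, e3, -⟩ := h2.mkS (𝟙 X) n (by omega) z z' x (O.unit x) hp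
      (by rw [hs, tl z (by omega)]) (by rw [ht, tl z' (by omega)])
      (by rw [O.src_unit, tr_low O k (by omega)]; rfl) (fun _ => rfl)
    exact ⟨y, e1, e2, e3.trans (O.tgt_unit x)⟩
  have hfam : ∀ y : Cyl O k m (𝟙 X) (globe n), CylPar y z →
      (sphFam hn z z').below (Nat.le_succ n) = y.fam hn (𝟙 _) := by
    intro y hy
    funext l h b
    have e : (cond b z' z).res (faceMap h b) = y.res (faceMap h b) := by
      cases b
      · exact (hy l h false).symm
      · exact ((hy l h true).trans (hp l h true)).symm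
    have := congrArg (fun c : Cyl O k m (𝟙 X) (globe l) => c.gam l (h.le.trans hn) (𝟙 _)) e
    simp only [Cyl.res_gam, Category.id_comp] at this
    show (cond b z' z).gam l _ (fo h.le b) = y.gam l _ (faceMap h b ≫ 𝟙 _)
    rw [fo_lt h, Category.comp_id, this]
  have g0 : sphFam hn z z' n (Nat.lt_add_one n) false = z.gam n hn (𝟙 _) := by
    show z.gam n _ (fo (le_refl n) false) = _
    rw [fo_self]
  have g1 : sphFam hn z z' n (Nat.lt_add_one n) true = z'.gam n hn (𝟙 _) := by
    show z'.gam n _ (fo (le_refl n) true) = _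
    rw [fo_self]
  have t0 : tgt (z.gam n hn (𝟙 _)) = z.top := by rw [z.gam_tgt, res_id]
  have t1 : tgt (z'.gam n hn (𝟙 _)) = z'.top := by rw [z'.gam_tgt, res_id]
  obtain ⟨w, w1, w2, γ, w3, w4⟩ := h1 X k n (z.bot n hn (𝟙 _)) (z'.bot n hn (𝟙 _)) (sphFam hn z z')
    (by
      intro l h b
      rw [← z.bot_face, ← z'.bot_face]
      have := congrArg (fun c : Cyl O k m (𝟙 X) (globe l) => c.bot l (h.le.trans hn) (𝟙 _)) (hp l h b)
      simpa only [Cyl.res_bot, Category.id_comp, Category.comp_id] using this)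
    (by rw [hfam z (fun _ _ _ => rfl)]; exact z.trOK hn (𝟙 _))
    (by rw [hfam z (fun _ _ _ => rfl), g0]; exact z.gam_src n hn (𝟙 _))
    (by rw [hfam z' (fun l h b => (hp l h b).symm), g1]; exact z'.gam_src n hn (𝟙 _))
    (fun h => by rw [g0, g1, t0, t1]; exact ⟨tl z h, tl z' h⟩)
    x (by rw [g0, t0, hs]) (by rw [g1, t1, ht])
  obtain ⟨y, e1, e2, e3, -⟩ := h2.mkS (𝟙 X) n (by omega) z z' w γ hp w1 w2 w3
    (fun h => absurd h hk)
  exact ⟨y, e1, e2, e3.trans w4⟩

end Crest.Agent.GC
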