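import Crest.Agent.GC.HatStd

/-! Row 248, job TH: the cylinder family `Θ`. -/

set_option autoImplicit false
open CategoryTheory CategoryTheory.Limits Opposite
open Crest.GeometryTopology.Coherator Crest.GeometryTopology.Coherator.GlobTheory
open Crest.GeometryTopology.Coherator.Shape (globe faceMap)
universe u

namespace Crest.Agent.GC

variable {C : GlobTheory.{u}}

/-- Ternary functions raising the dimension by one. -/
abbrev ThFn (C : GlobTheory.{u}) (l n : ℕ) : Type (u + 1) :=
  ∀ X : GlobModel C, Cell X (l + 1) → Cell X n → Cell X (l + 1) → Cell X (n + 1)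

/-- Specification of one level of `Θ`. -/
def ThSpec (O : Ops C) (l n : ℕ) (prev : ∀ n', n' < n → ThFn C l n') (z : ThFn C l n) : Prop :=
  (n ≤ l → ∀ X δ w γ, z X δ w γ = O.unit w) ∧
  ∀ h : l < n, Nat3 h z ∧ ∀ X δ w γ, V3 h δ w γ →
    src (z X δ w γ) =
      tr O (l + 1) n (fun l' h' b => prev l' h' X δ (face h' b w) γ) (O.Phi l δ w γ) ∧
    tgt (z X δ w γ) = w

open Classical in
/-- The family, by strong recursion. -/
noncomputable def thN (O : Ops C) (l n : ℕ) : ThFn C l n :=
  if h : ∃ z : ThFn C l n, ThSpec O l n (fun n' _ => thN O l n') z then Classical.choose h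
  else fun _ _ w _ => O.unit w
termination_by n

theorem th_ok_of (O : Ops C) (l n : ℕ)
    (ih : ∀ n', n' < n → ThSpec O l n' (fun n'' _ => thN O l n'') (thN O l n')) (h : l < n)
    {X : GlobModel C} {δ : Cell X (l + 1)} {w : Cell X n} {γ : Cell X (l + 1)} (hv : V3 h δ w γ) :
    TrOK O (l + 1) le_rfl (fun l' h' b => thN O l l' X δ (face h' b w) γ) (O.Phi l δ w γ) := by
  intro l' h' b
  by_cases hl : l < l'
  · refine ⟨?_, fun h2 => absurd h2 (by omega)⟩
    rw [(((ih l' h').2 hl).2 X δ _ γ (V3.face hl h' hv b)).1, O.phi_face_hi hl h' hv b]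
    congr 1
    funext l'' h'' b'
    simp only [face_face]
  · have e := (ih l' h').1 (by omega) X δ (face h' b w) γ
    have e2 := O.phi_face_low h (show l' ≤ l by omega) hv b
    refine ⟨?_, fun _ => ?_⟩
    · simp only [e]
      rw [O.src_unit, tr_low O _ (by omega), e2]
    · simp only [e]
      rw [O.tgt_unit, e2]

theorem thN_spec (O : Ops C) (hF : Fill3 C) (l n : ℕ) :
    ThSpec O l n (fun n' _ => thN O l n') (thN O l n) := by
  induction n using Nat.strong_induction_on with
  | _ n ih =>
    have hex : ∃ z : ThFn C l n, ThSpec O l n (fun n' _ => thN O l n') z := by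
      by_cases h : l < n
      · obtain ⟨z, hz1, hz2⟩ := hF l n n h (Nat.le_succ n)
          (fun X δ w γ => tr O (l + 1) n (fun l' h' b => thN O l l' X δ (face h' b w) γ)
            (O.Phi l δ w γ)) (fun X δ w γ => w) (by
            intro X Y f δ w γ hv
            rw [(th_ok_of O l n ih h hv).app_tr f]
            congr 1
            · funext l' h' b
              by_cases hl : l < l'
              · rw [← app_face]
                exact ((ih l' h').2 hl).1 X Y f δ _ γ (V3.face hl h' hv b)
              · show app f (thN O l l' X δ (face h' b w) γ) = thN O l l' Y _ (face h' b (app f w)) _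
                rw [(ih l' h').1 (by omega), (ih l' h').1 (by omega), O.app_unit, app_face]
            · unfold Ops.Phi
              rw [O.app_W f h (O.phi_v3 h hv), O.app_W f h hv, O.app_inv, O.app_inv])
          (fun X Y f δ w γ _ => rfl) (by
            intro X δ w γ hv l' h' b
            rw [(th_ok_of O l n ih h hv).face_lt h' b]
            by_cases hl : l < l'
            · exact (((ih l' h').2 hl).2 X δ _ γ (V3.face hl h' hv b)).2
            · simp only [(ih l' h').1 (by omega)]
              exact O.tgt_unit _)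
        exact ⟨z, fun h' => absurd h' (by omega), fun _ => ⟨hz1, hz2⟩⟩
      · exact ⟨fun _ _ w _ => O.unit w, fun _ _ _ _ _ => rfl, fun h' => absurd h' h⟩
    rw [thN, dif_pos hex]
    exact Classical.choose_spec hex

theorem theta_exists (O : Ops C) (h : Fill3 C) : Nonempty (Theta O) :=
  ⟨{ th := fun {X} l {n} δ w γ => thN O l n X δ w γ
     th_low := fun hn δ w γ => (thN_spec O h _ _).1 hn _ δ w γ
     th_src := fun hl _ _ _ hv => (((thN_spec O h _ _).2 hl).2 _ _ _ _ hv).1
     th_tgt := fun hl _ _ _ hv => (((thN_spec O h _ _).2 hl).2 _ _ _ _ hv).2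
     th_ok := fun hl _ _ _ hv => th_ok_of O _ _ (fun n' _ => thN_spec O h _ n') hl hv
     app_th := fun f _ _ hl _ _ _ hv => ((thN_spec O h _ _).2 hl).1 _ _ f _ _ _ hv }⟩

end Crest.Agent.GC
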