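import Crest.Agent.GC.Defs

/-!
Row 248 (S0382), job THY: the theory of natural families of operations on cylinders and the
resulting model structures on cylinders.
-/

set_option autoImplicit false
open CategoryTheory CategoryTheory.Limits Opposite
open Crest.GeometryTopology.Coherator Crest.GeometryTopology.Coherator.GlobTheory
open Crest.GeometryTopology.Coherator.Shape (globe faceMap)
universe u

namespace Crest.Agent.GC

variable {C : GlobTheory.{u}}

namespace THY

variable (O : Ops C) (k m : ℕ) {I : Type u} (ar : I → Ar C)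

/-- The pre-theory of natural families. -/
noncomputable def preE : PreTheory.{u} where
  arr S T := NF O k m ar S T
  one S := ⟨C.one S, fun _ d => d, fun _ d => (act_one _).symm, fun _ _ _ _ => rfl⟩
  seq f g := ⟨C.seq f.o g.o, fun a d => f.φ a (g.φ a d),
    fun a d => by rw [f.top_φ, g.top_φ, act_seq],
    fun a a' F d => by rw [g.nat, f.nat]⟩
  one_seq f := NF.ext (C.one_seq f.o) rfl
  seq_one f := NF.ext (C.seq_one f.o) rfl
  seq_assoc f g h := NF.ext (C.seq_assoc f.o g.o h.o) rfl
  ofShape f := ⟨C.ofShape f, fun _ d => d.res f, fun _ _ => rfl,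
    fun _ _ F d => d.push_res F.f F.g F.w f⟩
  ofShape_id S := NF.ext (C.ofShape_id S) (by funext a d; exact d.res_id)
  ofShape_comp f g := NF.ext (C.ofShape_comp f g) (by funext a d; exact d.res_comp f g)

variable {O k m}

theorem desc_exists (hA : CylAPI O k m) (S : Shape) (b h : ℕ) (hb : b < S.last) (hh : b < h)
    (U : Shape) (f : NF O k m ar S U) (g : NF O k m ar (globe h) U)
    (hs : (preE O k m ar).seq ((preE O k m ar).ofShape (S.hinge hb)) f =
      (preE O k m ar).seq ((preE O k m ar).ofShape (faceMap hh false)) g) :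
    ∃ z : NF O k m ar (S.glue b h hb hh) U,
      (preE O k m ar).seq ((preE O k m ar).ofShape (S.inLeft b h hb hh)) z = f ∧
      (preE O k m ar).seq ((preE O k m ar).ofShape (S.inRight b h hb hh)) z = g := by
  have hC := C.respectsSums S b h hb hh
  have hso : C.seq (C.ofShape (S.hinge hb)) f.o =
      C.seq (C.ofShape (faceMap hh false)) g.o := congrArg NF.o hs
  have hsφ : ∀ a d, (f.φ a d).res (S.hinge hb) = (g.φ a d).res (faceMap hh false) := fun a d =>
    congrFun (congrFun (congrArg NF.φ hs) a) d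
  let o : C.arr (S.glue b h hb hh) U := hC.desc (W := (⟨U⟩ : C.Ob)) f.o g.o hso
  have ho1 : C.seq (C.ofShape (S.inLeft b h hb hh)) o = f.o :=
    hC.inl_desc (W := (⟨U⟩ : C.Ob)) _ _ hso
  have ho2 : C.seq (C.ofShape (S.inRight b h hb hh)) o = g.o :=
    hC.inr_desc (W := (⟨U⟩ : C.Ob)) _ _ hso
  choose φ hφ using fun a d => hA.glue_exists (ar a).i S b h hb hh _ _ (hsφ a d)
  refine ⟨⟨o, φ, fun a d => ?_, fun a a' F d => ?_⟩, NF.ext ho1 ?_, NF.ext ho2 ?_⟩
  · apply el_glue_ext S b h hb hh
    · rw [res_act, ho1, ← f.top_φ, ← (hφ a d).1]; rfl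
    · rw [res_act, ho2, ← g.top_φ, ← (hφ a d).2]; rfl
  · apply hA.glue_ext _ S b h hb hh
    · rw [(hφ _ _).1, Cyl.push_res, (hφ _ _).1, f.nat]
    · rw [(hφ _ _).2, Cyl.push_res, (hφ _ _).2, g.nat]
  · funext a d; exact (hφ a d).1
  · funext a d; exact (hφ a d).2

theorem desc_ext (hA : CylAPI O k m) (S : Shape) (b h : ℕ) (hb : b < S.last) (hh : b < h)
    (U : Shape) (z z' : NF O k m ar (S.glue b h hb hh) U)
    (h1 : (preE O k m ar).seq ((preE O k m ar).ofShape (S.inLeft b h hb hh)) z =
      (preE O k m ar).seq ((preE O k m ar).ofShape (S.inLeft b h hb hh)) z')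
    (h2 : (preE O k m ar).seq ((preE O k m ar).ofShape (S.inRight b h hb hh)) z =
      (preE O k m ar).seq ((preE O k m ar).ofShape (S.inRight b h hb hh)) z') : z = z' := by
  have hC := C.respectsSums S b h hb hh
  apply NF.ext
  · exact hC.hom_ext (W := (⟨U⟩ : C.Ob)) (congrArg NF.o h1) (congrArg NF.o h2)
  · funext a d
    exact hA.glue_ext _ S b h hb hh _ _ (congrFun (congrFun (congrArg NF.φ h1) a) d)
      (congrFun (congrFun (congrArg NF.φ h2) a) d)

theorem respects (hA : CylAPI O k m) : (preE O k m ar).RespectsSums := by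
  intro S b h hb hh
  refine ⟨⟨?_⟩, ⟨PushoutCocone.IsColimit.mk _
    (fun s => (desc_exists ar hA S b h hb hh s.pt.shape s.inl s.inr s.condition).choose)
    (fun s => (desc_exists ar hA S b h hb hh s.pt.shape s.inl s.inr s.condition).choose_spec.1)
    (fun s => (desc_exists ar hA S b h hb hh s.pt.shape s.inl s.inr s.condition).choose_spec.2)
    (fun s z h1 h2 => desc_ext ar hA S b h hb hh s.pt.shape _ _ ?_ ?_)⟩⟩
  · rw [← Functor.map_comp, ← Functor.map_comp, glue_cond]
  · exact h1.trans
      (desc_exists ar hA S b h hb hh s.pt.shape s.inl s.inr s.condition).choose_spec.1.symm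
  · exact h2.trans
      (desc_exists ar hA S b h hb hh s.pt.shape s.inl s.inr s.condition).choose_spec.2.symm

/-- The globular theory of natural families. -/
noncomputable def thE (hA : CylAPI O k m) : GlobTheory.{u} where
  toPreTheory := preE O k m ar
  respectsSums := respects ar hA

/-- The projection to `C`. -/
def proj (hA : CylAPI O k m) : TheoryMap (thE ar hA) C where
  map f := NF.o f
  map_one _ := rfl
  map_seq _ _ := rfl
  map_ofShape _ := rfl

theorem comp_assoc {A B D E : GlobTheory.{u}} (F : TheoryMap A B) (G : TheoryMap B D)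
    (H : TheoryMap D E) : (F.comp G).comp H = F.comp (G.comp H) := rfl

theorem cylPar_of_opsParallel (hA : CylAPI O k m) {T : Shape} :
    ∀ (n : ℕ) (f g : (thE ar hA).arr (globe n) T), (thE ar hA).OpsParallel n f g →
      ∀ a d, CylPar (NF.φ f a d) (NF.φ g a d)
  | 0, _, _, _ => fun _ _ l h => absurd h (by omega)
  | n + 1, f, g, hp => by
    intro a d l h b
    have h1 : (NF.φ f a d).res (faceMap (Nat.lt_add_one n) false) =
        (NF.φ g a d).res (faceMap (Nat.lt_add_one n) false) :=
      congrFun (congrFun (congrArg NF.φ hp.1) a) d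
    have h2 : (NF.φ f a d).res (faceMap (Nat.lt_add_one n) true) =
        (NF.φ g a d).res (faceMap (Nat.lt_add_one n) true) :=
      congrFun (congrFun (congrArg NF.φ hp.2) a) d
    rcases Nat.lt_succ_iff_lt_or_eq.1 h with h' | rfl
    · rw [← faceMap_comp h' (Nat.lt_add_one n) b false, Cyl.res_comp, Cyl.res_comp, h1]
    · cases b
      · exact h1
      · exact h2

theorem opsParallel_map {A B : GlobTheory.{u}} (G : TheoryMap A B) {T : Shape} :
    ∀ (n : ℕ) (f g : A.arr (globe n) T), A.OpsParallel n f g →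
      B.OpsParallel n (G.map f) (G.map g)
  | 0, _, _, _ => trivial
  | n + 1, f, g, hp => by
    refine ⟨?_, ?_⟩
    · rw [← G.map_ofShape, ← G.map_seq, ← G.map_seq, hp.1]
    · rw [← G.map_ofShape, ← G.map_seq, ← G.map_seq, hp.2]

theorem filler_comp {A B D : GlobTheory.{u}} (F : TheoryMap A B) (G : TheoryMap B D)
    (p : A.Admissible) (z : B.arr (globe (p.n + 1)) p.shape) (h : IsFillerAlong F p z) :
    IsFillerAlong (F.comp G) p (G.map z) := by
  refine ⟨?_, ?_⟩
  · rw [← G.map_ofShape, ← G.map_seq, h.1]; rfl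
  · rw [← G.map_ofShape, ← G.map_seq, h.2]; rfl

theorem step_exists (hA : CylAPI O k m) (hL : Lift O k m ar) (τ : C.Tower) (r : ℕ)
    (G : TheoryMap (τ.stage r) (thE ar hA)) (hG : G.comp (proj ar hA) = τ.toEnd r) :
    ∃ G' : TheoryMap (τ.stage (r + 1)) (thE ar hA),
      G'.comp (proj ar hA) = τ.toEnd (r + 1) ∧ (τ.next r).comp G' = G := by
  have hfree := τ.free r
  have hfill : ∀ g, IsFillerAlong (τ.toEnd r) (τ.prob r g) ((τ.toEnd (r + 1)).map (τ.fill r g)) := by
    intro g
    have := filler_comp (τ.next r) (τ.toEnd (r + 1)) _ _ (hfree.1 g)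
    rwa [τ.toEnd_comm] at this
  have hGo : ∀ {S T : Shape} (f : (τ.stage r).arr S T), NF.o (G.map f) = (τ.toEnd r).map f := by
    intro S T f
    rw [← hG]; rfl
  have hw : ∀ g : τ.gen r, ∃ z : (thE ar hA).arr (globe ((τ.prob r g).n + 1)) (τ.prob r g).shape,
      NF.o z = (τ.toEnd (r + 1)).map (τ.fill r g) ∧ IsFillerAlong G (τ.prob r g) z := by
    intro g
    obtain ⟨z, hz, hz'⟩ := hL (τ.prob r g).n (τ.prob r g).shape (τ.prob r g).dim_le
      (G.map (τ.prob r g).lower) (G.map (τ.prob r g).upper) ((τ.toEnd (r + 1)).map (τ.fill r g))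
      (cylPar_of_opsParallel ar hA _ _ _ (opsParallel_map G _ _ _ (τ.prob r g).parallel))
      ((hfill g).1.trans (hGo _).symm) ((hfill g).2.trans (hGo _).symm)
    refine ⟨z, hz, ?_, ?_⟩
    · apply NF.ext
      · show C.seq (C.ofShape _) z.o = _
        rw [hz]; exact (hfill g).1.trans (hGo _).symm
      · funext a d; exact (hz' a d).1
    · apply NF.ext
      · show C.seq (C.ofShape _) z.o = _
        rw [hz]; exact (hfill g).2.trans (hGo _).symm
      · funext a d; exact (hz' a d).2
  choose w hw1 hw2 using hw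
  obtain ⟨G', ⟨hG1, hG2⟩, -⟩ := hfree.2 (thE ar hA) G w hw2
  refine ⟨G', ?_, hG1⟩
  obtain ⟨H, -, hH⟩ := hfree.2 C (τ.toEnd r) (fun g => (τ.toEnd (r + 1)).map (τ.fill r g)) hfill
  refine (hH _ ⟨?_, fun g => ?_⟩).trans (hH _ ⟨τ.toEnd_comm r, fun g => rfl⟩).symm
  · rw [← comp_assoc, hG1, hG]
  · show NF.o (G'.map _) = _
    rw [hG2, hw1]

theorem section_exists (hA : CylAPI O k m) (hL : Lift O k m ar) (τ : C.Tower) :
    ∃ H : TheoryMap C (thE ar hA), H.comp (proj ar hA) = TheoryMap.id C := by
  let P : ℕ → Type u := fun r =>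
    { G : TheoryMap (τ.stage r) (thE ar hA) // G.comp (proj ar hA) = τ.toEnd r }
  obtain ⟨U0⟩ := τ.stage_zero (thE ar hA)
  obtain ⟨U1⟩ := τ.stage_zero C
  let G0 : P 0 := ⟨U0.default, Subsingleton.elim _ _⟩
  let G : ∀ r, P r := fun r => Nat.rec G0
    (fun r g => ⟨(step_exists ar hA hL τ r g.1 g.2).choose,
      (step_exists ar hA hL τ r g.1 g.2).choose_spec.1⟩) r
  have hG : ∀ r, (τ.next r).comp (G (r + 1)).1 = (G r).1 := fun r =>
    (step_exists ar hA hL τ r (G r).1 (G r).2).choose_spec.2
  obtain ⟨H, hH, -⟩ := τ.colim (thE ar hA) (fun r => (G r).1) hG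
  refine ⟨H, ?_⟩
  obtain ⟨K, -, hK⟩ := τ.colim C τ.toEnd τ.toEnd_comm
  refine (hK _ fun r => ?_).trans (hK _ fun r => rfl).symm
  rw [← comp_assoc, hH r, (G r).2]

/-- The model of cylinders. -/
noncomputable def model (hA : CylAPI O k m) (H : TheoryMap C (thE ar hA)) (a : I) :
    GlobModel C where
  functor :=
    { obj := fun S => Cyl O k m (ar a).i S.unop.shape
      map := fun o => TypeCat.ofHom (NF.φ (H.map o.unop) a)
      map_id := fun S => by
        refine ConcreteCategory.hom_ext _ _ (fun d => ?_)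
        show NF.φ (H.map (C.one _)) a d = d
        rw [H.map_one]; rfl
      map_comp := fun f g => by
        refine ConcreteCategory.hom_ext _ _ (fun d => ?_)
        show NF.φ (H.map (C.seq g.unop f.unop)) a d = NF.φ (H.map g.unop) a (NF.φ (H.map f.unop) a d)
        rw [H.map_seq]; rfl }
  sums S b h hb hh := by
    have key : ∀ {R T : Shape} (f : R ⟶ T) (d : Cyl O k m (ar a).i T),
        NF.φ (H.map (C.ofShape f)) a d = d.res f := by
      intro R T f d
      rw [H.map_ofShape]; rfl
    rw [Types.isPullback_iff]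
    refine ⟨?_, ?_, ?_⟩
    · refine ConcreteCategory.hom_ext _ _ (fun d => ?_)
      show NF.φ (H.map (C.ofShape _)) a (NF.φ (H.map (C.ofShape _)) a d) =
        NF.φ (H.map (C.ofShape _)) a (NF.φ (H.map (C.ofShape _)) a d)
      rw [key, key, key, key, ← Cyl.res_comp, ← Cyl.res_comp]
      exact congrArg (Cyl.res d) (glue_cond S b h hb hh)
    · rintro x y ⟨h1, h2⟩
      apply hA.glue_ext _ S b h hb hh
      · rw [← key, ← key]; exact h1
      · rw [← key, ← key]; exact h2
    · intro x y hxy
      obtain ⟨z, h1, h2⟩ := hA.glue_exists (ar a).i S b h hb hh x y (by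
        rw [← key, ← key]; exact hxy)
      exact ⟨z, (key _ _).trans h1, (key _ _).trans h2⟩

end THY

theorem jobThy (O : Ops C) (k m : ℕ) : JobThy O k m := by
  intro I ar ⟨τ⟩ hA hL
  obtain ⟨H, hH⟩ := THY.section_exists ar hA hL τ
  have hHo : ∀ {S T : Shape} (o : C.arr S T), NF.o (H.map o) = o := by
    intro S T o
    have : (H.comp (THY.proj ar hA)).map o = (TheoryMap.id C).map o := by rw [hH]
    exact this
  have hact : ∀ (a : I) {S T : Shape} (o : C.arr S T) (x : El (THY.model ar hA H a) T),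
      act o x = NF.φ (H.map o) a x := fun _ _ _ _ _ => rfl
  let A : ∀ a : I, CylModel O k m (ar a).i := fun a =>
    { M := THY.model ar hA H a
      e := fun _ => Equiv.refl _
      e_res := fun S T f x => by
        show NF.φ (H.map (C.ofShape f)) a x = Cyl.res x f
        rw [H.map_ofShape]; rfl
      top := homMk (fun _ x => Cyl.top x) (fun S T o x => by
        show Cyl.top (NF.φ (H.map o) a x) = _
        rw [NF.top_φ, hHo])
      top_e := fun _ _ => rfl }
  refine ⟨A, fun a a' F => ⟨homMk (fun _ x => Cyl.push x F.f F.g F.w) (fun S T o x => ?_),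
    fun _ _ => rfl⟩⟩
  exact (NF.nat (H.map o) a a' F x).symm

end Crest.Agent.GC
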