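import Crest.Agent.GC.Defs

/-!
Row 248 (S0382), job U: universal arrows carrying a `T`-cylinder are iterated expansions.
-/

set_option autoImplicit false
open CategoryTheory CategoryTheory.Limits Opposite
open Crest.GeometryTopology.Coherator Crest.GeometryTopology.Coherator.GlobTheory
open Crest.GeometryTopology.Coherator.Shape (globe faceMap)
universe u

namespace Crest.Agent.GC

variable {C : GlobTheory.{u}}

namespace JU

/-- Families of cylinder cells on the cells of `T` of dimension `< j`. -/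
abbrev PF (Z : GlobModel C) (T : Shape) (j : ℕ) : Type u :=
  ∀ l : ℕ, l < j → (globe l ⟶ T) → Cell Z (l + 1)

/-- The family on the faces of a cell. -/
noncomputable abbrev PF.fam {Z : GlobModel C} {T : Shape} {j : ℕ} (γ : PF Z T j) {l : ℕ}
    (hl : l ≤ j) (c : globe l ⟶ T) : Fam Z l :=
  fun l' h b => γ l' (lt_of_lt_of_le h hl) (faceMap h b ≫ c)

/-- Partial cylinder data. -/
def IsPD (O : Ops C) (k : ℕ) {Z : GlobModel C} {T : Shape} (t : El Z T) {j : ℕ} (γ : PF Z T j) :
    Prop :=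
  ∀ (l : ℕ) (hl : l < j) (c : globe l ⟶ T),
    src (γ l hl c) = tr O k l (γ.fam hl.le c) (res c t) ∧ (l < k → γ l hl c = O.unit (res c t))

variable {O : Ops C} {k : ℕ} {T : Shape}

theorem IsPD.trOK {Z : GlobModel C} {t : El Z T} {j : ℕ} {γ : PF Z T j} (H : IsPD O k t γ)
    {l : ℕ} (hl : l ≤ j) (c : globe l ⟶ T) : TrOK O k le_rfl (γ.fam hl c) (res c t) := by
  intro l' h b
  refine ⟨?_, fun hk => ?_⟩
  · rw [(H l' _ _).1, face_res]
    congr 1
    funext l'' h' b'
    simp only [PF.fam, faceMap_comp_assoc]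
  · simp only [PF.fam]
    rw [(H l' _ _).2 hk, O.tgt_unit, face_res]

/-- Extension of a family by one level. -/
noncomputable def extF {Z : GlobModel C} {j : ℕ} (γ : PF Z T j)
    (β : (globe j ⟶ T) → Cell Z (j + 1)) : PF Z T (j + 1) :=
  fun l hl => if h : l < j then γ l h else (show j = l by omega) ▸ β

theorem extF_lt {Z : GlobModel C} {j : ℕ} (γ : PF Z T j) (β : (globe j ⟶ T) → Cell Z (j + 1))
    {l : ℕ} (hl : l < j + 1) (h : l < j) : extF γ β l hl = γ l h := dif_pos h

theorem extF_self {Z : GlobModel C} {j : ℕ} (γ : PF Z T j) (β : (globe j ⟶ T) → Cell Z (j + 1))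
    (hl : j < j + 1) : extF γ β j hl = β := by
  unfold extF
  rw [dif_neg (lt_irrefl j)]

/-- Universal partial data. -/
def Univ (O : Ops C) (k : ℕ) {T : Shape} {U : GlobModel C} (u : GlobModel.freeOn C T ⟶ U) {j : ℕ}
    (γ : PF U T j) : Prop :=
  IsPD O k (app u (gen C T)) γ ∧
    ∀ (Z : GlobModel C) (g : GlobModel.freeOn C T ⟶ Z) (γ' : PF Z T j),
      IsPD O k (app g (gen C T)) γ' →
      ∃! h : U ⟶ Z, u ≫ h = g ∧ ∀ (l : ℕ) (hl : l < j) (c : globe l ⟶ T), app h (γ l hl c) = γ' l hl c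

theorem univ_base (O : Ops C) (k : ℕ) (T : Shape) :
    Univ O k (𝟙 (GlobModel.freeOn C T)) (j := k) (fun _ _ c => O.unit (res c (gen C T))) := by
  refine ⟨fun l hl c => ⟨?_, fun _ => rfl⟩, fun Z g γ' H => ⟨g, ⟨Category.id_comp g, ?_⟩, ?_⟩⟩
  · rw [O.src_unit, tr_low O k hl.le, app_id]
  · intro l hl c
    rw [(H l hl c).2 hl, O.app_unit, app_res]
  · rintro h ⟨h1, -⟩
    rw [← h1, Category.id_comp]

/-- Image of transported cells. -/
theorem IsPD.app_tr {Z Z' : GlobModel C} {t : El Z T} {j : ℕ} {γ : PF Z T j} (H : IsPD O k t γ)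
    (f : Z ⟶ Z') {l : ℕ} (hl : l ≤ j) (c : globe l ⟶ T) (G : Fam Z' l)
    (hG : ∀ l' h b, G l' h b = app f (γ l' (lt_of_lt_of_le h hl) (faceMap h b ≫ c))) :
    app f (tr O k l (γ.fam hl c) (res c t)) = tr O k l G (res c (app f t)) := by
  rw [(H.trOK hl c).app_tr f, app_res]
  congr 1
  funext l' h b
  exact (hG l' h b).symm

theorem univ_step {U : GlobModel C} {u : GlobModel.freeOn C T ⟶ U} {j : ℕ} (hkj : k ≤ j)
    {γ : PF U T j} (H : Univ O k u γ) {Y : GlobModel C} (i : U ⟶ Y)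
    (β : (globe j ⟶ T) → Cell Y (j + 1))
    (hE : IsExp i j (fun c : globe j ⟶ T => tr O k j (γ.fam le_rfl c) (res c (app u (gen C T)))) β) :
    Univ O k (u ≫ i) (extF (fun l hl c => app i (γ l hl c)) β) := by
  refine ⟨fun l hl c => ?_, fun Z g γ' H' => ?_⟩
  · rcases Nat.lt_succ_iff_lt_or_eq.1 hl with h | rfl
    · rw [extF_lt _ _ hl h]
      refine ⟨?_, fun hk => ?_⟩
      · rw [← app_face, (H.1 l h c).1, app_comp]
        exact H.1.app_tr i h.le c _ (fun l' h' b => by
          simp only [PF.fam]; rw [extF_lt _ _ _ (h'.trans h)])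
      · rw [(H.1 l h c).2 hk, O.app_unit, app_comp, app_res]
    · rw [extF_self]
      refine ⟨?_, fun hk => absurd hk (by omega)⟩
      rw [hE.src_β, app_comp]
      exact H.1.app_tr i le_rfl c _ (fun l' h' b => by
        simp only [PF.fam]; rw [extF_lt _ _ _ h'])
  · have H'' : IsPD O k (app g (gen C T))
        (fun l hl c => γ' l (hl.trans (Nat.lt_add_one j)) c : PF Z T j) :=
      fun l hl c => H' l (hl.trans (Nat.lt_add_one j)) c
    obtain ⟨h₀, ⟨h01, h02⟩, h0u⟩ := H.2 Z g _ H''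
    obtain ⟨h, ⟨h1, h2⟩, hu⟩ := hE.univ Z h₀ (fun c => γ' j (Nat.lt_add_one j) c) (fun c => by
      rw [(H' j _ c).1, H.1.app_tr h₀ le_rfl c (γ'.fam (Nat.lt_add_one j).le c)
        (fun l' h' b => (h02 l' h' _).symm), ← app_comp, h01])
    refine ⟨h, ⟨by rw [Category.assoc, h1, h01], fun l hl c => ?_⟩, ?_⟩
    · rcases Nat.lt_succ_iff_lt_or_eq.1 hl with h' | rfl
      · rw [extF_lt _ _ hl h', ← app_comp, h1, h02]
      · rw [extF_self, h2]
    · rintro h' ⟨h1', h2'⟩
      apply hu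
      refine ⟨h0u _ ⟨by rw [← Category.assoc, h1'], fun l hl c => ?_⟩, fun c => ?_⟩
      · have := h2' l (hl.trans (Nat.lt_add_one j)) c
        rw [extF_lt _ _ _ hl] at this
        rw [app_comp]
        exact this
      · have := h2' j (Nat.lt_add_one j) c
        rwa [extF_self] at this

theorem IsExp.retr (O : Ops C) {X Y : GlobModel C} {i : X ⟶ Y} {l : ℕ} {ι : Type}
    {a : ι → Cell X l} {β : ι → Cell Y (l + 1)} (h : IsExp i l a β) : ∃ r : Y ⟶ X, i ≫ r = 𝟙 X := by
  obtain ⟨r, ⟨h1, -⟩, -⟩ := h.univ X (𝟙 X) (fun s => O.unit (a s)) (fun s => O.src_unit _)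
  exact ⟨r, h1⟩

/-- The inductive invariant. -/
def Stage (O : Ops C) (k m : ℕ) (T : Shape) (j : ℕ) : Prop :=
  ∃ (U : GlobModel C) (u : GlobModel.freeOn C T ⟶ U) (γ : PF U T j), Univ O k u γ ∧ Cof U ∧
    (∃ r : U ⟶ GlobModel.freeOn C T, u ≫ r = 𝟙 _) ∧
    ∀ j', T.dim ≤ j' → k ≤ j' → j' ≤ m → Fillable U j'

theorem stage_top (O : Ops C) (k m : ℕ) (T : Shape) (hk : k ≤ m + 1) (hE : JobExp C)
    (hCof : JobCof C)
    (hA : ∀ l, k < l → l ≤ m → ∀ (X Y : GlobModel C) (i : X ⟶ Y) (ι : Type) (a : ι → Cell X l)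
      (β : ι → Cell Y (l + 1)), Cof X → IsExp i l a β →
      ∀ j, j ≤ m → Fillable X j → Fillable Y j)
    (hH : k ≤ m → ∀ (Y : GlobModel C) (i : GlobModel.freeOn C T ⟶ Y)
      (α : (globe k ⟶ T) → Cell Y (k + 1)),
      IsExp i k (fun x : globe k ⟶ T => res x (gen C T)) α →
      ∀ j, T.dim ≤ j → k ≤ j → j ≤ m → Fillable Y j) : Stage O k m T (m + 1) := by
  rcases hk.lt_or_eq with hk' | rfl
  · have hkm : k ≤ m := Nat.le_of_lt_succ hk'
    have key : ∀ j, k + 1 ≤ j → j ≤ m + 1 → Stage O k m T j := by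
      intro j hj
      induction j, hj using Nat.le_induction with
      | base =>
        intro _
        obtain ⟨Y, i, β, hi⟩ := hE (GlobModel.freeOn C T) k (globe k ⟶ T)
          (fun x : globe k ⟶ T => res x (gen C T))
        have hb := univ_base O k T
        have hs := univ_step le_rfl hb i β (by
          convert hi using 2 with c
          rw [tr_low O k le_rfl, app_id])
        obtain ⟨r, hr⟩ := IsExp.retr O hi
        exact ⟨Y, _, _, hs, hCof.exp i k _ _ β hi (hCof.free T),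
          ⟨r, by rw [Category.id_comp, hr]⟩, hH hkm Y i β hi⟩
      | succ j hj ih =>
        intro hjm
        obtain ⟨U, u, γ, hU, hc, ⟨r, hr⟩, hf⟩ := ih (by omega)
        obtain ⟨Y, i, β, hi⟩ := hE U j (globe j ⟶ T)
          (fun c : globe j ⟶ T => tr O k j (γ.fam le_rfl c) (res c (app u (gen C T))))
        have hs := univ_step (by omega) hU i β hi
        obtain ⟨r', hr'⟩ := IsExp.retr O hi
        refine ⟨Y, _, _, hs, hCof.exp i j _ _ β hi hc, ⟨r' ≫ r, ?_⟩, fun j' h1 h2 h3 => ?_⟩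
        · rw [Category.assoc, ← Category.assoc i, hr', Category.id_comp, hr]
        · exact hA j (by omega) (by omega) U Y i _ _ β hc hi j' h3 (hf j' h1 h2 h3)
    exact key (m + 1) (by omega) le_rfl
  · exact ⟨_, _, _, univ_base O (m + 1) T, hCof.free T, ⟨𝟙 _, Category.id_comp _⟩,
      fun j' _ h2 h3 => absurd h3 (by omega)⟩

end JU

open JU in
theorem jobU (O : Ops C) : JobU O := by
  intro k m T hk hT hC hS hEl hE hCof hA hH
  obtain ⟨U, u, γ, hU, -, ⟨r, hr⟩, hf⟩ := stage_top O k m T hk hE hCof hA hH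
  have hlm : ∀ (l : ℕ), (globe l ⟶ T) → l ≤ m := fun l c => (hS.le_dim T l c).trans hT
  obtain ⟨top, htop⟩ := hEl.exists_el U T
    (fun l c => tgt (γ l (Nat.lt_succ_of_le (hlm l c)) c)) (fun l c l' h b => by
      have h1 := (hU.1.trOK (Nat.lt_succ_of_le (hlm l c)).le c).face_lt h b
      rw [← (hU.1 l (Nat.lt_succ_of_le (hlm l c)) c).1, face_face] at h1
      rw [face_face, h1])
  let d : Cyl O k m u T :=
    { top := top
      bot := fun l _ c => res c (gen C T)
      gam := fun l hl c => γ l (Nat.lt_succ_of_le hl) c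
      bot_face := fun l hl c l' h b => (face_res h b c _).symm
      gam_src := fun l hl c => by rw [(hU.1 l _ c).1, app_res]
      gam_tgt := fun l hl c => (htop l c).symm
      gam_low := fun l hl c hlk => by rw [(hU.1 l _ c).2 hlk, app_res] }
  refine ⟨⟨_, U, u⟩, d, gen C T, fun _ _ _ => rfl, fun n x y hxy => ?_,
    fun j hj => fillable_free hC T j hj, hf, fun a' d' => ?_⟩
  · have := congrArg (app r) hxy
    rwa [← app_comp, ← app_comp, hr] at this
  · obtain ⟨t', ht'⟩ := hEl.exists_el a'.X T (fun l c => d'.bot l (hlm l c) c)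
      (fun l c l' h b => d'.bot_face l (hlm l c) c l' h b)
    have hpd : IsPD O k (app (cls t' ≫ a'.i) (gen C T))
        (fun l hl c => d'.gam l (Nat.le_of_lt_succ hl) c : PF a'.Y T (m + 1)) := by
      intro l hl c
      rw [app_comp, app_cls_gen, ← app_res, ht']
      exact ⟨d'.gam_src l _ c, d'.gam_low l _ c⟩
    obtain ⟨g, ⟨hg1, hg2⟩, hgu⟩ := hU.2 a'.Y (cls t' ≫ a'.i) _ hpd
    refine ⟨⟨cls t', g, hg1⟩, ?_, ?_⟩
    · refine Cyl.ext ?_ ?_ ?_
      · apply hEl.ext
        intro l c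
        show res c (app g top) = _
        rw [← app_res, htop, app_face, hg2, d'.gam_tgt]
      · funext l hl c
        show app (cls t') (res c (gen C T)) = _
        rw [app_res, app_cls_gen, ht']
      · funext l hl c
        exact hg2 l _ c
    · rintro ⟨f', g', w'⟩ hF
      have hf' : f' = cls t' := by
        apply free_hom_ext
        rw [app_cls_gen]
        apply hEl.ext
        intro l c
        rw [ht', ← hF, ← app_res]
        rfl
      subst hf'
      have hg' : g' = g := hgu g' ⟨w', fun l hl c => by rw [← hF]; rfl⟩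
      subst hg'
      rfl

end Crest.Agent.GC
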