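import Crest.Agent.GC.Asm
import Crest.Agent.GC.SH
import Crest.Agent.GC.OPS
import Crest.Agent.GC.TH
import Crest.Agent.GC.DIV
import Crest.Agent.GC.CYL
import Crest.Agent.GC.TF
import Crest.Agent.GC.THY
import Crest.Agent.GC.LIFT
import Crest.Agent.GC.EXP
import Crest.Agent.GC.COF
import Crest.Agent.GC.LA
import Crest.Agent.GC.HAT1
import Crest.Agent.GC.HAT2
import Crest.Agent.GC.U
import Crest.Agent.GC.FIN

/-! Row 248: the pushout theorem for coherators. -/

set_option autoImplicit false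
open CategoryTheory CategoryTheory.Limits Opposite
open Crest.GeometryTopology.Coherator Crest.GeometryTopology.Coherator.GlobTheory
universe u

namespace Crest.Agent.GC

theorem main_thm (C : GlobTheory.{u}) (hC : C.IsCoheratorTheory) (e : C.UnitChoice)
    (X : C.GlobModel) (hX : X.IsCellularModel) (n : ℕ)
    (a : GlobModel.diskModel C n ⟶ X)
    (Y : C.GlobModel) (i : X ⟶ Y) (b : GlobModel.diskModel C (n + 1) ⟶ Y)
    (sq : IsPushout a (GlobModel.sourceIncl C n) i b) :
    GlobModel.IsWeakEquiv e i := by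
  have hF : Fill3 C := fill3 hC.2 e
  obtain ⟨O⟩ := ops_exists e hF
  obtain ⟨Θ⟩ := theta_exists O hF
  have hS : ShapeAPI.{u} := shapeAPI
  exact main_of_jobs O hC.1 hC.2 hS (elAPI C) hF ⟨Θ⟩ (fun k m => cylAPI O k m hS)
    (fun k m => tf O k m (trSurj O Θ) (cylAPI O k m hS)) (jobThy O) (jobLift O) (jobExp C)
    (jobCof hS (elAPI C)) (jobLA O) (jobLS O) (jobHat1 O) (jobHat2 O) (jobU O) (jobFin O)
    e X hX n a Y i b sq

end Crest.Agent.GC
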