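import Crest.Agent.GC.Basic

/-!
Row 248 (S0382): natural operations (`Ops`), transport `tr` along a family of cylinder cells,
and relative cylinders `Cyl`.
-/

set_option autoImplicit false
open CategoryTheory CategoryTheory.Limits Opposite
open Crest.GeometryTopology.Coherator Crest.GeometryTopology.Coherator.GlobTheory
open Crest.GeometryTopology.Coherator.Shape (globe faceMap)
universe u

namespace Crest.Agent.GC

variable {C : GlobTheory.{u}}

/-- Valid ternary data: `δ` ends at the `l`-source of `w`, `γ` starts at the `l`-target of `w`. -/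
def V3 {X : GlobModel C} {l n : ℕ} (h : l < n) (δ : Cell X (l + 1)) (w : Cell X n)
    (γ : Cell X (l + 1)) : Prop :=
  tgt δ = face h false w ∧ face h true w = src γ

theorem V3.map {X Y : GlobModel C} (f : X ⟶ Y) {l n : ℕ} {h : l < n} {δ : Cell X (l + 1)}
    {w : Cell X n} {γ : Cell X (l + 1)} (hv : V3 h δ w γ) :
    V3 h (app f δ) (app f w) (app f γ) :=
  ⟨by rw [← app_face, ← app_face, hv.1], by rw [← app_face, ← app_face, hv.2]⟩

theorem V3.face {X : GlobModel C} {l l' n : ℕ} (h1 : l < l') (h2 : l' < n) {δ : Cell X (l + 1)}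
    {w : Cell X n} {γ : Cell X (l + 1)} (hv : V3 (h1.trans h2) δ w γ) (b : Bool) :
    V3 h1 δ (face h2 b w) γ :=
  ⟨by rw [face_face]; exact hv.1, by rw [face_face]; exact hv.2⟩

theorem V3.of_face {X : GlobModel C} {l l' n : ℕ} (h1 : l < l') (h2 : l' < n) {δ : Cell X (l + 1)}
    {w : Cell X n} {γ : Cell X (l + 1)} {b : Bool} (hv : V3 h1 δ (GC.face h2 b w) γ) :
    V3 (h1.trans h2) δ w γ :=
  ⟨by have := hv.1; rwa [face_face] at this, by have := hv.2; rwa [face_face] at this⟩

/-- Natural operations available in all models of a coherator: units, inverses, and the ternary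
whiskering `W l δ w γ` (junk unless `V3`). -/
structure Ops (C : GlobTheory.{u}) where
  unit : ∀ {X : GlobModel C} {n : ℕ}, Cell X n → Cell X (n + 1)
  src_unit : ∀ {X : GlobModel C} {n : ℕ} (x : Cell X n), src (unit x) = x
  tgt_unit : ∀ {X : GlobModel C} {n : ℕ} (x : Cell X n), tgt (unit x) = x
  app_unit : ∀ {X Y : GlobModel C} (f : X ⟶ Y) {n : ℕ} (x : Cell X n),
    app f (unit x) = unit (app f x)
  inv : ∀ {X : GlobModel C} {n : ℕ}, Cell X (n + 1) → Cell X (n + 1)
  src_inv : ∀ {X : GlobModel C} {n : ℕ} (x : Cell X (n + 1)), src (inv x) = tgt x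
  tgt_inv : ∀ {X : GlobModel C} {n : ℕ} (x : Cell X (n + 1)), tgt (inv x) = src x
  app_inv : ∀ {X Y : GlobModel C} (f : X ⟶ Y) {n : ℕ} (x : Cell X (n + 1)),
    app f (inv x) = inv (app f x)
  W : ∀ {X : GlobModel C} (l : ℕ) {n : ℕ},
    Cell X (l + 1) → Cell X n → Cell X (l + 1) → Cell X n
  W_src : ∀ {X : GlobModel C} {l n : ℕ} (h : l < n) {δ : Cell X (l + 1)} {w : Cell X n}
    {γ : Cell X (l + 1)}, V3 h δ w γ → face h false (W l δ w γ) = src δ
  W_tgt : ∀ {X : GlobModel C} {l n : ℕ} (h : l < n) {δ : Cell X (l + 1)} {w : Cell X n}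
    {γ : Cell X (l + 1)}, V3 h δ w γ → face h true (W l δ w γ) = tgt γ
  W_hi : ∀ {X : GlobModel C} {l l' n : ℕ} (h1 : l < l') (h2 : l' < n) {δ : Cell X (l + 1)}
    {w : Cell X n} {γ : Cell X (l + 1)}, V3 (h1.trans h2) δ w γ → ∀ b : Bool,
      face h2 b (W l δ w γ) = W l δ (face h2 b w) γ
  app_W : ∀ {X Y : GlobModel C} (f : X ⟶ Y) {l n : ℕ} (h : l < n) {δ : Cell X (l + 1)}
    {w : Cell X n} {γ : Cell X (l + 1)}, V3 h δ w γ →
      app f (W l δ w γ) = W l (app f δ) (app f w) (app f γ)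

namespace Ops
variable (O : Ops C)

theorem W_lo {X : GlobModel C} {l l' n : ℕ} (h' : l' < l) (h : l < n) {δ : Cell X (l + 1)}
    {w : Cell X n} {γ : Cell X (l + 1)} (hv : V3 h δ w γ) (b : Bool) :
    face (h'.trans h) b (O.W l δ w γ) = face (h'.trans h) b w := by
  rw [← face_face h' h b false, O.W_src h hv, ← face_face h' h b false w, ← hv.1]
  simp

include O in
theorem step_refl {X : GlobModel C} {n : ℕ} (x : Cell X n) : Step x x :=
  ⟨O.unit x, O.src_unit x, O.tgt_unit x⟩

include O in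
theorem step_symm {X : GlobModel C} {n : ℕ} {x y : Cell X n} (h : Step x y) : Step y x := by
  obtain ⟨z, rfl, rfl⟩ := h
  exact ⟨O.inv z, O.src_inv z, O.tgt_inv z⟩

/-- Binary composite of `(n+1)`-cells along an `n`-cell. -/
noncomputable def comp {X : GlobModel C} {n : ℕ} (z z' : Cell X (n + 1)) : Cell X (n + 1) :=
  O.W n z z' (O.unit (tgt z'))

theorem comp_v3 {X : GlobModel C} {n : ℕ} {z z' : Cell X (n + 1)} (h : tgt z = src z') :
    V3 (Nat.lt_add_one n) z z' (O.unit (tgt z')) := ⟨h, (O.src_unit _).symm⟩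

theorem src_comp {X : GlobModel C} {n : ℕ} {z z' : Cell X (n + 1)} (h : tgt z = src z') :
    src (O.comp z z') = src z := O.W_src _ (O.comp_v3 h)

theorem tgt_comp {X : GlobModel C} {n : ℕ} {z z' : Cell X (n + 1)} (h : tgt z = src z') :
    tgt (O.comp z z') = tgt z' := (O.W_tgt _ (O.comp_v3 h)).trans (O.tgt_unit _)

theorem app_comp' {X Y : GlobModel C} (f : X ⟶ Y) {n : ℕ} {z z' : Cell X (n + 1)}
    (h : tgt z = src z') : app f (O.comp z z') = O.comp (app f z) (app f z') := by
  unfold comp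
  rw [O.app_W f _ (O.comp_v3 h), O.app_unit, app_face]

include O in
theorem step_trans {X : GlobModel C} {n : ℕ} {x y z : Cell X n} (h : Step x y) (h' : Step y z) :
    Step x z := by
  obtain ⟨a, rfl, rfl⟩ := h
  obtain ⟨b, hb, rfl⟩ := h'
  exact ⟨O.comp a b, O.src_comp hb.symm, O.tgt_comp hb.symm⟩

/-- Whiskering preserves `Step`. -/
theorem W_step {X : GlobModel C} {l n : ℕ} (h : l < n) {δ : Cell X (l + 1)}
    {w w' : Cell X n} {γ : Cell X (l + 1)} (hv : V3 h δ w γ) (hs : Step w w') :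
    Step (O.W l δ w γ) (O.W l δ w' γ) := by
  obtain ⟨z, rfl, rfl⟩ := hs
  have hv' : V3 (h.trans (Nat.lt_add_one n)) δ z γ := V3.of_face h _ hv
  exact ⟨O.W l δ z γ, O.W_hi h _ hv' false, O.W_hi h _ hv' true⟩

end Ops

/-- A family of cylinder cells below level `j`: for each `l < j` and side, an `(l+1)`-cell. -/
abbrev Fam (X : GlobModel C) (j : ℕ) : Type u := ∀ l : ℕ, l < j → Bool → Cell X (l + 1)

/-- Restriction of a family to lower levels. -/
abbrev Fam.below {X : GlobModel C} {j j' : ℕ} (G : Fam X j) (h : j' ≤ j) : Fam X j' :=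
  fun l hl b => G l (lt_of_lt_of_le hl h) b

/-- Image of a family under a map of models. -/
noncomputable abbrev Fam.map {X Y : GlobModel C} (f : X ⟶ Y) {j : ℕ} (G : Fam X j) : Fam Y j :=
  fun l hl b => app f (G l hl b)

/-- Transport: the composite of the whiskerings `W l (inv (G l false)) – (G l true)` for
`k ≤ l < j`, lowest level first. -/
noncomputable def tr (O : Ops C) (k : ℕ) {X : GlobModel C} :
    (j : ℕ) → Fam X j → {n : ℕ} → Cell X n → Cell X n
  | 0, _, _, w => w
  | j + 1, G, _, w =>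
    if k ≤ j then
      O.W j (O.inv (G j (Nat.lt_add_one j) false)) (tr O k j (G.below (Nat.le_succ j)) w)
        (G j (Nat.lt_add_one j) true)
    else tr O k j (G.below (Nat.le_succ j)) w

section tr
variable (O : Ops C) (k : ℕ) {X Y : GlobModel C}

@[simp] theorem tr_zero (G : Fam X 0) {n : ℕ} (w : Cell X n) : tr O k 0 G w = w := rfl

theorem tr_succ_of_le {j : ℕ} (hk : k ≤ j) (G : Fam X (j + 1)) {n : ℕ} (w : Cell X n) :
    tr O k (j + 1) G w = O.W j (O.inv (G j (Nat.lt_add_one j) false))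
      (tr O k j (G.below (Nat.le_succ j)) w) (G j (Nat.lt_add_one j) true) := by
  simp only [tr, hk, if_true]

theorem tr_low {j : ℕ} (hj : j ≤ k) (G : Fam X j) {n : ℕ} (w : Cell X n) : tr O k j G w = w := by
  induction j with
  | zero => rfl
  | succ j ih =>
    have : ¬ k ≤ j := by omega
    simp only [tr, this, if_false]
    exact ih (by omega) _

/-- The family `G` is valid for the cell `w` (dimension `n ≥ j`). -/
def TrOK {j n : ℕ} (hj : j ≤ n) (G : Fam X j) (w : Cell X n) : Prop :=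
  ∀ (l : ℕ) (h : l < j) (b : Bool),
    src (G l h b) = tr O k l (G.below h.le) (face (lt_of_lt_of_le h hj) b w) ∧
      (l < k → tgt (G l h b) = face (lt_of_lt_of_le h hj) b w)

variable {O k}

theorem TrOK.below {j j' n : ℕ} {hj : j ≤ n} {G : Fam X j} {w : Cell X n} (H : TrOK O k hj G w)
    (h : j' ≤ j) : TrOK O k (h.trans hj) (G.below h) w :=
  fun l hl b => H l (lt_of_lt_of_le hl h) b

theorem TrOK.face {j l n : ℕ} (hl : j ≤ l) (h : l < n) {G : Fam X j} {w : Cell X n}
    (H : TrOK O k (hl.trans h.le) G w) (b : Bool) : TrOK O k hl G (face h b w) := by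
  intro l' h' b'
  simpa only [face_face] using H l' h' b'

theorem TrOK.of_face {j l n : ℕ} (hl : j ≤ l) (h : l < n) {G : Fam X j} {w : Cell X n} {b : Bool}
    (H : TrOK O k hl G (GC.face h b w)) : TrOK O k (hl.trans h.le) G w := by
  intro l' h' b'
  simpa only [face_face] using H l' h' b'

theorem TrOK.of_par {j n : ℕ} {hj : j ≤ n} {G : Fam X j} {w w' : Cell X n} (H : TrOK O k hj G w)
    (hp : Par w w') : TrOK O k hj G w' := by
  intro l h b
  rw [← hp]; exact H l h b

/-- Faces of a transported cell. -/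
theorem tr_face_aux : ∀ (j : ℕ) {n : ℕ} (hj : j ≤ n) (G : Fam X j) (w : Cell X n),
    TrOK O k hj G w →
      (∀ (l : ℕ) (h : l < j) (b : Bool),
        face (lt_of_lt_of_le h hj) b (tr O k j G w) = tgt (G l h b)) ∧
      (∀ (l : ℕ) (_ : j ≤ l) (h : l < n) (b : Bool),
        face h b (tr O k j G w) = tr O k j G (face h b w)) := by
  intro j
  induction j with
  | zero => intro n hj G w _; exact ⟨fun l h => absurd h (by omega), fun _ _ _ _ => rfl⟩
  | succ j ih =>
    intro n hj G w H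
    have hjn : j < n := hj
    obtain ⟨ih1, ih2⟩ := ih hjn.le (G.below (Nat.le_succ j)) w (H.below (Nat.le_succ j))
    by_cases hk : k ≤ j
    · have hv : V3 hjn (O.inv (G j (Nat.lt_add_one j) false))
          (tr O k j (G.below (Nat.le_succ j)) w) (G j (Nat.lt_add_one j) true) := by
        refine ⟨?_, ?_⟩
        · rw [O.tgt_inv, ih2 j le_rfl hjn false]; exact (H j _ false).1
        · rw [ih2 j le_rfl hjn true]; exact (H j _ true).1.symm
      refine ⟨fun l h b => ?_, fun l hl h b => ?_⟩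
      · rw [tr_succ_of_le O k hk]
        rcases Nat.lt_succ_iff_lt_or_eq.1 h with h' | rfl
        · exact (O.W_lo h' hjn hv b).trans (ih1 l h' b)
        · cases b
          · exact (O.W_src hjn hv).trans (O.src_inv _)
          · exact O.W_tgt hjn hv
      · rw [tr_succ_of_le O k hk, tr_succ_of_le O k hk, O.W_hi (show j < l from hl) h hv b,
          ih2 l (by omega) h b]
    · refine ⟨fun l h b => ?_, fun l hl h b => ?_⟩
      · rw [tr_low O k (by omega)]
        exact ((H l h b).2 (by omega)).symm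
      · rw [tr_low O k (by omega), tr_low O k (by omega)]

theorem TrOK.face_lt {j n : ℕ} {hj : j ≤ n} {G : Fam X j} {w : Cell X n} (H : TrOK O k hj G w)
    {l : ℕ} (h : l < j) (b : Bool) :
    GC.face (lt_of_lt_of_le h hj) b (tr O k j G w) = tgt (G l h b) :=
  (tr_face_aux j hj G w H).1 l h b

theorem TrOK.face_ge {j n : ℕ} {hj : j ≤ n} {G : Fam X j} {w : Cell X n} (H : TrOK O k hj G w)
    {l : ℕ} (hl : j ≤ l) (h : l < n) (b : Bool) :
    GC.face h b (tr O k j G w) = tr O k j G (GC.face h b w) :=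
  (tr_face_aux j hj G w H).2 l hl h b

/-- The whiskering at level `j` used in `tr (j+1)` is valid. -/
theorem TrOK.v3 {j n : ℕ} {hj : j + 1 ≤ n} {G : Fam X (j + 1)} {w : Cell X n}
    (H : TrOK O k hj G w) :
    V3 (show j < n from hj) (O.inv (G j (Nat.lt_add_one j) false))
      (tr O k j (G.below (Nat.le_succ j)) w) (G j (Nat.lt_add_one j) true) := by
  have H' := H.below (Nat.le_succ j)
  refine ⟨?_, ?_⟩
  · rw [O.tgt_inv, H'.face_ge le_rfl hj false]; exact (H j _ false).1
  · rw [H'.face_ge le_rfl hj true]; exact (H j _ true).1.symm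

theorem TrOK.app_tr (f : X ⟶ Y) : ∀ {j n : ℕ} {hj : j ≤ n} {G : Fam X j} {w : Cell X n},
    TrOK O k hj G w → app f (tr O k j G w) = tr O k j (G.map f) (app f w) := by
  intro j
  induction j with
  | zero => intros; rfl
  | succ j ih =>
    intro n hj G w H
    by_cases hk : k ≤ j
    · rw [tr_succ_of_le O k hk, tr_succ_of_le O k hk, O.app_W f _ H.v3, O.app_inv,
        ih (H.below (Nat.le_succ j))]
    · rw [tr_low O k (by omega), tr_low O k (by omega)]

theorem TrOK.map (f : X ⟶ Y) {j n : ℕ} {hj : j ≤ n} {G : Fam X j} {w : Cell X n}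
    (H : TrOK O k hj G w) : TrOK O k hj (G.map f) (app f w) := by
  intro l h b
  refine ⟨?_, fun hl => ?_⟩
  · rw [← app_face, ← app_face, (H l h b).1]
    exact TrOK.app_tr f ((H.below h.le).face le_rfl (lt_of_lt_of_le h hj) b)
  · rw [← app_face, ← app_face, (H l h b).2 hl]

/-- Transport preserves `Step`. -/
theorem TrOK.step {j n : ℕ} {hj : j ≤ n} {G : Fam X j} {w w' : Cell X n} (H : TrOK O k hj G w)
    (hs : Step w w') : Step (tr O k j G w) (tr O k j G w') := by
  obtain ⟨z, rfl, rfl⟩ := hs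
  have H' : TrOK O k (hj.trans (Nat.le_succ n)) G z := TrOK.of_face hj _ H
  exact ⟨tr O k j G z, H'.face_ge hj _ false, H'.face_ge hj _ true⟩

end tr

/-- Relative cylinders of level `k`, truncated at `m`, for an arrow `i : X ⟶ Y`, of shape `S`:
an `S`-diagram `top` in `Y`, a diagram `bot` in `X` on the cells of dimension `≤ m`, and cells
`gam c : tr (i (bot c)) → top c` (units below level `k`). -/
@[ext]
structure Cyl (O : Ops C) (k m : ℕ) {X Y : GlobModel C} (i : X ⟶ Y) (S : Shape) : Type u where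
  top : El Y S
  bot : ∀ l : ℕ, l ≤ m → (globe l ⟶ S) → Cell X l
  gam : ∀ l : ℕ, l ≤ m → (globe l ⟶ S) → Cell Y (l + 1)
  bot_face : ∀ (l : ℕ) (hl : l ≤ m) (c : globe l ⟶ S) (l' : ℕ) (h : l' < l) (b : Bool),
    bot l' (h.le.trans hl) (faceMap h b ≫ c) = face h b (bot l hl c)
  gam_src : ∀ (l : ℕ) (hl : l ≤ m) (c : globe l ⟶ S),
    src (gam l hl c) = tr O k l (fun l' h b => gam l' (h.le.trans hl) (faceMap h b ≫ c))
      (app i (bot l hl c))
  gam_tgt : ∀ (l : ℕ) (hl : l ≤ m) (c : globe l ⟶ S), tgt (gam l hl c) = res c top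
  gam_low : ∀ (l : ℕ) (hl : l ≤ m) (c : globe l ⟶ S), l < k →
    gam l hl c = O.unit (app i (bot l hl c))

namespace Cyl
variable {O : Ops C} {k m : ℕ} {X Y X' Y' X'' Y'' : GlobModel C} {i : X ⟶ Y} {i' : X' ⟶ Y'}
  {i'' : X'' ⟶ Y''} {R S T : Shape}

/-- The family of cylinder cells on the faces of a cell. -/
noncomputable abbrev fam (d : Cyl O k m i S) {l : ℕ} (hl : l ≤ m) (c : globe l ⟶ S) : Fam Y l :=
  fun l' h b => d.gam l' (h.le.trans hl) (faceMap h b ≫ c)

theorem top_low (d : Cyl O k m i S) {l : ℕ} (hl : l ≤ m) (c : globe l ⟶ S) (hk : l < k) :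
    res c d.top = app i (d.bot l hl c) := by
  rw [← d.gam_tgt l hl c, d.gam_low l hl c hk, O.tgt_unit]

theorem trOK (d : Cyl O k m i S) {l : ℕ} (hl : l ≤ m) (c : globe l ⟶ S) :
    TrOK O k le_rfl (d.fam hl c) (app i (d.bot l hl c)) := by
  intro l' h b
  refine ⟨?_, fun hk => ?_⟩
  · rw [d.gam_src, ← app_face, ← d.bot_face]
    congr 1
    funext l'' h' b'
    simp only [faceMap_comp_assoc]
  · rw [d.gam_tgt, d.top_low (h.le.trans hl) _ hk, d.bot_face, app_face]

/-- Restriction along a shape map. -/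
noncomputable def res (d : Cyl O k m i T) (f : S ⟶ T) : Cyl O k m i S where
  top := GC.res f d.top
  bot l hl c := d.bot l hl (c ≫ f)
  gam l hl c := d.gam l hl (c ≫ f)
  bot_face l hl c l' h b := by rw [Category.assoc, d.bot_face]
  gam_src l hl c := by simpa only [Category.assoc] using d.gam_src l hl (c ≫ f)
  gam_tgt l hl c := by rw [d.gam_tgt, res_comp]
  gam_low l hl c hk := d.gam_low l hl _ hk

@[simp] theorem res_top (d : Cyl O k m i T) (f : S ⟶ T) : (d.res f).top = GC.res f d.top := rfl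
@[simp] theorem res_bot (d : Cyl O k m i T) (f : S ⟶ T) (l : ℕ) (hl : l ≤ m) (c : globe l ⟶ S) :
    (d.res f).bot l hl c = d.bot l hl (c ≫ f) := rfl
@[simp] theorem res_gam (d : Cyl O k m i T) (f : S ⟶ T) (l : ℕ) (hl : l ≤ m) (c : globe l ⟶ S) :
    (d.res f).gam l hl c = d.gam l hl (c ≫ f) := rfl

@[simp] theorem res_id (d : Cyl O k m i T) : d.res (𝟙 T) = d := by
  ext <;> simp

theorem res_comp (d : Cyl O k m i T) (f : R ⟶ S) (g : S ⟶ T) :
    d.res (f ≫ g) = (d.res g).res f := by
  ext <;> simp [GC.res_comp]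

/-- Push forward along a map of arrows. -/
noncomputable def push (d : Cyl O k m i S) (f : X ⟶ X') (g : Y ⟶ Y') (w : i ≫ g = f ≫ i') :
    Cyl O k m i' S where
  top := app g d.top
  bot l hl c := app f (d.bot l hl c)
  gam l hl c := app g (d.gam l hl c)
  bot_face l hl c l' h b := by rw [d.bot_face, app_face]
  gam_src l hl c := by
    rw [← app_face, d.gam_src, (d.trOK hl c).app_tr g, ← app_comp i g, w, app_comp]
  gam_tgt l hl c := by rw [← app_face, d.gam_tgt, app_res]
  gam_low l hl c hk := by rw [d.gam_low l hl c hk, O.app_unit, ← app_comp i g, w, app_comp]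

@[simp] theorem push_top (d : Cyl O k m i S) (f : X ⟶ X') (g : Y ⟶ Y') (w : i ≫ g = f ≫ i') :
    (d.push f g w).top = app g d.top := rfl
@[simp] theorem push_bot (d : Cyl O k m i S) (f : X ⟶ X') (g : Y ⟶ Y') (w : i ≫ g = f ≫ i')
    (l : ℕ) (hl : l ≤ m) (c : globe l ⟶ S) :
    (d.push f g w).bot l hl c = app f (d.bot l hl c) := rfl
@[simp] theorem push_gam (d : Cyl O k m i S) (f : X ⟶ X') (g : Y ⟶ Y') (w : i ≫ g = f ≫ i')
    (l : ℕ) (hl : l ≤ m) (c : globe l ⟶ S) :
    (d.push f g w).gam l hl c = app g (d.gam l hl c) := rfl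

theorem push_res (d : Cyl O k m i T) (f : X ⟶ X') (g : Y ⟶ Y') (w : i ≫ g = f ≫ i')
    (c : S ⟶ T) : (d.push f g w).res c = (d.res c).push f g w := by
  ext <;> simp [app_res]

theorem push_push (d : Cyl O k m i S) (f : X ⟶ X') (g : Y ⟶ Y') (w : i ≫ g = f ≫ i')
    (f' : X' ⟶ X'') (g' : Y' ⟶ Y'') (w' : i' ≫ g' = f' ≫ i'') :
    (d.push f g w).push f' g' w' = d.push (f ≫ f') (g ≫ g')
      (by rw [← Category.assoc, w, Category.assoc, w', Category.assoc]) := rfl

theorem push_id (d : Cyl O k m i S) : d.push (𝟙 X) (𝟙 Y) (by simp) = d := rfl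

end Cyl

end Crest.Agent.GC
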